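import Vale.Agent.P130.Simple.Defs

/-!
# P130: independent translates in the windows

With independent uniform translates the deviations of the averaged matrix entries have mean at most
`K / √W`, so one choice of translates controls the quadratic form for every frequency.
-/

open Finset MeasureTheory
open scoped ComplexConjugate

namespace Vale.Agent.P130.Simple

open Vale.Agent.P110.UF (ex)

lemma av_norm_ex (x : ℝ) : ‖ex x‖ = 1 := Complex.norm_exp_ofReal_mul_I _

lemma cube_volume (d : ℕ) : volume (cube d) = 1 := by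
  simp [cube, volume_pi_pi]

variable {W : ℕ} {Ω : Type*} [MeasurableSpace Ω] (ν : Measure Ω) [IsProbabilityMeasure ν]

/-- Distinct coordinates of a product are uncorrelated. -/
lemma integral_coord_mul {j l : Fin W} (hjl : j ≠ l) (f g : Ω → ℂ) :
    ∫ φ, f (φ j) * g (φ l) ∂(Measure.pi fun _ : Fin W => ν) = (∫ x, f x ∂ν) * ∫ x, g x ∂ν := by
  classical
  set F : Fin W → Ω → ℂ := fun i => if i = j then f else if i = l then g else fun _ => 1
  have hj : F j = f := if_pos rfl
  have hl : F l = g := by simp [F, hjl.symm]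
  have ho : ∀ i, i ≠ j ∧ i ≠ l → F i = fun _ => 1 := fun i hi => by simp [F, hi.1, hi.2]
  have key := integral_fintype_prod_eq_prod (μ := fun _ : Fin W => ν) F
  rw [prod_eq_mul j l hjl (fun i _ hi => by rw [ho i hi]; simp)
    (fun h => absurd (mem_univ _) h) (fun h => absurd (mem_univ _) h), hj, hl] at key
  rw [← key]
  refine integral_congr_ae (Filter.Eventually.of_forall fun φ => ?_)
  simp only
  rw [prod_eq_mul j l hjl (fun i _ hi => by rw [ho i hi])
    (fun h => absurd (mem_univ _) h) (fun h => absurd (mem_univ _) h), hj, hl]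

/-- The mean modulus of a centred independent sum. -/
lemma mean_sum_le {K : ℝ} (hK : 0 ≤ K) (z : Fin W → Ω → ℂ) (hz : ∀ j, Measurable (z j))
    (hb : ∀ j x, ‖z j x‖ ≤ K) :
    ∫ φ, ‖∑ j, (z j (φ j) - ∫ x, z j x ∂ν)‖ ∂(Measure.pi fun _ : Fin W => ν) ≤
      Real.sqrt W * K := by
  set P := Measure.pi fun _ : Fin W => ν
  set y : Fin W → Ω → ℂ := fun j x => z j x - ∫ x, z j x ∂ν
  have hym : ∀ j, Measurable (y j) := fun j => (hz j).sub_const _
  have hyb : ∀ j x, ‖y j x‖ ≤ 2 * K := fun j x => by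
    refine (norm_sub_le _ _).trans ?_
    have h1 : ‖∫ x, z j x ∂ν‖ ≤ K := by
      simpa using norm_integral_le_of_norm_le_const (μ := ν)
        (Filter.Eventually.of_forall (hb j))
    linarith [hb j x]
  have hzi : ∀ j, Integrable (z j) ν := fun j =>
    Integrable.of_bound (hz j).aestronglyMeasurable K (Filter.Eventually.of_forall (hb j))
  have hy0 : ∀ j, ∫ x, y j x ∂ν = 0 := fun j => by
    simp only [y]
    rw [integral_sub (hzi j) (integrable_const _)]
    simp
  have hev : ∀ j, Measurable fun φ : Fin W → Ω => y j (φ j) := fun j =>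
    (hym j).comp (measurable_pi_apply j)
  set Z : (Fin W → Ω) → ℂ := fun φ => ∑ j, y j (φ j)
  have hZm : Measurable Z := Finset.measurable_sum _ fun j _ => hev j
  have hZb : ∀ φ, ‖Z φ‖ ≤ 2 * K * W := fun φ => by
    refine (norm_sum_le _ _).trans ((sum_le_sum fun j _ => hyb j (φ j)).trans (le_of_eq ?_))
    simp; ring
  have hpair : ∀ j l, Integrable (fun φ : Fin W → Ω => conj (y j (φ j)) * y l (φ l)) P :=
    fun j l => by
      refine Integrable.of_bound ((Complex.continuous_conj.measurable.comp (hev j)).mul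
        (hev l)).aestronglyMeasurable (2 * K * (2 * K)) (Filter.Eventually.of_forall fun φ => ?_)
      rw [norm_mul, Complex.norm_conj]
      exact mul_le_mul (hyb j _) (hyb l _) (norm_nonneg _) (by linarith)
  have hdiag : ∀ j, ∫ φ : Fin W → Ω, ‖y j (φ j)‖ ^ 2 ∂P ≤ K ^ 2 := fun j => by
    have h1 : ∫ φ : Fin W → Ω, ‖y j (φ j)‖ ^ 2 ∂P = ∫ x, ‖y j x‖ ^ 2 ∂ν :=
      integral_comp_eval (μ := fun _ : Fin W => ν) (i := j) (f := fun x => ‖y j x‖ ^ 2)
        ((hym j).norm.pow_const 2).aestronglyMeasurable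
    set m := ∫ x, z j x ∂ν with hm
    have hcross : Integrable (fun x => z j x * conj m) ν := (hzi j).mul_const _
    have hsq : Integrable (fun x => ‖z j x‖ ^ 2) ν :=
      Integrable.of_bound ((hz j).norm.pow_const 2).aestronglyMeasurable (K ^ 2)
        (Filter.Eventually.of_forall fun x => by
          rw [Real.norm_eq_abs, abs_of_nonneg (sq_nonneg _)]
          exact pow_le_pow_left₀ (norm_nonneg _) (hb j x) 2)
    have e : (fun x => ‖y j x‖ ^ 2) =
        fun x => ‖z j x‖ ^ 2 - 2 * RCLike.re (z j x * conj m) + ‖m‖ ^ 2 := by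
      funext x
      simp only [y, ← Complex.normSq_eq_norm_sq, Complex.normSq_sub, RCLike.re_eq_complex_re]
      ring
    have hre : ∫ x, RCLike.re (z j x * conj m) ∂ν = ‖m‖ ^ 2 := by
      rw [integral_re hcross, integral_mul_const, ← hm, Complex.mul_conj,
        Complex.normSq_eq_norm_sq]
      exact Complex.ofReal_re _
    have hre' : Integrable (fun x => 2 * RCLike.re (z j x * conj m)) ν :=
      hcross.re.const_mul 2
    rw [h1, e, integral_add (f := fun x => ‖z j x‖ ^ 2 - 2 * RCLike.re (z j x * conj m))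
      (g := fun _ => ‖m‖ ^ 2) (hsq.sub hre') (integrable_const _),
      integral_sub hsq hre', integral_const_mul, hre, integral_const]
    simp only [probReal_univ, smul_eq_mul, one_mul]
    have h2 : ∫ x, ‖z j x‖ ^ 2 ∂ν ≤ K ^ 2 := by
      have := integral_mono hsq (integrable_const (K ^ 2)) fun x =>
        pow_le_pow_left₀ (norm_nonneg _) (hb j x) 2
      simpa using this
    nlinarith [sq_nonneg ‖m‖]
  have hnsq : ∀ φ, ((‖Z φ‖ ^ 2 : ℝ) : ℂ) = ∑ j, ∑ l, conj (y j (φ j)) * y l (φ l) := fun φ => by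
    rw [← Complex.normSq_eq_norm_sq, Complex.normSq_eq_conj_mul_self]
    simp only [Z, map_sum, sum_mul, mul_sum]
    rw [sum_comm]
  have hsum : ((∫ φ, ‖Z φ‖ ^ 2 ∂P : ℝ) : ℂ) =
      ∑ j, ((∫ φ : Fin W → Ω, ‖y j (φ j)‖ ^ 2 ∂P : ℝ) : ℂ) := by
    rw [← integral_complex_ofReal]
    simp only [hnsq]
    rw [integral_finsetSum _ fun j _ => integrable_finsetSum _ fun l _ => hpair j l]
    refine sum_congr rfl fun j _ => ?_
    rw [integral_finsetSum _ fun l _ => hpair j l, sum_eq_single j]
    · rw [← integral_complex_ofReal]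
      refine integral_congr_ae (Filter.Eventually.of_forall fun φ => ?_)
      simp only [← Complex.normSq_eq_norm_sq, Complex.normSq_eq_conj_mul_self]
    · intro l _ hlj
      rw [integral_coord_mul ν (Ne.symm hlj) (fun x => conj (y j x)) (y l), hy0, mul_zero]
    · exact fun h => absurd (mem_univ j) h
  have hvar : ∫ φ, ‖Z φ‖ ^ 2 ∂P ≤ W * K ^ 2 := by
    rw [← Complex.ofReal_sum] at hsum
    rw [Complex.ofReal_injective hsum]
    refine (sum_le_sum fun j _ => hdiag j).trans (le_of_eq ?_)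
    simp
  have hZi : Integrable (fun φ => ‖Z φ‖) P :=
    Integrable.of_bound hZm.norm.aestronglyMeasurable (2 * K * W)
      (Filter.Eventually.of_forall fun φ => by rw [norm_norm]; exact hZb φ)
  have hZ2 : Integrable (fun φ => ‖Z φ‖ ^ 2) P :=
    Integrable.of_bound (hZm.norm.pow_const 2).aestronglyMeasurable ((2 * K * W) ^ 2)
      (Filter.Eventually.of_forall fun φ => by
        rw [Real.norm_eq_abs, abs_of_nonneg (sq_nonneg _)]
        exact pow_le_pow_left₀ (norm_nonneg _) (hZb φ) 2)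
  set a := ∫ φ, ‖Z φ‖ ∂P
  have hge : a ^ 2 ≤ ∫ φ, ‖Z φ‖ ^ 2 ∂P := by
    have h0 : 0 ≤ ∫ φ, (‖Z φ‖ ^ 2 - 2 * a * ‖Z φ‖ + a ^ 2) ∂P :=
      integral_nonneg fun φ => by
        show (0 : ℝ) ≤ _
        nlinarith [sq_nonneg (‖Z φ‖ - a)]
    rw [integral_add (f := fun φ => ‖Z φ‖ ^ 2 - 2 * a * ‖Z φ‖) (g := fun _ => a ^ 2)
      (hZ2.sub (hZi.const_mul _)) (integrable_const _), integral_sub hZ2 (hZi.const_mul _),
      integral_const_mul, integral_const] at h0
    simp only [probReal_univ, smul_eq_mul, one_mul] at h0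
    nlinarith
  refine le_of_sq_le_sq ?_ (by positivity)
  rw [mul_pow, Real.sq_sqrt (Nat.cast_nonneg _)]
  exact hge.trans hvar

omit [IsProbabilityMeasure ν] in
/-- The quadratic form of a matrix on the frequency vector. -/
lemma form_le {n : ℕ} (D : Fin n → Fin n → ℂ) (ξ : ℝ) :
    (∑ r, ∑ r', D r r' * ex (((r : ℕ) : ℝ) * ξ - ((r' : ℕ) : ℝ) * ξ)).re ≤
      ∑ r, ∑ r', ‖D r r'‖ := by
  refine (Complex.re_le_norm _).trans ((norm_sum_le _ _).trans (sum_le_sum fun r _ => ?_))
  refine (norm_sum_le _ _).trans (le_of_eq (sum_congr rfl fun r' _ => ?_))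
  rw [norm_mul, av_norm_ex, mul_one]

theorem average_stmt : AverageStmt := by
  intro W d n M K η hW hM hK hη
  have : IsProbabilityMeasure (volume.restrict (cube d)) :=
    ⟨by rw [Measure.restrict_apply_univ, cube_volume]⟩
  set ν := volume.restrict (cube d)
  set P := Measure.pi fun _ : Fin W => ν
  set m : Fin W → Fin n → Fin n → ℂ := fun j r r' => ∫ φ in cube d, M j φ r r'
  set T : (Fin W → Fin d → ℝ) → ℝ := fun φ =>
    ∑ r, ∑ r', ‖∑ j, (M j (φ j) r r' - m j r r')‖
  have hterm : ∀ r r', Integrable (fun φ => ‖∑ j, (M j (φ j) r r' - m j r r')‖) P := fun r r' => by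
    refine Integrable.of_bound (Finset.measurable_sum _ fun j _ =>
      ((hM j r r').comp (measurable_pi_apply j)).sub_const _).norm.aestronglyMeasurable
      (∑ j, (K + ‖m j r r'‖)) (Filter.Eventually.of_forall fun φ => ?_)
    rw [norm_norm]
    refine (norm_sum_le _ _).trans (sum_le_sum fun j _ => (norm_sub_le _ _).trans ?_)
    linarith [hK j (φ j) r r']
  have hbd : ∫ φ, T φ ∂P ≤ (n : ℝ) ^ 2 * (Real.sqrt W * K) := by
    simp only [T]
    rw [integral_finsetSum _ fun r _ => integrable_finsetSum _ fun r' _ => hterm r r']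
    have hs : ∀ r r', ∫ φ, ‖∑ j, (M j (φ j) r r' - m j r r')‖ ∂P ≤ Real.sqrt W * K := fun r r' =>
      mean_sum_le ν ((norm_nonneg _).trans (hK ⟨0, hW⟩ 0 r r')) (fun j x => M j x r r')
        (fun j => hM j r r') fun j x => hK j x r r'
    refine (sum_le_sum fun r _ => (le_of_eq (integral_finsetSum _ fun r' _ => hterm r r')).trans
      (sum_le_sum fun r' _ => hs r r')).trans (le_of_eq ?_)
    simp; ring
  obtain ⟨φ, hφ⟩ := exists_le_integral (μ := P) (f := T)
    (integrable_finsetSum _ fun r _ => integrable_finsetSum _ fun r' _ => hterm r r')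
  refine ⟨φ, fun ξ => ?_⟩
  set e : Fin n → Fin n → ℂ := fun r r' => ex (((r : ℕ) : ℝ) * ξ - ((r' : ℕ) : ℝ) * ξ)
  have hsplit : (∑ j, (∑ r, ∑ r', M j (φ j) r r' * e r r').re) =
      (∑ j, (∑ r, ∑ r', m j r r' * e r r').re) +
        (∑ r, ∑ r', (∑ j, (M j (φ j) r r' - m j r r')) * e r r').re := by
    simp only [← Complex.re_sum, ← Complex.add_re]
    congr 1
    simp only [sum_mul, sub_mul]
    rw [sum_comm (s := (univ : Finset (Fin W))), sum_comm (s := (univ : Finset (Fin W))),
      ← sum_add_distrib]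
    refine sum_congr rfl fun r _ => ?_
    rw [sum_comm (s := (univ : Finset (Fin W))), sum_comm (s := (univ : Finset (Fin W))),
      ← sum_add_distrib]
    refine sum_congr rfl fun r' _ => ?_
    rw [sum_sub_distrib]; ring
  have h1 : (∑ j, (∑ r, ∑ r', m j r r' * e r r').re) ≤ (W : ℝ) * η := by
    refine (sum_le_sum fun j _ => hη j ξ).trans (le_of_eq ?_)
    simp
  have h2 : (∑ r, ∑ r', (∑ j, (M j (φ j) r r' - m j r r')) * e r r').re ≤
      (n : ℝ) ^ 2 * (Real.sqrt W * K) :=
    (form_le (fun r r' => ∑ j, (M j (φ j) r r' - m j r r')) ξ).trans (hφ.trans hbd)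
  have hW' : (0 : ℝ) < W := Nat.cast_pos.2 hW
  have hs : 0 < Real.sqrt W := Real.sqrt_pos.2 hW'
  rw [div_le_iff₀ hW', hsplit]
  refine (add_le_add h1 h2).trans (le_of_eq ?_)
  rw [add_mul, div_mul_eq_mul_div, mul_div_assoc, Real.div_sqrt]
  ring

end Vale.Agent.P130.Simple
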