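import Vale.Agent.P130.Simple.Defs

/-!
# P130: parameters of the rank one construction from flat stages
-/

open Finset
open Vale.Agent.P110.UF (ex)

namespace Vale.Agent.P130.Simple

theorem norm_ex' (x : ℝ) : ‖ex x‖ = 1 := Complex.norm_exp_ofReal_mul_I _

theorem ex_add' (x y : ℝ) : ex (x + y) = ex x * ex y := by
  rw [ex, ex, ex, ← Complex.exp_add]; congr 1; push_cast; ring

/-- A common offset does not change the modulus. -/
theorem norm_stageP_offset (p B c : ℕ) (σ : ℕ → ℕ) (ξ : ℝ) :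
    ‖stageP p B (fun i => c + σ i) ξ‖ = ‖stageP p B σ ξ‖ := by
  have h : ∑ i ∈ range p, ex (((i * B + (c + σ i) : ℕ) : ℝ) * ξ) =
      ex ((c : ℝ) * ξ) * ∑ i ∈ range p, ex (((i * B + σ i : ℕ) : ℝ) * ξ) := by
    rw [mul_sum]
    refine sum_congr rfl fun i _ => ?_
    rw [← ex_add']
    congr 1
    push_cast
    ring
  simp only [stageP, norm_mul, h, norm_ex', one_mul]

theorem chain_stmt : ChainStmt := by
  intro hS
  have hη : ∀ J : ℕ, (0 : ℝ) < (1 / 4) ^ J := fun J => by positivity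
  choose D₀ hD using fun J : ℕ => hS ((1 / 4 : ℝ) ^ J) (hη J)
  -- the block length of stage `J` for a tower of height `h`
  set blk : ℕ → ℕ → ℕ := fun J h => h + D₀ J + 2 * (J + 1) + 2 with hblk
  set need : ℕ → ℕ := fun J => 2 ^ J * (D₀ J + 2 * (J + 1) + 2) with hneed
  choose p hpN hp σ hσ hflat using
    fun J h : ℕ => hD J (D₀ J) (blk J h) (need (J + 1)) le_rfl
  let H : ℕ → ℕ := fun J => Nat.rec (motive := fun _ => ℕ) (1 : ℕ) (fun J h => p J h * blk J h) J
  have hH0 : H 0 = 1 := rfl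
  have hHs : ∀ J, H (J + 1) = p J (H J) * blk J (H J) := fun J => rfl
  have hgrow : ∀ J, need J ≤ 2 ^ 0 * (D₀ 0 + 4) * H J ∧ 0 < H J ∧ (1 ≤ J → need J ≤ H J) := by
    intro J
    rcases J with _ | J
    · refine ⟨?_, by rw [hH0]; norm_num, fun h => absurd h (by norm_num)⟩
      simp [hneed, hH0]
    · have h1 : need (J + 1) ≤ H (J + 1) := by
        rw [hHs]
        exact le_trans (hpN J (H J)) (Nat.le_mul_of_pos_right _ (by simp [hblk]))
      have h2 : 0 < need (J + 1) := by positivity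
      exact ⟨le_trans h1 (Nat.le_mul_of_pos_left _ (by positivity)), by omega, fun _ => h1⟩
  refine ⟨{
    H := H
    p := fun J => p J (H J)
    B := fun J => blk J (H J)
    off := fun J i => (J + 1) + σ J (H J) i
    H_zero := hH0
    p_pos := fun J => hp J (H J)
    H_succ := hHs
    lead := fun J i => Nat.le_add_right _ _
    trail := fun J i => by
      have := hσ J (H J) i
      simp only [hblk]
      omega
    small := ?_
    flat := fun J n hn g => ?_ }⟩
  · refine Summable.of_nonneg_of_le (fun J => ?_) (fun J => ?_)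
      ((summable_geometric_of_lt_one (r := (1 / 2 : ℝ)) (by norm_num) (by norm_num)).mul_left
        (((D₀ 0 + 4 : ℕ) : ℝ)))
    · refine div_nonneg (sub_nonneg.2 ?_) (Nat.cast_nonneg _)
      exact_mod_cast (by simp only [hblk]; omega : H J ≤ blk J (H J))
    · obtain ⟨h1, h2, -⟩ := hgrow J
      have h2' : (0 : ℝ) < Nat.cast (R := ℝ) (H J) := Nat.cast_pos.2 h2
      rw [div_le_iff₀ h2']
      have e : ((blk J (H J) : ℕ) : ℝ) - H J = ((D₀ J + 2 * (J + 1) + 2 : ℕ) : ℝ) := by
        simp only [hblk]; push_cast; ring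
      have h1' : ((need J : ℕ) : ℝ) ≤ ((2 ^ 0 * (D₀ 0 + 4) * H J : ℕ) : ℝ) := Nat.cast_le.2 h1
      simp only [hneed] at h1'
      rw [e]
      push_cast at h1' ⊢
      rw [one_div, inv_pow]
      have h3 : (0 : ℝ) < (2 : ℝ) ^ J := by positivity
      rw [show ((D₀ 0 : ℝ) + 4) * ((2 : ℝ) ^ J)⁻¹ * H J =
        (((D₀ 0 : ℝ) + 4) * H J) / (2 : ℝ) ^ J by field_simp, le_div_iff₀ h3]
      linarith
  · simp only [norm_stageP_offset]
    exact hflat J (H J) n (by simp only [hblk]; omega) g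

end Vale.Agent.P130.Simple
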