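import Vale.Agent.P130.Simple.Defs
import Vale.Agent.P130.Chirp

/-!
P130: chirps of real width `b ≤ 1 / 2` become flat on their interval in mean square.

The squared modulus of a chirp divided by its length has autocorrelations which are geometric
sums; they are dominated by a multiple of `1 / |d|` and converge to the Fourier coefficients of
the normalised indicator of the interval, so Parseval and dominated convergence give the limit.
-/

open MeasureTheory Filter Complex Finset
open scoped Topology Real ComplexConjugate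

namespace Vale.Agent.P130.Simple.ChirpPf

noncomputable section

open Vale.Agent.P130 (Circ haar fourier_coe ex_eq ex_neg ex_add norm_ex integral_fourier
  fourierCoeff_neg_of_real sq_sub_le)

/-- The character of the circle on the line. -/
abbrev e (t : ℝ) : ℂ := Vale.Agent.P130.ex t

/-- Coefficients of the chirp. -/
def chirpC (b : ℝ) (L j : ℕ) : ℂ := e (-(b * (j : ℝ) ^ 2 / (2 * L)))

/-- The chirp on the circle. -/
def chirp (b : ℝ) (L : ℕ) (x : Circ) : ℂ := ∑ j ∈ range L, chirpC b L j * fourier (j : ℤ) x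

/-- Square modulus divided by the length. -/
def power (b : ℝ) (L : ℕ) (x : Circ) : ℝ := ‖chirp b L x‖ ^ 2 / L

/-- The indicator of the arc `[0, b)`. -/
def first (b : ℝ) (x : Circ) : ℝ :=
  if ((AddCircle.measurableEquivIco (1 : ℝ) 0 x : Set.Ico (0 : ℝ) (0 + 1)) : ℝ) < b then 1 else 0

theorem measurable_first (b : ℝ) : Measurable (first b) := by
  have h : Measurable fun x : Circ =>
      ((AddCircle.measurableEquivIco (1 : ℝ) 0 x : Set.Ico (0 : ℝ) (0 + 1)) : ℝ) :=
    measurable_subtype_coe.comp (AddCircle.measurableEquivIco (1 : ℝ) 0).measurable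
  exact Measurable.ite (measurableSet_lt h measurable_const) measurable_const measurable_const

theorem first_mem (b : ℝ) (x : Circ) : first b x = 0 ∨ first b x = 1 := by
  unfold first; split_ifs <;> simp

theorem first_coe (b t : ℝ) : first b (t : Circ) = if Int.fract t < b then 1 else 0 := by
  have h : ((AddCircle.measurableEquivIco (1 : ℝ) 0 (t : Circ) : Set.Ico (0 : ℝ) (0 + 1)) : ℝ) =
      Int.fract t := by
    change toIcoMod _ 0 t = Int.fract t
    rw [toIcoMod_zero_one]
  simp only [first, h]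

/-- The exponent attached to a frequency. -/
def freq (b : ℝ) (d : ℕ) : ℂ := -(2 * π * I * d * b)

theorem exp_freq (b : ℝ) (d : ℕ) (t : ℝ) :
    Complex.exp (freq b d * t) = e (-(d * b * t)) := by
  rw [e, ex_eq, freq]; congr 1; push_cast; ring

theorem norm_freq {b : ℝ} (hb : 0 < b) (d : ℕ) : ‖freq b d‖ = 2 * π * d * b := by
  rw [freq]; simp [abs_of_pos Real.pi_pos, abs_of_pos hb]

theorem freq_ne_zero {b : ℝ} (hb : 0 < b) {d : ℕ} (hd : 0 < d) : freq b d ≠ 0 := by
  rw [freq]; simp [Complex.I_ne_zero, Real.pi_ne_zero, hb.ne', hd.ne']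

theorem fourierCoeff_first {b : ℝ} (hb : 0 < b) (hb1 : b < 1) (d : ℕ) :
    fourierCoeff (fun x => ((b⁻¹ : ℝ) : ℂ) * (first b x : ℂ)) d =
      if d = 0 then 1 else (Complex.exp (freq b d) - 1) / freq b d := by
  rw [fourierCoeff_eq_intervalIntegral _ _ 0]
  simp only [zero_add, div_one, one_smul, smul_eq_mul]
  have hbc : (b : ℂ) ≠ 0 := by exact_mod_cast hb.ne'
  have hae : ∀ᵐ t : ℝ, t ∈ Set.uIoc (0 : ℝ) 1 →
      fourier (-(d : ℤ)) (t : Circ) * (((b⁻¹ : ℝ) : ℂ) * (first b (t : Circ) : ℂ)) =
      (Set.Iic b).indicator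
        (fun t : ℝ => ((b⁻¹ : ℝ) : ℂ) * fourier (-(d : ℤ)) (t : Circ)) t := by
    have hne : ∀ᵐ t : ℝ, t ≠ b ∧ t ≠ 1 := (ae_iff.2 (by simp)).and (ae_iff.2 (by simp))
    filter_upwards [hne] with t ⟨ht1, ht2⟩ ht
    rw [Set.uIoc_of_le zero_le_one] at ht
    rw [first_coe, Int.fract_eq_self.2 ⟨ht.1.le, lt_of_le_of_ne ht.2 ht2⟩]
    rcases lt_or_gt_of_ne ht1 with h | h
    · rw [Set.indicator_of_mem (show t ∈ Set.Iic b from h.le), if_pos h]
      push_cast; ring
    · rw [Set.indicator_of_notMem (show t ∉ Set.Iic b from not_le.2 h), if_neg (not_lt.2 h.le)]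
      simp
  rw [intervalIntegral.integral_congr_ae hae, intervalIntegral.integral_of_le zero_le_one,
    setIntegral_indicator measurableSet_Iic, Set.Ioc_inter_Iic, min_eq_right hb1.le,
    ← intervalIntegral.integral_of_le hb.le, intervalIntegral.integral_const_mul]
  by_cases hd : d = 0
  · subst hd
    simp [hbc]
  rw [if_neg hd]
  have hw : freq b d / (b : ℂ) ≠ 0 := div_ne_zero (freq_ne_zero hb (Nat.pos_of_ne_zero hd)) hbc
  have : ∀ t : ℝ, fourier (-(d : ℤ)) (t : Circ) = Complex.exp (freq b d / b * t) := by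
    intro t
    rw [fourier_coe, show freq b d / (b : ℂ) * (t : ℂ) = freq b d * ((t / b : ℝ) : ℂ) by
      push_cast; ring, exp_freq, e]
    congr 1
    push_cast
    field_simp
  simp only [this]
  rw [integral_exp_mul_complex hw]
  simp only [Complex.ofReal_zero, mul_zero, Complex.exp_zero, Complex.ofReal_inv,
    div_mul_cancel₀ _ hbc]
  field_simp

theorem continuous_chirp (b : ℝ) (L : ℕ) : Continuous (chirp b L) :=
  continuous_finsetSum _ fun _ _ => continuous_const.mul (map_continuous _)

theorem continuous_power (b : ℝ) (L : ℕ) : Continuous (power b L) :=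
  ((continuous_chirp b L).norm.pow 2).div_const _

theorem power_expand (b : ℝ) (L : ℕ) (x : Circ) :
    (power b L x : ℂ) = (L : ℂ)⁻¹ * ∑ i ∈ range L, ∑ j ∈ range L,
      (chirpC b L j * conj (chirpC b L i)) * fourier ((j : ℤ) - i) x := by
  have h : ((‖chirp b L x‖ ^ 2 : ℝ) : ℂ) = conj (chirp b L x) * chirp b L x := by
    rw [Complex.conj_mul']; push_cast; rfl
  rw [power, Complex.ofReal_div, h, Complex.ofReal_natCast, div_eq_inv_mul, chirp, map_sum,
    Finset.sum_mul_sum]
  congr 1
  refine sum_congr rfl fun i _ => sum_congr rfl fun j _ => ?_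
  rw [sub_eq_add_neg, fourier_add, fourier_neg, map_mul]
  ring

theorem fourierCoeff_power (b : ℝ) (L d : ℕ) :
    fourierCoeff (fun x => (power b L x : ℂ)) d =
      (L : ℂ)⁻¹ * ∑ i ∈ range (L - d), chirpC b L (i + d) * conj (chirpC b L i) := by
  have hint : ∀ i j : ℕ, Integrable (fun x : Circ =>
      (chirpC b L j * conj (chirpC b L i)) * fourier ((j : ℤ) - i - d) x) haar := fun i j =>
    (continuous_const.mul (map_continuous _)).integrable_of_hasCompactSupport
      (HasCompactSupport.of_compactSpace _)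
  have h : ∀ x : Circ, fourier (-(d : ℤ)) x • (power b L x : ℂ) = (L : ℂ)⁻¹ *
      ∑ i ∈ range L, ∑ j ∈ range L,
        (chirpC b L j * conj (chirpC b L i)) * fourier ((j : ℤ) - i - d) x := by
    intro x
    rw [power_expand, smul_eq_mul, mul_left_comm, Finset.mul_sum]
    congr 1
    refine sum_congr rfl fun i _ => ?_
    rw [Finset.mul_sum]
    refine sum_congr rfl fun j _ => ?_
    rw [sub_eq_add_neg ((j : ℤ) - i) d, fourier_add]
    ring
  rw [fourierCoeff]
  simp only [h]
  rw [integral_const_mul,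
    integral_finsetSum _ fun i _ => integrable_finsetSum _ fun j _ => hint i j]
  congr 1
  have h2 : ∀ i ∈ range L, ∫ x : Circ, ∑ j ∈ range L,
      (chirpC b L j * conj (chirpC b L i)) * fourier ((j : ℤ) - i - d) x ∂haar =
      if i < L - d then chirpC b L (i + d) * conj (chirpC b L i) else 0 := by
    intro i _
    rw [integral_finsetSum _ fun j _ => hint i j]
    simp only [integral_const_mul, integral_fourier]
    have : ∀ j : ℕ, ((j : ℤ) - i - d = 0) ↔ j = i + d := fun j => by omega
    simp only [this, mul_ite, mul_one, mul_zero, Finset.sum_ite_eq', Finset.mem_range]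
    split_ifs <;> first | rfl | omega
  rw [sum_congr rfl h2, ← Finset.sum_filter]
  refine sum_congr ?_ fun _ _ => rfl
  ext i
  simp only [Finset.mem_filter, Finset.mem_range]
  omega

theorem chirpC_mul_conj (b : ℝ) (L d i : ℕ) :
    chirpC b L (i + d) * conj (chirpC b L i) =
      Complex.exp (freq b d * ((d : ℝ) / (2 * L) : ℝ)) *
        Complex.exp (freq b d * ((1 : ℝ) / L : ℝ)) ^ i := by
  rw [← Complex.exp_nat_mul, ← Complex.exp_add, chirpC, chirpC, e, e, ← ex_neg, ← ex_add,
    show (freq b d * ((d : ℝ) / (2 * L) : ℝ) + (i : ℕ) * (freq b d * ((1 : ℝ) / L : ℝ))) =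
      freq b d * (((d : ℝ) / (2 * L) + i / L : ℝ) : ℂ) by push_cast; ring, exp_freq]
  congr 1
  push_cast
  ring

theorem fourierCoeff_power_zero (b : ℝ) (L : ℕ) (hL : 0 < L) :
    fourierCoeff (fun x => (power b L x : ℂ)) ((0 : ℕ) : ℤ) = 1 := by
  rw [fourierCoeff_power]
  have h : ∀ i, chirpC b L (i + 0) * conj (chirpC b L i) = 1 := by
    intro i
    rw [chirpC_mul_conj]
    simp [freq]
  simp only [h, Nat.sub_zero, Finset.sum_const, Finset.card_range, nsmul_eq_mul, mul_one]
  exact inv_mul_cancel₀ (by exact_mod_cast hL.ne')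

/-- A uniform bound on the coefficients. -/
theorem norm_fourierCoeff_power_le {b : ℝ} (hb : 0 < b) (hb2 : b ≤ 1 / 2) (L d : ℕ) (hd : 0 < d) :
    ‖fourierCoeff (fun x => (power b L x : ℂ)) d‖ ≤ 1 / (2 * d * b) := by
  rw [fourierCoeff_power]
  rcases le_or_gt L d with hLd | hLd
  · rw [Nat.sub_eq_zero_of_le hLd]
    simp only [Finset.range_zero, Finset.sum_empty, mul_zero, norm_zero]
    positivity
  have hL0 : (0 : ℝ) < L := by exact_mod_cast lt_of_le_of_lt (Nat.zero_le _) hLd
  have hd0 : (0 : ℝ) < d := by exact_mod_cast hd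
  simp only [chirpC_mul_conj, ← Finset.mul_sum, norm_mul, norm_inv, Complex.norm_natCast]
  rw [exp_freq b d ((d : ℝ) / (2 * L)), e, norm_ex, one_mul]
  set θ : ℝ := π * d * b / L with hθ
  have hθ0 : 0 ≤ θ := by rw [hθ]; positivity
  have hθ2 : θ ≤ π / 2 := by
    rw [hθ, div_le_div_iff₀ hL0 two_pos, mul_assoc π, mul_assoc π]
    refine mul_le_mul_of_nonneg_left ?_ Real.pi_pos.le
    have h1 : (d : ℝ) ≤ L := by exact_mod_cast hLd.le
    nlinarith
  set r := Complex.exp (freq b d * ((1 : ℝ) / L : ℝ)) with hr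
  have hr1 : ‖r‖ = 1 := by rw [hr, exp_freq, e, norm_ex]
  have hdist : 2 * (2 / π * θ) ≤ ‖r - 1‖ := by
    have e0 : r - 1 = Complex.exp (freq b d * ((1 : ℝ) / (2 * L) : ℝ)) *
        (-(2 * Complex.sin (θ : ℂ)) * I) := by
      have e1 : freq b d * ((1 : ℝ) / (2 * L) : ℝ) = -((θ : ℂ) * I) := by
        rw [freq, hθ]; push_cast; field_simp
      have e2 : freq b d * ((1 : ℝ) / L : ℝ) = -((θ : ℂ) * I) + -((θ : ℂ) * I) := by
        rw [freq, hθ]; push_cast; field_simp; ring
      rw [hr, e2, e1, Complex.exp_add, Complex.sin]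
      have e3 : Complex.exp (-((θ : ℂ) * I)) * Complex.exp ((θ : ℂ) * I) = 1 := by
        rw [← Complex.exp_add]; simp
      rw [neg_mul (θ : ℂ) I]
      linear_combination e3 +
        (Complex.exp (-((θ : ℂ) * I)) * Complex.exp (-((θ : ℂ) * I)) -
          Complex.exp (-((θ : ℂ) * I)) * Complex.exp ((θ : ℂ) * I)) * Complex.I_sq
    rw [e0, norm_mul, exp_freq, e, norm_ex, one_mul, norm_mul, norm_neg, norm_mul, Complex.norm_I,
      mul_one, ← Complex.ofReal_sin, Complex.norm_real, Complex.norm_ofNat]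
    exact mul_le_mul_of_nonneg_left
      ((Real.mul_le_sin hθ0 hθ2).trans (le_abs_self _)) two_pos.le
  have hpos : 0 < 2 * (2 / π * θ) := by rw [hθ]; positivity
  have hne : r ≠ 1 := by
    intro h
    rw [h, sub_self, norm_zero] at hdist
    linarith
  rw [geom_sum_eq hne, norm_div]
  calc (L : ℝ)⁻¹ * (‖r ^ (L - d) - 1‖ / ‖r - 1‖) ≤ (L : ℝ)⁻¹ * (2 / (2 * (2 / π * θ))) := by
        gcongr
        calc ‖r ^ (L - d) - 1‖ ≤ ‖r ^ (L - d)‖ + ‖(1 : ℂ)‖ := norm_sub_le _ _
          _ = 2 := by rw [norm_pow, hr1, one_pow, norm_one]; norm_num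
    _ = 1 / (2 * d * b) := by rw [hθ]; field_simp

theorem tendsto_fourierCoeff_power {b : ℝ} (hb : 0 < b) (d : ℕ) (hd : 0 < d) :
    Tendsto (fun L => fourierCoeff (fun x => (power b L x : ℂ)) d) atTop
      (𝓝 ((Complex.exp (freq b d) - 1) / freq b d)) := by
  set w := freq b d with hw
  have hw0 : w ≠ 0 := freq_ne_zero hb hd
  have hslope : Tendsto (fun L : ℕ => ((L : ℝ) : ℂ) * (Complex.exp (w * ((1 : ℝ) / L : ℝ)) - 1))
      atTop (𝓝 w) := by
    have hder : HasDerivAt (fun h : ℝ => Complex.exp (w * (h : ℂ))) w 0 := by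
      have := ((Complex.ofRealCLM.hasDerivAt (x := (0 : ℝ))).const_mul w).cexp
      simpa using this
    have hto : Tendsto (fun L : ℕ => (1 : ℝ) / L) atTop (𝓝[≠] 0) := by
      refine tendsto_nhdsWithin_iff.2 ⟨tendsto_one_div_atTop_nhds_zero_nat, ?_⟩
      filter_upwards [eventually_gt_atTop 0] with L hL
      simp [hL.ne']
    have := hder.tendsto_slope_zero.comp hto
    refine this.congr fun L => ?_
    simp
  have hpow : Tendsto (fun L : ℕ => Complex.exp (w * ((1 - (d : ℝ) / L : ℝ) : ℂ))) atTop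
      (𝓝 (Complex.exp w)) := by
    have : Tendsto (fun L : ℕ => ((1 - (d : ℝ) / L : ℝ) : ℂ)) atTop (𝓝 1) := by
      have := (Complex.continuous_ofReal.tendsto _).comp
        ((tendsto_const_div_atTop_nhds_zero_nat (d : ℝ)).const_sub 1)
      simpa [Function.comp_def] using this
    simpa [Function.comp_def] using (Complex.continuous_exp.tendsto _).comp (this.const_mul w)
  have hphase : Tendsto (fun L : ℕ => Complex.exp (w * ((d : ℝ) / (2 * L) : ℝ))) atTop (𝓝 1) := by
    have : Tendsto (fun L : ℕ => (((d : ℝ) / (2 * L) : ℝ) : ℂ)) atTop (𝓝 0) := by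
      have := (Complex.continuous_ofReal.tendsto _).comp
        (tendsto_const_div_atTop_nhds_zero_nat ((d : ℝ) / 2))
      simpa [Function.comp_def, div_div] using this
    simpa [Function.comp_def] using (Complex.continuous_exp.tendsto _).comp (this.const_mul w)
  have hlim := hphase.mul ((hpow.sub_const 1).div hslope hw0)
  simp only [Pi.div_apply, one_mul] at hlim
  refine hlim.congr' ?_
  filter_upwards [eventually_gt_atTop d, hslope.eventually_ne hw0] with L hL hne
  have hne' : Complex.exp (w * ((1 : ℝ) / L : ℝ)) ≠ 1 := by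
    intro h; exact hne (by rw [h, sub_self, mul_zero])
  rw [fourierCoeff_power]
  simp only [chirpC_mul_conj, ← Finset.mul_sum, ← hw]
  rw [geom_sum_eq hne', ← Complex.exp_nat_mul]
  have : ((L - d : ℕ) : ℂ) * (w * ((1 : ℝ) / L : ℝ)) = w * ((1 - (d : ℝ) / L : ℝ) : ℂ) := by
    have hL0 : (L : ℂ) ≠ 0 := by exact_mod_cast (by omega : L ≠ 0)
    rw [Nat.cast_sub hL.le]; push_cast; field_simp
  rw [this]
  simp only [Complex.ofReal_natCast, div_eq_mul_inv, mul_inv]
  ring

/-- The square moduli converge in mean square. -/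
theorem tendsto_integral_power_sub {b : ℝ} (hb : 0 < b) (hb2 : b ≤ 1 / 2) :
    Tendsto (fun L => ∫ x, (power b L x - b⁻¹ * first b x) ^ 2 ∂haar) atTop (𝓝 0) := by
  have hb1 : b < 1 := by linarith
  set g : ℕ → Circ → ℂ := fun L x => ((power b L x - b⁻¹ * first b x : ℝ) : ℂ) with hg
  have hb0 : 0 ≤ b⁻¹ := inv_nonneg.2 hb.le
  have hbd : ∀ L, MemLp (g L) 2 haar := by
    intro L
    obtain ⟨M, hM⟩ := isCompact_univ.exists_bound_of_continuousOn
      (continuous_power b L).continuousOn
    refine MemLp.of_bound ((Complex.measurable_ofReal.comp ((continuous_power b L).measurable.sub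
      ((measurable_first b).const_mul _))).aestronglyMeasurable) (M + b⁻¹) (ae_of_all _ fun x => ?_)
    simp only [hg, Complex.norm_real, Real.norm_eq_abs]
    have h1 : |power b L x| ≤ M := hM x (Set.mem_univ _)
    rcases first_mem b x with h | h <;> rw [h] <;> rw [abs_le] at h1 ⊢ <;>
      constructor <;> linarith
  have hint1 : ∀ L, Integrable (fun x => (power b L x : ℂ)) haar := fun L =>
    (Complex.continuous_ofReal.comp (continuous_power b L)).integrable_of_hasCompactSupport
      (HasCompactSupport.of_compactSpace _)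
  have hint2 : Integrable (fun x => ((b⁻¹ : ℝ) : ℂ) * (first b x : ℂ)) haar := by
    refine Integrable.of_bound ((measurable_const.mul
      (Complex.measurable_ofReal.comp (measurable_first b))).aestronglyMeasurable) b⁻¹
      (ae_of_all _ fun x => ?_)
    rcases first_mem b x with h | h <;> simp [h, abs_of_pos hb, hb.le]
  have hcoef : ∀ L (n : ℤ), fourierCoeff (g L) n = fourierCoeff (fun x => (power b L x : ℂ)) n -
      fourierCoeff (fun x => ((b⁻¹ : ℝ) : ℂ) * (first b x : ℂ)) n := by
    intro L n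
    simp only [fourierCoeff, hg]
    rw [← integral_sub ((hint1 L).fourier_smul _) (hint2.fourier_smul _)]
    refine integral_congr_ae (ae_of_all _ fun x => ?_)
    simp only [smul_eq_mul]
    push_cast
    ring
  have hbn : ∀ (L : ℕ), 0 < L → ∀ n : ℤ, ‖fourierCoeff (g L) n‖ ≤ b⁻¹ * (1 / |(n : ℝ)|) := by
    intro L hL
    have main : ∀ d : ℕ, ‖fourierCoeff (g L) d‖ ≤ b⁻¹ * (1 / |((d : ℤ) : ℝ)|) := by
      intro d
      rcases Nat.eq_zero_or_pos d with rfl | hd
      · rw [hcoef, fourierCoeff_power_zero b L hL, fourierCoeff_first hb hb1]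
        simp
      rw [hcoef, fourierCoeff_first hb hb1, if_neg hd.ne']
      refine (norm_sub_le _ _).trans ?_
      have h1 := norm_fourierCoeff_power_le hb hb2 L d hd
      have hd0 : (0 : ℝ) < d := by exact_mod_cast hd
      have h2 : ‖(Complex.exp (freq b d) - 1) / freq b d‖ ≤ 2 / (2 * π * d * b) := by
        rw [norm_div, norm_freq hb]
        gcongr
        refine (norm_sub_le _ _).trans ?_
        have := exp_freq b d 1
        rw [Complex.ofReal_one, mul_one] at this
        rw [this, e, norm_ex, norm_one]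
        norm_num
      have h3 : 2 / (2 * π * d * b) ≤ 1 / (2 * d * b) := by
        rw [div_le_div_iff₀ (by positivity) (by positivity)]
        nlinarith [Real.two_le_pi, mul_pos hd0 hb]
      calc _ ≤ 1 / (2 * d * b) + 1 / (2 * d * b) := add_le_add h1 (h2.trans h3)
        _ = _ := by rw [Int.cast_natCast, abs_of_pos hd0]; field_simp; ring
    intro n
    obtain ⟨d, rfl | rfl⟩ := n.eq_nat_or_neg
    · exact main d
    · rw [hg, fourierCoeff_neg_of_real, Complex.norm_conj, Int.cast_neg, abs_neg]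
      exact main d
  have hlim : ∀ n : ℤ, Tendsto (fun L => ‖fourierCoeff (g L) n‖ ^ 2) atTop (𝓝 0) := by
    have main : ∀ d : ℕ, Tendsto (fun L => ‖fourierCoeff (g L) (d : ℤ)‖ ^ 2) atTop (𝓝 0) := by
      intro d
      rcases Nat.eq_zero_or_pos d with rfl | hd
      · refine tendsto_const_nhds.congr' ?_
        filter_upwards [eventually_gt_atTop 0] with L hL
        rw [hcoef, fourierCoeff_power_zero b L hL, fourierCoeff_first hb hb1]
        simp
      have := (tendsto_fourierCoeff_power hb d hd).sub_const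
        (fourierCoeff (fun x => ((b⁻¹ : ℝ) : ℂ) * (first b x : ℂ)) d)
      rw [fourierCoeff_first hb hb1, if_neg hd.ne', sub_self] at this
      have h2 := (this.norm.pow 2)
      simp only [norm_zero, zero_pow two_ne_zero] at h2
      refine h2.congr fun L => ?_
      rw [hcoef, fourierCoeff_first hb hb1, if_neg hd.ne']
    intro n
    obtain ⟨d, rfl | rfl⟩ := n.eq_nat_or_neg
    · exact main d
    · simp only [hg, fourierCoeff_neg_of_real, Complex.norm_conj]
      exact main d
  have hsum : Summable fun n : ℤ => (b⁻¹ * (1 / |(n : ℝ)|)) ^ 2 := by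
    have := (Real.summable_one_div_int_pow.2 one_lt_two).mul_left (b⁻¹ ^ 2)
    refine this.congr fun n => ?_
    rw [mul_pow, div_pow, sq_abs, one_pow]
  have hts : Tendsto (fun L => ∑' n : ℤ, ‖fourierCoeff (g L) n‖ ^ 2) atTop (𝓝 0) := by
    have := tendsto_tsum_of_dominated_convergence hsum hlim
      (Filter.eventually_atTop.2 ⟨1, fun L hL n => by
        rw [norm_pow, norm_norm]
        exact pow_le_pow_left₀ (norm_nonneg _) (hbn L (by omega) n) 2⟩)
    simpa using this
  refine hts.congr fun L => ?_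
  have hP := (hasSum_sq_fourierCoeff ((hbd L).toLp (g L))).tsum_eq
  rw [fourierCoeff_congr_ae (hbd L).coeFn_toLp] at hP
  rw [hP]
  refine integral_congr_ae ?_
  filter_upwards [(hbd L).coeFn_toLp] with x hx
  rw [hx, hg, Complex.norm_real, Real.norm_eq_abs, sq_abs]

/-- The moduli converge in mean square. -/
theorem tendsto_integral_norm_sub {b : ℝ} (hb : 0 < b) (hb2 : b ≤ 1 / 2) :
    Tendsto (fun L : ℕ => ∫ x, ((Real.sqrt L)⁻¹ * ‖chirp b L x‖ - (Real.sqrt b)⁻¹ * first b x) ^ 2
      ∂haar) atTop (𝓝 0) := by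
  rw [Metric.tendsto_atTop]
  intro ε hε
  obtain ⟨N, hN⟩ := (Metric.tendsto_atTop.1 (tendsto_integral_power_sub hb hb2)) (ε ^ 2)
    (by positivity)
  refine ⟨N, fun L hL => ?_⟩
  have h0 : 0 ≤ ∫ x, ((Real.sqrt L)⁻¹ * ‖chirp b L x‖ - (Real.sqrt b)⁻¹ * first b x) ^ 2 ∂haar :=
    integral_nonneg fun x => sq_nonneg _
  have hN' := hN L hL
  rw [Real.dist_eq, sub_zero] at hN' ⊢
  rw [abs_of_nonneg h0]
  rw [abs_of_nonneg (integral_nonneg fun x => sq_nonneg _)] at hN'
  have hpt : ∀ x, ((Real.sqrt L)⁻¹ * ‖chirp b L x‖ - (Real.sqrt b)⁻¹ * first b x) ^ 2 ≤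
      ε / 2 + (power b L x - b⁻¹ * first b x) ^ 2 / (2 * ε) := by
    intro x
    have hf : 0 ≤ first b x := by rcases first_mem b x with h | h <;> simp [h]
    have e1 : power b L x = ((Real.sqrt L)⁻¹ * ‖chirp b L x‖) ^ 2 := by
      rw [mul_pow, inv_pow, Real.sq_sqrt (Nat.cast_nonneg _), power, div_eq_inv_mul]
    have e2 : b⁻¹ * first b x = ((Real.sqrt b)⁻¹ * first b x) ^ 2 := by
      rw [mul_pow, inv_pow, Real.sq_sqrt hb.le]
      rcases first_mem b x with h | h <;> rw [h] <;> norm_num
    rw [e1, e2]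
    exact sq_sub_le (mul_nonneg (inv_nonneg.2 (Real.sqrt_nonneg _)) (norm_nonneg _))
      (mul_nonneg (inv_nonneg.2 (Real.sqrt_nonneg _)) hf) hε
  obtain ⟨M, hM⟩ : ∃ M, ∀ x, ‖(power b L x - b⁻¹ * first b x) ^ 2‖ ≤ M := by
    obtain ⟨M, hM⟩ := isCompact_univ.exists_bound_of_continuousOn
      (continuous_power b L).continuousOn
    refine ⟨(M + b⁻¹) ^ 2, fun x => ?_⟩
    rw [norm_pow]
    refine pow_le_pow_left₀ (norm_nonneg _) ((norm_sub_le _ _).trans
      (add_le_add (hM x (Set.mem_univ _)) ?_)) 2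
    rcases first_mem b x with h | h <;> simp [h, abs_of_pos hb, hb.le]
  have hi : Integrable (fun x => (power b L x - b⁻¹ * first b x) ^ 2) haar :=
    Integrable.of_bound (((continuous_power b L).measurable.sub
      ((measurable_first b).const_mul _)).pow_const 2).aestronglyMeasurable M (ae_of_all _ hM)
  have hm : ∫ x, ((Real.sqrt L)⁻¹ * ‖chirp b L x‖ - (Real.sqrt b)⁻¹ * first b x) ^ 2 ∂haar
      ≤ ∫ x, ((ε / 2 : ℝ) + (power b L x - b⁻¹ * first b x) ^ 2 / (2 * ε)) ∂haar :=
    integral_mono_of_nonneg (ae_of_all _ fun x => sq_nonneg _)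
      (Integrable.add (integrable_const (ε / 2)) (hi.div_const (2 * ε))) (ae_of_all _ hpt)
  rw [integral_add (integrable_const (ε / 2)) (hi.div_const (2 * ε)), integral_div,
    integral_const, probReal_univ, one_smul] at hm
  have hlt : (∫ x, (power b L x - b⁻¹ * first b x) ^ 2 ∂haar) / (2 * ε) < ε / 2 := by
    rw [div_lt_iff₀ (by linarith)]
    calc _ < ε ^ 2 := hN'
      _ = ε / 2 * (2 * ε) := by ring
  simp only [div_eq_mul_inv, integral_mul_const] at hm hlt ⊢
  linarith

theorem e_eq (t : ℝ) : Vale.Agent.P110.UF.ex t = e t := by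
  rw [e, ex_eq, Vale.Agent.P110.UF.ex]; congr 1; push_cast; ring

/-- Integral of a function on the circle along an affine parameter. -/
theorem integral_param (F : Circ → ℝ) (s α : ℝ) (hs : s = 1 ∨ s = -1) :
    ∫ v in (0 : ℝ)..1, F ((s * (v - α) : ℝ) : Circ) = ∫ x, F x ∂haar := by
  have hper : Function.Periodic (fun t : ℝ => F (t : Circ)) 1 := fun t => by simp
  have h0 : ∫ v in (0 : ℝ)..1, F (v : Circ) = ∫ x, F x ∂haar := by
    have h1 := UnitAddCircle.intervalIntegral_preimage (0 : ℝ) F
    rw [zero_add] at h1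
    rw [h1, AddCircle.volume_eq_smul_haarAddCircle]
    simp
  rcases hs with rfl | rfl
  · simp only [one_mul]
    rw [intervalIntegral.integral_comp_sub_right (fun t : ℝ => F (t : Circ)) α, ← h0,
      show (1 : ℝ) - α = (0 - α) + 1 by ring, hper.intervalIntegral_add_eq (0 - α) 0, zero_add]
  · simp only [neg_one_mul, neg_sub]
    rw [intervalIntegral.integral_comp_sub_left (fun t : ℝ => F (t : Circ)) α, ← h0,
      show α - 0 = (α - 1) + 1 by ring, hper.intervalIntegral_add_eq (α - 1) 0, zero_add]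

/-- Chirps become flat on their interval in mean square. -/
theorem _root_.Vale.Agent.P130.Simple.chirp_stmt : ChirpStmt := by
  intro α β hβ hβ2 hlo hhi
  obtain ⟨b, hb, hb2, s, hs, hβs⟩ :
      ∃ b : ℝ, 0 < b ∧ b ≤ 1 / 2 ∧ ∃ s : ℝ, (s = 1 ∨ s = -1) ∧ β = s * b := by
    rcases lt_or_gt_of_ne hβ with h | h
    · exact ⟨-β, neg_pos.2 h, by rwa [← abs_of_neg h], -1, Or.inr rfl, by ring⟩
    · exact ⟨β, h, by rwa [← abs_of_pos h], 1, Or.inl rfl, by ring⟩
  -- the sum is a chirp on the circle
  have hnorm : ∀ (T : ℕ) (v : ℝ),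
      ‖chirpSum α β T v‖ = ‖chirp b T ((s * (v - α) : ℝ) : Circ)‖ := by
    intro T v
    have he : chirp b T ((s * (v - α) : ℝ) : Circ) =
        ∑ k ∈ range T, e (-s * (α * k + β * ((k : ℝ) ^ 2 / (2 * T)) - k * v)) := by
      refine Finset.sum_congr rfl fun k _ => ?_
      rw [chirpC, fourier_coe, e, e, ← Vale.Agent.P130.ex_add, hβs]
      congr 1
      rcases hs with rfl | rfl <;> push_cast <;> ring
    rcases hs with rfl | rfl
    · rw [he, ← Complex.norm_conj (∑ k ∈ range T, _), map_sum, chirpSum]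
      congr 1
      refine Finset.sum_congr rfl fun k _ => ?_
      rw [e_eq, e, e, ← Vale.Agent.P130.ex_neg]
      congr 1
      ring
    · rw [he, chirpSum]
      congr 1
      refine Finset.sum_congr rfl fun k _ => ?_
      rw [e_eq]
      congr 1
      ring
  -- the target is the arc
  have hbox : ∀ᵐ v : ℝ, v ∈ Set.uIoc (0 : ℝ) 1 →
      boxFun α β v = (Real.sqrt b)⁻¹ * first b ((s * (v - α) : ℝ) : Circ) := by
    have hne : ∀ᵐ v : ℝ, v ≠ α ∧ v ≠ α + β ∧ v ≠ 1 :=
      (ae_iff.2 (by simp)).and ((ae_iff.2 (by simp)).and (ae_iff.2 (by simp)))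
    filter_upwards [hne] with v ⟨h1, h2, h3⟩ hv
    rw [Set.uIoc_of_le zero_le_one] at hv
    have hv1 : v < 1 := lt_of_le_of_ne hv.2 h3
    rw [first_coe, boxFun]
    unfold ilo ihi at *
    subst hβs
    rcases hs with rfl | rfl
    · simp only [one_mul] at *
      rw [abs_of_pos hb, min_eq_left (by linarith), max_eq_right (by linarith)]
      rw [min_eq_left (by linarith)] at hlo
      rw [max_eq_right (by linarith)] at hhi
      rcases lt_or_gt_of_ne h1 with h | h
      · rw [Set.indicator_of_notMem (fun hm : v ∈ Set.Ioo α (α + b) => absurd hm.1 (not_lt.2 h.le)),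
          show Int.fract (v - α) = v - α + 1 by
            rw [← Int.fract_add_one (v - α)]
            exact Int.fract_eq_self.2 ⟨by linarith [hv.1], by linarith [hv.1]⟩,
          if_neg (by linarith [hv.1]), mul_zero]
      · rw [Int.fract_eq_self.2 ⟨by linarith, by linarith⟩]
        rcases lt_or_gt_of_ne h2 with h' | h'
        · rw [Set.indicator_of_mem (show v ∈ Set.Ioo α (α + b) from ⟨h, h'⟩),
            if_pos (by linarith), mul_one]
        · rw [Set.indicator_of_notMem
            (fun hm : v ∈ Set.Ioo α (α + b) => absurd hm.2 (not_lt.2 h'.le)),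
            if_neg (by linarith), mul_zero]
    · simp only [neg_one_mul, neg_sub, abs_neg] at *
      rw [abs_of_pos hb, min_eq_right (by linarith), max_eq_left (by linarith)]
      rw [min_eq_right (by linarith)] at hlo
      rw [max_eq_left (by linarith)] at hhi
      rcases lt_or_gt_of_ne h1 with h | h
      · rw [Int.fract_eq_self.2 ⟨by linarith, by linarith [hv.1]⟩]
        rcases lt_or_gt_of_ne h2 with h' | h'
        · rw [Set.indicator_of_notMem
            (fun hm : v ∈ Set.Ioo (α + -b) α => absurd hm.1 (not_lt.2 h'.le)),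
            if_neg (by linarith), mul_zero]
        · rw [Set.indicator_of_mem (show v ∈ Set.Ioo (α + -b) α from ⟨h', h⟩),
            if_pos (by linarith), mul_one]
      · rw [Set.indicator_of_notMem
            (fun hm : v ∈ Set.Ioo (α + -b) α => absurd hm.2 (not_lt.2 h.le)),
          show Int.fract (α - v) = α - v + 1 by
            rw [← Int.fract_add_one (α - v)]; exact Int.fract_eq_self.2 ⟨by linarith, by linarith⟩,
          if_neg (by linarith), mul_zero]
  refine (tendsto_integral_norm_sub hb hb2).congr fun T => ?_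
  rw [← integral_param _ s α hs]
  refine intervalIntegral.integral_congr_ae ?_
  filter_upwards [hbox] with v hv hvm
  rw [hnorm, hv hvm]

end

end Vale.Agent.P130.Simple.ChirpPf
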