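import Vale.Agent.P130.Simple.Defs

/-! # P130: the main term of a stage, and lemmas shared by the combination of the pieces -/

open Finset MeasureTheory Filter Topology

namespace Vale.Agent.P130.Simple

open Vale.Agent.P110.UF (ex)

variable {d : ℕ} {S : Finset (Fin d → ℤ)} {c : (Fin d → ℤ) → ℂ} {η : ℝ}

/-- The main coefficient vector of window `j` at one phase, on the scale of the packing. -/
noncomputable def mainRow (K : Packing S c η) (q : ℕ) (pick : (Fin d → ℤ) → ℕ) (j : Fin K.W)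
    (th : Fin d → ℝ) (r : ℕ) : ℂ :=
  ∑ m ∈ S, ((K.sc j m : ℝ) : ℂ) * c m * avec q (pick m) r * chr m th

/-- The phase of block `k` of window `j`. -/
noncomputable def jitter (K : Packing S c η) (φ : Fin K.W → Fin d → ℝ) (T : ℕ) (j : Fin K.W)
    (k : ℕ) : Fin d → ℝ :=
  K.θ j k ((k : ℝ) ^ 2 / (2 * T)) + φ j

/-- The main part of the polynomial of a stage. -/
noncomputable def mainP (K : Packing S c η) (q : ℕ) (pick : (Fin d → ℤ) → ℕ)
    (φ : Fin K.W → Fin d → ℝ) (T B : ℕ) (ξ : ℝ) : ℂ :=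
  (((Real.sqrt (K.W * T : ℕ))⁻¹ : ℝ) : ℂ) * ∑ j : Fin K.W, ∑ k ∈ range T,
    ex ((((j.val * T + k) * B : ℕ) : ℝ) * ξ) * tp (mainRow K q pick j (jitter K φ T j k)) (q + 1) ξ

namespace CombMain

lemma ex_norm (x : ℝ) : ‖ex x‖ = 1 := Complex.norm_exp_ofReal_mul_I _

lemma ex_add' (x y : ℝ) : ex (x + y) = ex x * ex y := by
  rw [ex, ex, ex, ← Complex.exp_add]; congr 1; push_cast; ring

lemma ex_int' (k : ℤ) : ex (k : ℝ) = 1 := by
  rw [ex, ← Complex.exp_int_mul_two_pi_mul_I k]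
  congr 1; push_cast; ring

lemma ex_natmul (k : ℕ) (x : ℝ) : ex ((k : ℝ) * x) = ex x ^ k := by
  rw [ex, ex, ← Complex.exp_nat_mul]; congr 1; push_cast; ring

lemma ex_cont : Continuous ex := by unfold Vale.Agent.P110.UF.ex; fun_prop

lemma tp_cont (g : ℕ → ℂ) (n : ℕ) : Continuous (tp g n) := by
  unfold tp
  exact continuous_finsetSum _ fun k _ =>
    continuous_const.mul (ex_cont.comp (continuous_const.mul continuous_id))

lemma dir_cont (q : ℕ) : Continuous (dir q) := by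
  unfold dir
  exact continuous_const.mul (continuous_finsetSum _ fun k _ =>
    ex_cont.comp (continuous_const.mul continuous_id))

lemma dir_le_one (q : ℕ) (ξ : ℝ) : ‖dir q ξ‖ ≤ 1 := by
  rcases Nat.eq_zero_or_pos q with rfl | hq
  · simp [dir]
  rw [dir, norm_mul, norm_inv, Complex.norm_natCast, inv_mul_le_iff₀ (by positivity), mul_one]
  refine (norm_sum_le _ _).trans (le_of_eq ?_)
  simp [ex_norm]

/-- The factor `z - 1` removes the band of the Dirichlet mean. -/
lemma dir_weight (q : ℕ) (ξ : ℝ) : ‖(ex ξ - 1) * dir q ξ‖ ≤ 2 / q := by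
  have e : (ex ξ - 1) * dir q ξ = (q : ℂ)⁻¹ * (ex ξ ^ q - 1) := by
    rw [dir, sum_congr rfl fun r _ => ex_natmul r ξ, ← geom_sum_mul]; ring
  rw [e, norm_mul, norm_inv, Complex.norm_natCast, inv_mul_eq_div]
  gcongr
  refine (norm_sub_le _ _).trans ?_
  rw [norm_pow, ex_norm, one_pow, norm_one]; norm_num

/-- Multiplication by `z - 1`. -/
lemma weighted (g : ℕ → ℂ) (n : ℕ) : ∃ g' : ℕ → ℂ,
    (∀ ξ, tp g' (n + 1) ξ = (ex ξ - 1) * tp g n ξ) ∧
    ∑ k ∈ range (n + 1), ‖g' k‖ ^ 2 ≤ 4 * ∑ k ∈ range n, ‖g k‖ ^ 2 := by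
  refine ⟨fun k => (if k = 0 then 0 else g (k - 1)) - (if k < n then g k else 0), fun ξ => ?_, ?_⟩
  · simp only [tp, sub_mul, sum_sub_distrib]
    congr 1
    · rw [sum_range_succ', if_pos rfl, zero_mul, add_zero, mul_sum]
      refine sum_congr rfl fun k _ => ?_
      rw [if_neg (Nat.succ_ne_zero k), Nat.add_sub_cancel,
        show ((k + 1 : ℕ) : ℝ) * ξ = ξ + (k : ℝ) * ξ by push_cast; ring, ex_add']
      ring
    · rw [sum_range_succ, if_neg (lt_irrefl n), zero_mul, add_zero, one_mul]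
      exact sum_congr rfl fun k hk => by rw [if_pos (mem_range.1 hk)]
  · have h1 : ∑ k ∈ range (n + 1), ‖(if k = 0 then 0 else g (k - 1))‖ ^ 2 =
        ∑ k ∈ range n, ‖g k‖ ^ 2 := by
      rw [sum_range_succ']; simp
    have h2 : ∑ k ∈ range (n + 1), ‖(if k < n then g k else 0)‖ ^ 2 =
        ∑ k ∈ range n, ‖g k‖ ^ 2 := by
      rw [sum_range_succ, if_neg (lt_irrefl n)]
      simpa using sum_congr rfl fun k hk => by rw [if_pos (mem_range.1 hk)]
    calc _ ≤ ∑ k ∈ range (n + 1), (2 * ‖(if k = 0 then 0 else g (k - 1))‖ ^ 2 +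
          2 * ‖(if k < n then g k else 0)‖ ^ 2) := sum_le_sum fun k _ => by
            have := norm_sub_le (if k = 0 then 0 else g (k - 1)) (if k < n then g k else 0)
            nlinarith [norm_nonneg ((if k = 0 then 0 else g (k - 1)) - if k < n then g k else 0),
              sq_nonneg (‖(if k = 0 then 0 else g (k - 1))‖ - ‖(if k < n then g k else 0)‖)]
      _ = _ := by rw [sum_add_distrib, ← mul_sum, ← mul_sum, h1, h2]; ring

/-- The polynomial of the coefficient vector of a character. -/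
lemma avec_poly {q r₀ : ℕ} (h : r₀ ≤ q) (ξ : ℝ) :
    ∑ r ∈ range (q + 1), avec q r₀ r * ex (r * ξ) = ex (r₀ * ξ) - dir q ξ := by
  simp only [avec, sub_mul, sum_sub_distrib]
  congr 1
  · rw [sum_eq_single r₀ (fun b _ hb => by rw [if_neg hb, zero_mul])
      (fun hn => absurd (mem_range.2 (Nat.lt_succ_of_le h)) hn), if_pos rfl, one_mul]
  · rw [sum_range_succ, if_neg (lt_irrefl q), zero_mul, add_zero, dir, mul_sum]
    exact sum_congr rfl fun r hr => by rw [if_pos (mem_range.1 hr)]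

lemma chr_add (m : Fin d → ℤ) (θ φ : Fin d → ℝ) : chr m (θ + φ) = chr m θ * chr m φ := by
  simp only [chr, ← ex_add', ← sum_add_distrib]
  exact congrArg _ (sum_congr rfl fun i _ => by simp only [Pi.add_apply]; ring)

lemma row_poly (K : Packing S c η) {q : ℕ} (pick : (Fin d → ℤ) → ℕ)
    (hp : ∀ m ∈ S, pick m ≤ q) (j : Fin K.W) (th : Fin d → ℝ) (ξ : ℝ) :
    tp (mainRow K q pick j th) (q + 1) ξ =
      ∑ m ∈ S, ((K.sc j m : ℝ) : ℂ) * c m * chr m th * (ex (pick m * ξ) - dir q ξ) := by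
  simp only [tp, mainRow, sum_mul]
  rw [sum_comm]
  refine sum_congr rfl fun m hm => ?_
  rw [← avec_poly (hp m hm), mul_sum]
  exact sum_congr rfl fun r _ => by ring

end CombMain

end Vale.Agent.P130.Simple
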