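import Vale.Agent.P130.Simple.CombineDefs

/-! # P130: the main term of a stage has modulus nearly one in weighted mean square -/

open Finset MeasureTheory Filter Topology

namespace Vale.Agent.P130.Simple

open Vale.Agent.P110.UF (ex)

variable {d : ℕ} {S : Finset (Fin d → ℤ)} {c : (Fin d → ℤ) → ℂ} {η : ℝ}

namespace CombMain

/-- The normalised modulus of a chirp. -/
noncomputable def amp (K : Packing S c η) (T : ℕ) (i : Fin K.I) (v : ℝ) : ℝ :=
  (Real.sqrt T)⁻¹ * ‖chirpSum (K.al i) (K.be i) T v‖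

/-- The coefficient in front of a chirp. -/
noncomputable def lead (K : Packing S c η) (q : ℕ) (pick : (Fin d → ℤ) → ℕ)
    (φ : Fin K.W → Fin d → ℝ) (T B : ℕ) (ξ : ℝ) (i : Fin K.I) : ℂ :=
  (((Real.sqrt K.W)⁻¹ : ℝ) : ℂ) * K.cf i *
    chr (K.vec i) (φ (K.win i)) * (ex (pick (K.vec i) * ξ) - dir q ξ) *
    ex ((((K.win i).val * T * B : ℕ) : ℝ) * ξ)

lemma chirp_fract (α β : ℝ) (T : ℕ) (x : ℝ) :
    chirpSum α β T (Int.fract x) = chirpSum α β T x := by
  refine sum_congr rfl fun k _ => ?_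
  rw [Int.fract, show α * k + β * ((k : ℝ) ^ 2 / (2 * T)) - k * (x - ⌊x⌋) =
      (α * k + β * ((k : ℝ) ^ 2 / (2 * T)) - k * x) + (((k : ℤ) * ⌊x⌋ : ℤ) : ℝ) by
        push_cast; ring, ex_add', ex_int', mul_one]

lemma chirp_cont (α β : ℝ) (T : ℕ) : Continuous (chirpSum α β T) := by
  unfold chirpSum
  exact continuous_finsetSum _ fun k _ => ex_cont.comp (by fun_prop)

lemma main_eq (K : Packing S c η) {q : ℕ} (pick : (Fin d → ℤ) → ℕ)
    (hp : ∀ m ∈ S, pick m ≤ q) (φ : Fin K.W → Fin d → ℝ) (T B : ℕ) (ξ : ℝ) :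
    mainP K q pick φ T B ξ = ∑ i, lead K q pick φ T B ξ i *
      ((((Real.sqrt T)⁻¹ : ℝ) : ℂ) * chirpSum (K.al i) (K.be i) T (Int.fract (-((B : ℝ) * ξ)))) := by
  have hrow : ∀ (j : Fin K.W) (k : ℕ), tp (mainRow K q pick j (jitter K φ T j k)) (q + 1) ξ =
      ∑ i ∈ univ.filter (fun i => K.win i = j),
        K.cf i * chr (K.vec i) (φ (K.win i)) * (ex (pick (K.vec i) * ξ) - dir q ξ) *
          ex (K.al i * k + K.be i * ((k : ℝ) ^ 2 / (2 * T))) := fun j k => by
    rw [row_poly K pick hp, ← sum_fiberwise_of_maps_to (t := S) (g := K.vec) (fun i _ => K.vec_mem i)]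
    refine sum_congr rfl fun m hm => ?_
    have h := K.decomp j k ((k : ℝ) ^ 2 / (2 * T)) m hm
    rw [jitter, chr_add, ← mul_assoc (((K.sc j m : ℝ) : ℂ) * c m), h, filter_filter, sum_mul,
      sum_mul]
    refine sum_congr rfl fun i hi => ?_
    obtain ⟨h1, h2⟩ := (mem_filter.1 hi).2
    rw [h1, h2]; ring
  have hk : ∀ (j : Fin K.W) (k : ℕ) (α β : ℝ),
      ex ((((j.val * T + k) * B : ℕ) : ℝ) * ξ) * ex (α * k + β * ((k : ℝ) ^ 2 / (2 * T))) =
        ex (((j.val * T * B : ℕ) : ℝ) * ξ) *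
          ex (α * k + β * ((k : ℝ) ^ 2 / (2 * T)) - k * -((B : ℝ) * ξ)) := fun j k α β => by
    rw [← ex_add', ← ex_add']; congr 1; push_cast; ring
  have hsq : (((Real.sqrt (K.W * T : ℕ))⁻¹ : ℝ) : ℂ) =
      (((Real.sqrt K.W)⁻¹ : ℝ) : ℂ) * (((Real.sqrt T)⁻¹ : ℝ) : ℂ) := by
    rw [← Complex.ofReal_mul, Nat.cast_mul, Real.sqrt_mul (Nat.cast_nonneg _), mul_inv]
  rw [mainP, ← sum_fiberwise (s := univ) (g := K.win)]
  simp only [chirp_fract]
  simp only [hrow, hsq, chirpSum, mul_sum]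
  refine sum_congr rfl fun j _ => ?_
  rw [sum_comm]
  refine sum_congr rfl fun i hi => sum_congr rfl fun k _ => ?_
  have hj := (mem_filter.1 hi).2
  have := hk j k (K.al i) (K.be i)
  rw [lead, hj]
  calc _ = (((Real.sqrt K.W)⁻¹ : ℝ) : ℂ) * (((Real.sqrt T)⁻¹ : ℝ) : ℂ) *
        (K.cf i * chr (K.vec i) (φ j) *
          (ex (pick (K.vec i) * ξ) - dir q ξ)) *
        (ex ((((j.val * T + k) * B : ℕ) : ℝ) * ξ) *
          ex (K.al i * k + K.be i * ((k : ℝ) ^ 2 / (2 * T)))) := by ring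
    _ = _ := by rw [this]; ring

lemma norm_lead (K : Packing S c η) (q : ℕ) (pick : (Fin d → ℤ) → ℕ) (φ : Fin K.W → Fin d → ℝ)
    (T B : ℕ) (ξ : ℝ) (i : Fin K.I) :
    ‖lead K q pick φ T B ξ i‖ = Real.sqrt |K.be i| *
      (Real.sqrt (K.J₀ / K.W) *
        ‖ex (pick (K.vec i) * ξ) - dir q ξ‖) := by
  have hcf : ‖K.cf i‖ = Real.sqrt |K.be i| * Real.sqrt K.J₀ := by
    rw [← Real.sqrt_mul (abs_nonneg _), ← K.weight i, Real.sqrt_sq (norm_nonneg _)]
  simp only [lead, norm_mul, chr, ex_norm, mul_one, Complex.norm_real, Real.norm_eq_abs,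
    hcf, abs_inv, abs_of_nonneg (Real.sqrt_nonneg _)]
  rw [Real.sqrt_div' _ (Nat.cast_nonneg _)]
  ring

/-- The indicator of an interval. -/
noncomputable def ind (K : Packing S c η) (i : Fin K.I) (v : ℝ) : ℝ :=
  (Set.Ioo (ilo (K.al i) (K.be i)) (ihi (K.al i) (K.be i))).indicator (fun _ => 1) v

lemma ind_nonneg (K : Packing S c η) (i : Fin K.I) (v : ℝ) : 0 ≤ ind K i v :=
  Set.indicator_nonneg (fun _ _ => zero_le_one) _

lemma ind_eq_one (K : Packing S c η) {i : Fin K.I} {v : ℝ} (h : ind K i v ≠ 0) : ind K i v = 1 :=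
  Set.indicator_of_mem (Set.mem_of_indicator_ne_zero h) _

lemma ind_unique (K : Packing S c η) {i i' : Fin K.I} {v : ℝ} (h : ind K i v ≠ 0)
    (h' : ind K i' v ≠ 0) : i = i' := by
  by_contra hne
  have h1 := Set.mem_of_indicator_ne_zero h
  have h2 := Set.mem_of_indicator_ne_zero h'
  rcases K.disjoint i i' hne with hd | hd <;> linarith [h1.1, h1.2, h2.1, h2.2]

lemma sum_ind_le_one (K : Packing S c η) (v : ℝ) : ∑ i, ind K i v ≤ 1 := by
  by_cases h : ∃ i, ind K i v ≠ 0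
  · obtain ⟨i, hi⟩ := h
    rw [sum_eq_single i (fun i' _ hne => by
        by_contra h'; exact hne (ind_unique K h' hi)) (fun hn => absurd (mem_univ i) hn),
      ind_eq_one K hi]
  · simp only [not_exists, not_not] at h
    simp [h]

lemma boxFun_eq (K : Packing S c η) (i : Fin K.I) (v : ℝ) :
    boxFun (K.al i) (K.be i) v = (Real.sqrt |K.be i|)⁻¹ * ind K i v := by
  simp only [boxFun, ind, Set.indicator_apply]
  split_ifs <;> simp

/-- Pieces with disjoint targets: the modulus of a sum. -/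
lemma norm_sum_near {ι : Type*} [Fintype ι] [DecidableEq ι] (f : ι → ℂ) (a u b : ι → ℝ)
    (ha : ∀ i, 0 ≤ a i) (hu : ∀ i, 0 ≤ u i) (hf : ∀ i, ‖f i‖ = a i * u i)
    (hb : ∀ i i', b i ≠ 0 → b i' ≠ 0 → i = i') :
    |‖∑ i, f i‖ - ∑ i, a i * b i| ≤ ∑ i, a i * |u i - b i| := by
  by_cases h : ∃ i, b i ≠ 0
  · obtain ⟨i₀, hi₀⟩ := h
    have hz : ∀ i, i ≠ i₀ → b i = 0 := fun i hne => by
      by_contra hn; exact hne (hb i i₀ hn hi₀)
    have h1 : ∑ i, a i * b i = a i₀ * b i₀ :=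
      sum_eq_single i₀ (fun i _ hne => by rw [hz i hne, mul_zero])
        (fun hn => absurd (mem_univ i₀) hn)
    rw [h1, ← add_sum_erase univ f (mem_univ i₀),
      ← add_sum_erase univ (fun i => a i * |u i - b i|) (mem_univ i₀)]
    have h2 : ∑ i ∈ univ.erase i₀, a i * |u i - b i| = ∑ i ∈ univ.erase i₀, ‖f i‖ :=
      sum_congr rfl fun i hi => by
        rw [hz i (ne_of_mem_erase hi), sub_zero, abs_of_nonneg (hu i), hf]
    have h3 : |a i₀ * u i₀ - a i₀ * b i₀| = a i₀ * |u i₀ - b i₀| := by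
      rw [← mul_sub, abs_mul, abs_of_nonneg (ha i₀)]
    have h4 : |‖f i₀ + ∑ i ∈ univ.erase i₀, f i‖ - a i₀ * u i₀| ≤
        ∑ i ∈ univ.erase i₀, ‖f i‖ := by
      rw [← hf]
      refine (abs_norm_sub_norm_le _ _).trans ?_
      rw [add_sub_cancel_left]
      exact norm_sum_le _ _
    have := abs_sub_le ‖f i₀ + ∑ i ∈ univ.erase i₀, f i‖ (a i₀ * u i₀) (a i₀ * b i₀)
    linarith
  · simp only [not_exists, not_not] at h
    simp only [h, mul_zero, sum_const_zero, sub_zero, abs_norm]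
    refine (norm_sum_le _ _).trans (le_of_eq (sum_congr rfl fun i _ => ?_))
    rw [hf, abs_of_nonneg (hu i)]

/-- The deviation function on the fast variable. -/
noncomputable def dev (K : Packing S c η) (T : ℕ) (v : ℝ) : ℝ :=
  64 * K.I * ∑ i, (amp K T i v - boxFun (K.al i) (K.be i) v) ^ 2 +
    4 * (1 - ∑ i, ind K i v) + 144 * η ^ 2

lemma amp_nonneg (K : Packing S c η) (T : ℕ) (i : Fin K.I) (v : ℝ) : 0 ≤ amp K T i v := by
  unfold amp; positivity

/-- The pointwise bound. -/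
lemma pointwise (K : Packing S c η) (hη : 0 ≤ η) (hη' : η ≤ 1 / 4) {q : ℕ}
    (pick : (Fin d → ℤ) → ℕ) (hp : ∀ m ∈ S, pick m ≤ q) (φ : Fin K.W → Fin d → ℝ) (T B : ℕ)
    (ξ : ℝ) : (‖mainP K q pick φ T B ξ‖ - 1) ^ 2 ≤
      dev K T (Int.fract (-((B : ℝ) * ξ))) + 4 * ‖dir q ξ‖ ^ 2 := by
  set v := Int.fract (-((B : ℝ) * ξ))
  set D := ‖dir q ξ‖ with hD
  set a : Fin K.I → ℝ := fun i => ‖lead K q pick φ T B ξ i‖
  have hW : (0 : ℝ) < K.W := Nat.cast_pos.2 K.W_pos
  have hfac : ∀ i : Fin K.I, 0 ≤ Real.sqrt (K.J₀ / K.W) ∧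
      |Real.sqrt (K.J₀ / K.W) - 1| ≤ 3 * η := fun i => by
    have h1 : 1 ≤ K.J₀ / K.W := (le_div_iff₀ hW).2 (by linarith [K.J₀_ge])
    have h2 : K.J₀ / K.W ≤ 1 + η := (div_le_iff₀ hW).2 K.J₀_le
    have h3 : 1 ≤ Real.sqrt (K.J₀ / K.W) := Real.one_le_sqrt.2 h1
    have h4 : Real.sqrt (K.J₀ / K.W) ≤ 1 + η := Real.sqrt_le_iff.2 ⟨by linarith, by nlinarith⟩
    exact ⟨by linarith, abs_le.2 ⟨by linarith, by linarith⟩⟩
  have hA : ∀ i, |‖ex (pick (K.vec i) * ξ) - dir q ξ‖ - 1| ≤ D := fun i => by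
    have h := abs_norm_sub_norm_le (ex (pick (K.vec i) * ξ) - dir q ξ) (ex (pick (K.vec i) * ξ))
    rwa [ex_norm, sub_sub_cancel_left, norm_neg] at h
  have hD1 : D ≤ 1 := dir_le_one q ξ
  have hD0 : 0 ≤ D := norm_nonneg _
  have hbe : ∀ i, 0 < Real.sqrt |K.be i| := fun i => Real.sqrt_pos.2 (abs_pos.2 (K.be_ne i))
  have hcA : ∀ i, |Real.sqrt (K.J₀ / K.W) *
      ‖ex (pick (K.vec i) * ξ) - dir q ξ‖ - 1| ≤ 6 * η + D := fun i => by
    set C := Real.sqrt (K.J₀ / K.W)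
    set A := ‖ex (pick (K.vec i) * ξ) - dir q ξ‖
    have hA' := abs_le.1 (hA i)
    calc |C * A - 1| = |(C - 1) * A + (A - 1)| := by congr 1; ring
      _ ≤ |C - 1| * |A| + |A - 1| := by rw [← abs_mul]; exact abs_add_le _ _
      _ ≤ 3 * η * 2 + D := by
          gcongr
          · exact (hfac i).2
          · exact abs_le.2 ⟨by linarith, by linarith⟩
          · exact hA i
      _ = _ := by ring
  have ha4 : ∀ i, a i ≤ 4 := fun i => by
    simp only [a, norm_lead]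
    have h1 : Real.sqrt |K.be i| ≤ 1 := by
      rw [Real.sqrt_le_one]; linarith [K.be_small i]
    have h2 := (abs_le.1 (hcA i)).2
    calc _ ≤ 1 * (1 + (6 * η + D)) := by
          refine mul_le_mul h1 (by linarith) (mul_nonneg (hfac i).1 (norm_nonneg _)) zero_le_one
      _ ≤ 4 := by linarith
  have hnear := norm_sum_near (fun i => lead K q pick φ T B ξ i *
      ((((Real.sqrt T)⁻¹ : ℝ) : ℂ) * chirpSum (K.al i) (K.be i) T v)) a (fun i => amp K T i v)
    (fun i => boxFun (K.al i) (K.be i) v) (fun i => norm_nonneg _) (fun i => amp_nonneg K T i v)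
    (fun i => by
      simp only [a, amp, norm_mul, Complex.norm_real, Real.norm_eq_abs,
        abs_of_nonneg (inv_nonneg.2 (Real.sqrt_nonneg _))])
    (fun i i' h h' => by
      rw [boxFun_eq] at h h'
      exact ind_unique K (right_ne_zero_of_mul h) (right_ne_zero_of_mul h'))
  rw [← main_eq K pick hp φ T B ξ] at hnear
  set Δ : Fin K.I → ℝ := fun i => |amp K T i v - boxFun (K.al i) (K.be i) v| with hΔ
  have hsum : |∑ i, a i * boxFun (K.al i) (K.be i) v - 1| ≤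
      (6 * η + D) + (1 - ∑ i, ind K i v) := by
    have e : ∀ i, a i * boxFun (K.al i) (K.be i) v - ind K i v =
        ind K i v * (Real.sqrt (K.J₀ / K.W) *
          ‖ex (pick (K.vec i) * ξ) - dir q ξ‖ - 1) := fun i => by
      simp only [a, norm_lead, boxFun_eq]
      field_simp [(hbe i).ne']
    have h0 : 0 ≤ 1 - ∑ i, ind K i v := by linarith [sum_ind_le_one K v]
    calc _ = |∑ i, (a i * boxFun (K.al i) (K.be i) v - ind K i v) - (1 - ∑ i, ind K i v)| := by
          rw [sum_sub_distrib]; congr 1; ring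
      _ ≤ |∑ i, (a i * boxFun (K.al i) (K.be i) v - ind K i v)| + |1 - ∑ i, ind K i v| :=
          abs_sub _ _
      _ ≤ ∑ i, ind K i v * (6 * η + D) + (1 - ∑ i, ind K i v) := by
          rw [abs_of_nonneg h0]
          refine add_le_add_left ((abs_sum_le_sum_abs _ _).trans (sum_le_sum fun i _ => ?_)) _
          rw [e, abs_mul, abs_of_nonneg (ind_nonneg K i v)]
          exact mul_le_mul_of_nonneg_left (hcA i) (ind_nonneg K i v)
      _ ≤ _ := by
          rw [← sum_mul]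
          have := mul_le_mul_of_nonneg_right (sum_ind_le_one K v) (show 0 ≤ 6 * η + D by linarith)
          linarith
  have h5 : |‖mainP K q pick φ T B ξ‖ - 1| ≤
      4 * ∑ i, Δ i + (6 * η + D) + (1 - ∑ i, ind K i v) := by
    refine (abs_sub_le _ (∑ i, a i * boxFun (K.al i) (K.be i) v) _).trans ?_
    have h6 : ∑ i, a i * |amp K T i v - boxFun (K.al i) (K.be i) v| ≤ 4 * ∑ i, Δ i := by
      rw [mul_sum]
      exact sum_le_sum fun i _ => mul_le_mul_of_nonneg_right (ha4 i) (abs_nonneg _)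
    linarith
  have hU0 : 0 ≤ 1 - ∑ i, ind K i v := by linarith [sum_ind_le_one K v]
  have hU1 : 1 - ∑ i, ind K i v ≤ 1 := by
    linarith [sum_nonneg fun i (_ : i ∈ (univ : Finset (Fin K.I))) => ind_nonneg K i v]
  have hcs : (∑ i, Δ i) ^ 2 ≤ K.I * ∑ i, (amp K T i v - boxFun (K.al i) (K.be i) v) ^ 2 := by
    refine (sq_sum_le_card_mul_sum_sq).trans (le_of_eq ?_)
    simp [hΔ, sq_abs]
  have h7 := pow_le_pow_left₀ (abs_nonneg _) h5 2
  rw [sq_abs] at h7
  refine h7.trans ?_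
  unfold dev
  nlinarith [sq_nonneg (4 * ∑ i, Δ i - 6 * η), sq_nonneg (4 * ∑ i, Δ i - D),
    sq_nonneg (4 * ∑ i, Δ i - (1 - ∑ i, ind K i v)), sq_nonneg (6 * η - D),
    sq_nonneg (6 * η - (1 - ∑ i, ind K i v)), sq_nonneg (D - (1 - ∑ i, ind K i v)),
    mul_nonneg hU0 (sub_nonneg.2 hU1)]

lemma bii {F : ℝ → ℝ} (hm : Measurable F) {C : ℝ} (h : ∀ x, |F x| ≤ C) (a b : ℝ) :
    IntervalIntegrable F volume a b :=
  intervalIntegrable_iff.2 (Measure.integrableOn_of_bounded measure_Ioc_lt_top.ne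
    hm.aestronglyMeasurable (Eventually.of_forall h))

lemma ind_meas (K : Packing S c η) (i : Fin K.I) : Measurable (ind K i) :=
  measurable_const.indicator measurableSet_Ioo

lemma delta_meas (K : Packing S c η) (T : ℕ) (i : Fin K.I) :
    Measurable fun v => amp K T i v - boxFun (K.al i) (K.be i) v :=
  (continuous_const.mul (chirp_cont _ _ T).norm).measurable.sub
    (measurable_const.indicator measurableSet_Ioo)

lemma delta_bound (K : Packing S c η) (T : ℕ) (i : Fin K.I) : ∃ C, ∀ v,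
    |(amp K T i v - boxFun (K.al i) (K.be i) v) ^ 2| ≤ C := by
  refine ⟨((Real.sqrt T)⁻¹ * T + (Real.sqrt |K.be i|)⁻¹) ^ 2, fun v => ?_⟩
  rw [abs_pow]
  refine pow_le_pow_left₀ (abs_nonneg _) ((abs_sub _ _).trans (add_le_add ?_ ?_)) 2
  · rw [abs_of_nonneg (amp_nonneg K T i v), amp]
    refine mul_le_mul_of_nonneg_left ((norm_sum_le _ _).trans (le_of_eq ?_)) (by positivity)
    simp [ex_norm]
  · rw [boxFun_eq, abs_mul, abs_of_nonneg (inv_nonneg.2 (Real.sqrt_nonneg _)),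
      abs_of_nonneg (ind_nonneg K i v)]
    exact mul_le_of_le_one_right (by positivity)
      ((single_le_sum (fun j _ => ind_nonneg K j v) (mem_univ i)).trans (sum_ind_le_one K v))

lemma dev_meas (K : Packing S c η) (T : ℕ) : Measurable (dev K T) := by
  unfold dev
  exact ((measurable_const.mul (Finset.measurable_sum _ fun i _ =>
    (delta_meas K T i).pow_const 2)).add (measurable_const.mul (measurable_const.sub
      (Finset.measurable_sum _ fun i _ => ind_meas K i)))).add measurable_const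

lemma dev_bound (K : Packing S c η) (T : ℕ) : ∃ C, ∀ v, |dev K T v| ≤ C := by
  choose C hC using delta_bound K T
  refine ⟨64 * K.I * ∑ i, C i + 4 + 144 * η ^ 2, fun v => ?_⟩
  have h1 : 0 ≤ 1 - ∑ i, ind K i v := by linarith [sum_ind_le_one K v]
  have h2 : 0 ≤ ∑ i, ind K i v := sum_nonneg fun i _ => ind_nonneg K i v
  have h3 : ∑ i, (amp K T i v - boxFun (K.al i) (K.be i) v) ^ 2 ≤ ∑ i, C i :=
    sum_le_sum fun i _ => (le_abs_self _).trans (hC i v)
  rw [abs_of_nonneg (by unfold dev; positivity)]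
  unfold dev
  linarith [mul_le_mul_of_nonneg_left h3 (show (0 : ℝ) ≤ 64 * K.I by positivity)]

lemma dev_integral (K : Packing S c η) (hη : 0 ≤ η) (hη' : η ≤ 1 / 4)
    (hen : ∑ m ∈ S, ‖c m‖ ^ 2 ≤ 1) {T : ℕ}
    (hT : (K.I : ℝ) * ∑ i, ∫ v in (0 : ℝ)..1, (amp K T i v - boxFun (K.al i) (K.be i) v) ^ 2 ≤ η) :
    ∫ v in (0 : ℝ)..1, dev K T v ≤ 108 * (η + (1 - ∑ m ∈ S, ‖c m‖ ^ 2)) := by
  have hd : ∀ i, IntervalIntegrable
      (fun v => (amp K T i v - boxFun (K.al i) (K.be i) v) ^ 2) volume 0 1 := fun i => by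
    obtain ⟨C, hC⟩ := delta_bound K T i
    exact bii ((delta_meas K T i).pow_const 2) hC _ _
  have hi : ∀ i, IntervalIntegrable (ind K i) volume 0 1 := fun i =>
    bii (ind_meas K i) (C := 1) (fun v => by
      rw [abs_of_nonneg (ind_nonneg K i v)]
      exact (single_le_sum (fun j _ => ind_nonneg K j v) (mem_univ i)).trans
        (sum_ind_le_one K v)) _ _
  have hiI : ∀ i, ∫ v in (0 : ℝ)..1, ind K i v = |K.be i| := fun i => by
    rw [intervalIntegral.integral_of_le zero_le_one, integral_Ioc_eq_integral_Ioo]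
    unfold ind
    rw [setIntegral_indicator measurableSet_Ioo, Set.inter_eq_self_of_subset_right
      (Set.Ioo_subset_Ioo (K.lo i) (K.hi i)), setIntegral_const, smul_eq_mul, mul_one,
      ihi, ilo, Real.volume_real_Ioo_of_le (min_le_max), max_sub_min_eq_abs, add_sub_cancel_left]
  have s1 := IntervalIntegrable.sum univ (f := fun i v =>
    (amp K T i v - boxFun (K.al i) (K.be i) v) ^ 2) fun i _ => hd i
  have s2 := IntervalIntegrable.sum univ (f := fun i => ind K i) fun i _ => hi i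
  simp only [Finset.sum_fn] at s1 s2
  simp only [dev]
  rw [intervalIntegral.integral_add
      ((s1.const_mul _).add ((intervalIntegrable_const.sub s2).const_mul _)) intervalIntegrable_const,
    intervalIntegral.integral_add (s1.const_mul _) ((intervalIntegrable_const.sub s2).const_mul _),
    intervalIntegral.integral_const_mul, intervalIntegral.integral_const_mul,
    intervalIntegral.integral_sub intervalIntegrable_const s2,
    intervalIntegral.integral_finsetSum fun i _ => hd i,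
    intervalIntegral.integral_finsetSum fun i _ => hi i, sum_congr rfl fun i _ => hiI i]
  simp only [intervalIntegral.integral_const, sub_zero, one_smul]
  have hcov := K.cover
  nlinarith

/-- The integral of a reflected periodised function. -/
lemma fract_integral (G : ℝ → ℝ) :
    ∫ x in (0 : ℝ)..1, G (Int.fract (-x)) = ∫ x in (0 : ℝ)..1, G x := by
  have h : ∫ x in (0 : ℝ)..1, G (Int.fract (-x)) = ∫ x in (0 : ℝ)..1, G (1 - x) := by
    refine intervalIntegral.integral_congr_ae ?_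
    filter_upwards [(Measure.ae_ne volume (1 : ℝ))] with x hx hmem
    rw [Set.uIoc_of_le zero_le_one] at hmem
    congr 1
    rw [Int.fract_eq_iff]
    refine ⟨by linarith [hmem.2], by linarith [hmem.1], -1, ?_⟩
    push_cast; ring
  rw [h, intervalIntegral.integral_comp_sub_left G 1]
  simp

end CombMain

open CombMain

/-- The main part of a stage has modulus nearly one in weighted mean square; the length of the
windows does not depend on their translates. -/
theorem main_bound (hC : ChirpStmt) (hW : WeightStmt) : ∃ C₀ : ℝ, 0 < C₀ ∧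
    ∀ (d : ℕ) (S : Finset (Fin d → ℤ)) (c : (Fin d → ℤ) → ℂ) (η : ℝ), 0 < η → η ≤ 1 / 4 →
    ∑ m ∈ S, ‖c m‖ ^ 2 ≤ 1 → ∀ (K : Packing S c η) (q : ℕ) (pick : (Fin d → ℤ) → ℕ),
    (∀ m ∈ S, pick m ≤ q) → ∀ N : ℕ, ∃ T : ℕ, N ≤ T ∧ 0 < T ∧
      ∀ (φ : Fin K.W → Fin d → ℝ) (B n : ℕ) (g : ℕ → ℂ), n + 1 ≤ B →
      ∫ ξ in (0 : ℝ)..1, ‖(ex ξ - 1) * tp g n ξ‖ ^ 2 * (‖mainP K q pick φ T B ξ‖ - 1) ^ 2 ≤
        C₀ * (η + (1 - ∑ m ∈ S, ‖c m‖ ^ 2) + 1 / (q : ℝ) ^ 2) * ∑ k ∈ range n, ‖g k‖ ^ 2 := by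
  refine ⟨500, by norm_num, fun d S c η hη hη' hen K q pick hp N => ?_⟩
  have hlim : Tendsto (fun T : ℕ => (K.I : ℝ) * ∑ i, ∫ v in (0 : ℝ)..1,
      (amp K T i v - boxFun (K.al i) (K.be i) v) ^ 2) atTop (𝓝 0) := by
    have := (tendsto_finsetSum univ fun i _ =>
      hC (K.al i) (K.be i) (K.be_ne i) (K.be_small i) (K.lo i) (K.hi i)).const_mul (K.I : ℝ)
    simpa [amp] using this
  obtain ⟨T, hTN, hT⟩ :=
    ((eventually_ge_atTop (max N 1)).and (hlim.eventually (eventually_le_nhds hη))).exists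
  refine ⟨T, le_of_max_le_left hTN, le_of_max_le_right hTN, fun φ B n g hnB => ?_⟩
  obtain ⟨g', hg', hg'n⟩ := weighted g n
  set G := ∑ k ∈ range n, ‖g k‖ ^ 2 with hG
  have hG0 : 0 ≤ G := sum_nonneg fun k _ => by positivity
  obtain ⟨Cd, hCd⟩ := dev_bound K T
  set f : ℝ → ℝ := fun x => dev K T (Int.fract (-x)) with hf
  have hfm : Measurable f := (dev_meas K T).comp (measurable_fract.comp measurable_neg)
  have hfp : Function.Periodic f 1 := fun x => by
    simp only [hf, neg_add, ← sub_eq_add_neg, Int.fract_sub_one]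
  have hfb : ∀ x, |f x| ≤ Cd := fun x => hCd _
  have hw : ∫ ξ in (0 : ℝ)..1, ‖tp g' (n + 1) ξ‖ ^ 2 * f (B * ξ) =
      (∫ v in (0 : ℝ)..1, f v) * ∑ k ∈ range (n + 1), ‖g' k‖ ^ 2 :=
    hW.2 B (n + 1) g' f hnB hfp (bii hfm hfb _ _)
  have hone : ∫ ξ in (0 : ℝ)..1, ‖tp g n ξ‖ ^ 2 = G := by
    have := hW.2 B n g (fun _ => 1) (by omega) (fun _ => rfl) intervalIntegrable_const
    simpa using this
  have i1 : IntervalIntegrable (fun ξ => ‖tp g' (n + 1) ξ‖ ^ 2 * f (B * ξ)) volume 0 1 :=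
    IntervalIntegrable.continuousOn_mul (bii (hfm.comp (measurable_const_mul _))
      (fun x => hfb _) _ _) ((tp_cont g' (n + 1)).norm.pow 2).continuousOn
  have i2 : IntervalIntegrable (fun ξ => 16 / (q : ℝ) ^ 2 * ‖tp g n ξ‖ ^ 2) volume 0 1 :=
    (continuous_const.mul ((tp_cont g n).norm.pow 2)).intervalIntegrable _ _
  have hmc : Continuous (mainP K q pick φ T B) := by
    unfold mainP
    exact continuous_const.mul (continuous_finsetSum _ fun j _ => continuous_finsetSum _ fun k _ =>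
      (ex_cont.comp (continuous_const.mul continuous_id)).mul (tp_cont _ _))
  have i0 : IntervalIntegrable (fun ξ => ‖(ex ξ - 1) * tp g n ξ‖ ^ 2 *
      (‖mainP K q pick φ T B ξ‖ - 1) ^ 2) volume 0 1 :=
    (((ex_cont.sub continuous_const).mul (tp_cont g n)).norm.pow 2 |>.mul
      ((hmc.norm.sub continuous_const).pow 2)).intervalIntegrable _ _
  have hint : ∫ v in (0 : ℝ)..1, f v ≤ 108 * (η + (1 - ∑ m ∈ S, ‖c m‖ ^ 2)) := by
    rw [hf, fract_integral]; exact dev_integral K hη.le hη' hen hT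
  calc _ ≤ ∫ ξ in (0 : ℝ)..1,
        (‖tp g' (n + 1) ξ‖ ^ 2 * f (B * ξ) + 16 / (q : ℝ) ^ 2 * ‖tp g n ξ‖ ^ 2) := by
        refine intervalIntegral.integral_mono_on zero_le_one i0 (i1.add i2) fun ξ _ => ?_
        rw [hg']
        have hp' := pointwise K hη.le hη' pick hp φ T B ξ
        have hd := pow_le_pow_left₀ (norm_nonneg _) (dir_weight q ξ) 2
        rw [norm_mul, mul_pow, div_pow] at hd
        simp only [norm_mul, mul_pow, hf]
        calc ‖ex ξ - 1‖ ^ 2 * ‖tp g n ξ‖ ^ 2 * (‖mainP K q pick φ T B ξ‖ - 1) ^ 2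
            ≤ ‖ex ξ - 1‖ ^ 2 * ‖tp g n ξ‖ ^ 2 *
              (dev K T (Int.fract (-((B : ℝ) * ξ))) + 4 * ‖dir q ξ‖ ^ 2) :=
              mul_le_mul_of_nonneg_left hp' (by positivity)
          _ = ‖ex ξ - 1‖ ^ 2 * ‖tp g n ξ‖ ^ 2 * dev K T (Int.fract (-((B : ℝ) * ξ))) +
              4 * ‖tp g n ξ‖ ^ 2 * (‖ex ξ - 1‖ ^ 2 * ‖dir q ξ‖ ^ 2) := by ring
          _ ≤ ‖ex ξ - 1‖ ^ 2 * ‖tp g n ξ‖ ^ 2 * dev K T (Int.fract (-((B : ℝ) * ξ))) +
              4 * ‖tp g n ξ‖ ^ 2 * (2 ^ 2 / (q : ℝ) ^ 2) := by gcongr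
          _ = _ := by ring
    _ = (∫ v in (0 : ℝ)..1, f v) * ∑ k ∈ range (n + 1), ‖g' k‖ ^ 2 + 16 / (q : ℝ) ^ 2 * G := by
        rw [intervalIntegral.integral_add i1 i2, intervalIntegral.integral_const_mul, hw, hone]
    _ ≤ 108 * (η + (1 - ∑ m ∈ S, ‖c m‖ ^ 2)) * (4 * G) + 16 / (q : ℝ) ^ 2 * G := by
        refine add_le_add_left (mul_le_mul hint hg'n (sum_nonneg fun k _ => by positivity)
          (by positivity)) _
    _ ≤ _ := by
        have : 0 ≤ 1 / (q : ℝ) ^ 2 * G := by positivity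
        have : 0 ≤ η * G := by positivity
        have : 0 ≤ (1 - ∑ m ∈ S, ‖c m‖ ^ 2) * G := mul_nonneg (by linarith) hG0
        rw [show (16 : ℝ) / (q : ℝ) ^ 2 = 16 * (1 / (q : ℝ) ^ 2) by ring]
        nlinarith

end Vale.Agent.P130.Simple
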