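import Vale.Agent.P130.Simple.CombineDefs

/-!
# P130: the mean part and the error part of a stage

Away from the main row, a block polynomial is the mean polynomial (killed by the weight `z - 1`)
plus an error whose window average is small for a suitable translate per window.
-/

open Finset MeasureTheory
open scoped ComplexConjugate

namespace Vale.Agent.P130.Simple

open Vale.Agent.P110.UF (ex)
open CombMain

namespace CombRest

lemma conj_ex (x : ℝ) : conj (ex x) = ex (-x) := by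
  unfold ex
  rw [← Complex.exp_conj, map_mul, Complex.conj_ofReal, Complex.conj_I]
  congr 1
  push_cast
  ring

lemma stage_cont (p B : ℕ) (a : ℕ → ℕ → ℂ) (L : ℕ) :
    Continuous fun ξ : ℝ => ∑ b ∈ range p, tp (a b) L ξ * ex (((b * B : ℕ) : ℝ) * ξ) :=
  continuous_finsetSum _ fun _ _ =>
    (tp_cont _ _).mul (ex_cont.comp (continuous_const.mul continuous_id))

/-- Parseval, from the weight statement. -/
lemma integral_tp_sq (hW : WeightStmt) (g : ℕ → ℂ) (n : ℕ) :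
    ∫ ξ in (0 : ℝ)..1, ‖tp g n ξ‖ ^ 2 = ∑ k ∈ range n, ‖g k‖ ^ 2 := by
  have := hW.2 n n g (fun _ => 1) le_rfl (fun _ => rfl) intervalIntegrable_const
  simpa using this

lemma avec_norm {q : ℕ} (hq : 0 < q) (r₀ r : ℕ) : ‖avec q r₀ r‖ ≤ 2 := by
  refine (norm_sub_le _ _).trans ?_
  have h1 : ‖(if r = r₀ then (1 : ℂ) else 0)‖ ≤ 1 := by split_ifs <;> simp
  have h2 : ‖(if r < q then (q : ℂ)⁻¹ else 0)‖ ≤ 1 := by
    split_ifs
    · rw [norm_inv, Complex.norm_natCast]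
      exact inv_le_one_of_one_le₀ (by exact_mod_cast hq)
    · simp
  linarith

lemma mean_norm {q : ℕ} (hq : 0 < q) (r : ℕ) : ‖mean q r‖ ≤ 1 := by
  have hq' : (1 : ℝ) ≤ q := by exact_mod_cast hq
  unfold mean
  split_ifs
  · have : ((q : ℂ) - 1) = (((q : ℝ) - 1 : ℝ) : ℂ) := by push_cast; rfl
    rw [this, norm_div, norm_pow, Complex.norm_natCast, Complex.norm_real, Real.norm_eq_abs,
      abs_of_nonneg (by linarith), div_le_one (by positivity)]
    nlinarith
  · rw [norm_div, norm_one, Complex.norm_natCast, div_le_one (by linarith)]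
    exact hq'
  · simp

lemma weight_mean {q : ℕ} (hq : 0 < q) (ξ : ℝ) :
    ‖(ex ξ - 1) * tp (mean q) (q + 1) ξ‖ ≤ 4 / q := by
  have hq' : (1 : ℝ) ≤ q := by exact_mod_cast hq
  have e : tp (mean q) (q + 1) ξ =
      (((q : ℂ) - 1) / q) * dir q ξ + 1 / (q : ℂ) * ex (q * ξ) := by
    simp only [tp, sum_range_succ, mean, lt_irrefl, if_false, if_true, dir, mul_sum]
    congr 1
    refine sum_congr rfl fun r hr => ?_
    rw [if_pos (mem_range.1 hr), ← mul_assoc]
    congr 1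
    field_simp
  have h1 : ‖ex ξ - 1‖ ≤ 2 :=
    (norm_sub_le _ _).trans (by rw [ex_norm, norm_one]; norm_num)
  have h2 : ‖(((q : ℂ) - 1) / q)‖ ≤ 1 := by
    rw [norm_div, Complex.norm_natCast, div_le_one (by linarith)]
    have : ((q : ℂ) - 1) = (((q : ℝ) - 1 : ℝ) : ℂ) := by push_cast; rfl
    rw [this, Complex.norm_real, Real.norm_eq_abs, abs_of_nonneg (by linarith)]
    linarith
  have e2 : (ex ξ - 1) * tp (mean q) (q + 1) ξ = (((q : ℂ) - 1) / q) * ((ex ξ - 1) * dir q ξ)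
      + (ex ξ - 1) * (1 / (q : ℂ) * ex (q * ξ)) := by rw [e]; ring
  rw [e2]
  calc _ ≤ 1 * (2 / (q : ℝ)) + 2 * (1 / (q : ℝ)) := by
        refine (norm_add_le _ _).trans (add_le_add ?_ ?_)
        · rw [norm_mul]
          exact mul_le_mul h2 (dir_weight q ξ) (norm_nonneg _) zero_le_one
        · rw [norm_mul, norm_mul, norm_div, norm_one, Complex.norm_natCast, ex_norm, mul_one]
          exact mul_le_mul_of_nonneg_right h1 (by positivity)
    _ = 4 / q := by ring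

lemma sum_range_blocks {M : Type*} [AddCommMonoid M] (T : ℕ) :
    ∀ (W : ℕ) (f : ℕ → M),
      ∑ i ∈ range (W * T), f i = ∑ j : Fin W, ∑ k ∈ range T, f ((j : ℕ) * T + k) := by
  intro W
  induction W with
  | zero => simp
  | succ W ih =>
    intro f
    rw [Nat.succ_mul, sum_range_add, ih, Fin.sum_univ_castSucc]
    simp

lemma cube_vol (d : ℕ) : volume (cube d) = 1 := by
  simp [cube, MeasureTheory.volume_pi_pi]

lemma quad_eq (n : ℕ) (v : ℕ → ℂ) (ξ : ℝ) :
    ∑ r : Fin n, ∑ r' : Fin n, v r * conj (v r') *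
        ex (((r : ℕ) : ℝ) * ξ - ((r' : ℕ) : ℝ) * ξ)
      = ((‖∑ r ∈ range n, v r * ex (r * ξ)‖ ^ 2 : ℝ) : ℂ) := by
  push_cast
  rw [← Complex.mul_conj', map_sum, sum_mul_sum,
    ← Fin.sum_univ_eq_sum_range fun r => ∑ r' ∈ range n,
      v r * ex (r * ξ) * conj (v r' * ex (r' * ξ))]
  refine sum_congr rfl fun r _ => ?_
  rw [← Fin.sum_univ_eq_sum_range fun r' => v r * ex (r * ξ) * conj (v r' * ex (r' * ξ))]
  refine sum_congr rfl fun r' _ => ?_
  rw [map_mul, conj_ex, sub_eq_add_neg, ex_add']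
  ring

section Stage

variable {q : ℕ} {η δ : ℝ} (X : Pattern q η) (K : Packing X.S X.c δ)

/-- The error row. -/
noncomputable def errRow (j : Fin K.W) (th : Fin X.d → ℝ) (r : ℕ) : ℂ :=
  (if X.sym th = r then 1 else 0) - mean q r - mainRow K q X.pick j th r

/-- The chosen positions inside the blocks. -/
noncomputable def pos (φ : Fin K.W → Fin X.d → ℝ) (T i : ℕ) : ℕ :=
  if h : i / T < K.W then X.sym (jitter K φ T ⟨i / T, h⟩ (i % T)) else 0

lemma pos_le (φ : Fin K.W → Fin X.d → ℝ) (T i : ℕ) : pos X K φ T i ≤ q := by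
  unfold pos
  split_ifs
  · exact X.sym_le _
  · exact Nat.zero_le q

lemma block_index {T : ℕ} (j : Fin K.W) {k : ℕ} (hk : k < T) :
    ((j : ℕ) * T + k) / T = j ∧ ((j : ℕ) * T + k) % T = k := by
  have hT : 0 < T := by omega
  exact ⟨by rw [mul_comm, Nat.mul_add_div hT, Nat.div_eq_of_lt hk, add_zero],
    by rw [mul_comm, Nat.mul_add_mod, Nat.mod_eq_of_lt hk]⟩

lemma pos_block (φ : Fin K.W → Fin X.d → ℝ) {T : ℕ} (j : Fin K.W) {k : ℕ} (hk : k < T) :
    pos X K φ T ((j : ℕ) * T + k) = X.sym (jitter K φ T j k) := by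
  obtain ⟨h1, h2⟩ := block_index X K j hk
  unfold pos
  rw [dif_pos (by rw [h1]; exact j.2)]
  simp only [h1, h2, Fin.eta]

lemma measurable_chr (m : Fin X.d → ℤ) : Measurable (chr m) := by
  unfold chr
  exact (ex_cont.comp (by fun_prop)).measurable

lemma measurable_errRow (j : Fin K.W) (θ₀ : Fin X.d → ℝ) (r : ℕ) :
    Measurable fun φ => errRow X K j (θ₀ + φ) r := by
  have hadd : Measurable fun φ : Fin X.d → ℝ => θ₀ + φ := measurable_const_add θ₀
  unfold errRow mainRow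
  refine ((Measurable.ite ?_ measurable_const measurable_const).sub measurable_const).sub
    (Finset.measurable_sum _ fun m _ => ((measurable_chr X m).comp hadd).const_mul _)
  exact (X.sym_meas.comp hadd) (measurableSet_singleton r)

lemma norm_sc_le (hδ : δ ≤ 1) (j : Fin K.W) {m : Fin X.d → ℤ} (hm : m ∈ X.S) :
    ‖((K.sc j m : ℝ) : ℂ)‖ ≤ 2 := by
  rw [Complex.norm_real, Real.norm_eq_abs]
  have h := K.sc_near j m hm
  have := abs_sub_abs_le_abs_sub (K.sc j m) 1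
  rw [abs_one] at this
  linarith

lemma norm_errRow_le (hq : 0 < q) (hδ : δ ≤ 1) (j : Fin K.W) (th : Fin X.d → ℝ) (r : ℕ) :
    ‖errRow X K j th r‖ ≤ 2 + 4 * ∑ m ∈ X.S, ‖X.c m‖ := by
  unfold errRow
  refine (norm_sub_le _ _).trans (add_le_add ((norm_sub_le _ _).trans ?_) ?_)
  · have h1 : ‖(if X.sym th = r then (1 : ℂ) else 0)‖ ≤ 1 := by split_ifs <;> simp
    linarith [mean_norm hq r]
  · unfold mainRow
    refine (norm_sum_le _ _).trans ?_
    rw [mul_sum]
    refine sum_le_sum fun m hm => ?_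
    rw [norm_mul, norm_mul, norm_mul, chr, ex_norm, mul_one]
    calc ‖((K.sc j m : ℝ) : ℂ)‖ * ‖X.c m‖ * ‖avec q (X.pick m) r‖
        ≤ 2 * ‖X.c m‖ * 2 :=
          mul_le_mul (mul_le_mul_of_nonneg_right (norm_sc_le X K hδ j hm) (norm_nonneg _))
            (avec_norm hq _ _) (norm_nonneg _) (by positivity)
      _ = 4 * ‖X.c m‖ := by ring

lemma integral_errRow_le (hq : 0 < q) (j : Fin K.W) (θ₀ : Fin X.d → ℝ) (ξ : ℝ) :
    ∫ φ in cube X.d, ‖∑ r ∈ range (q + 1), errRow X K j (θ₀ + φ) r * ex (r * ξ)‖ ^ 2 ≤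
      2 * η + 2 * (2 * δ * ∑ m ∈ X.S, ‖X.c m‖) ^ 2 := by
  have : IsFiniteMeasure (volume.restrict (cube X.d)) := ⟨by
    rw [Measure.restrict_apply_univ, cube_vol]
    exact ENNReal.one_lt_top⟩
  have hvol : (volume.restrict (cube X.d)).real Set.univ = 1 := by
    rw [measureReal_def, Measure.restrict_apply_univ, cube_vol, ENNReal.toReal_one]
  set A : (Fin X.d → ℝ) → ℂ := fun φ => ∑ r ∈ range (q + 1),
    ((if X.sym (θ₀ + φ) = r then 1 else 0) - mean q r -
      ∑ m ∈ X.S, X.c m * avec q (X.pick m) r * chr m (θ₀ + φ)) * ex (r * ξ) with hA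
  set Z : ℝ := 2 * δ * ∑ m ∈ X.S, ‖X.c m‖ with hZ
  set E : (Fin X.d → ℝ) → ℂ := fun φ =>
    ∑ r ∈ range (q + 1), errRow X K j (θ₀ + φ) r * ex (r * ξ) with hE
  have hdiff : ∀ φ, ‖E φ - A φ‖ ≤ Z := by
    intro φ
    have e : E φ - A φ = ∑ m ∈ X.S, ((1 : ℂ) - ((K.sc j m : ℝ) : ℂ)) * X.c m * chr m (θ₀ + φ) *
        ∑ r ∈ range (q + 1), avec q (X.pick m) r * ex (r * ξ) := by
      simp only [hE, hA, errRow, mainRow, mul_sum]
      rw [← sum_sub_distrib, sum_comm (s := X.S)]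
      refine sum_congr rfl fun r _ => ?_
      rw [← sub_mul, sub_sub_sub_cancel_left, ← sum_sub_distrib, sum_mul]
      exact sum_congr rfl fun m _ => by ring
    rw [e, hZ, mul_sum]
    refine (norm_sum_le _ _).trans (sum_le_sum fun m hm => ?_)
    rw [norm_mul, norm_mul, norm_mul, chr, ex_norm, mul_one]
    have h1 : ‖(1 : ℂ) - ((K.sc j m : ℝ) : ℂ)‖ ≤ δ := by
      have : (1 : ℂ) - ((K.sc j m : ℝ) : ℂ) = (((1 : ℝ) - K.sc j m : ℝ) : ℂ) := by push_cast; rfl
      rw [this, Complex.norm_real, Real.norm_eq_abs, abs_sub_comm]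
      exact K.sc_near j m hm
    have h2 : ‖∑ r ∈ range (q + 1), avec q (X.pick m) r * ex (r * ξ)‖ ≤ 2 := by
      rw [avec_poly (X.pick_le m hm)]
      refine (norm_sub_le _ _).trans ?_
      rw [ex_norm]
      linarith [dir_le_one q ξ]
    calc ‖(1 : ℂ) - ((K.sc j m : ℝ) : ℂ)‖ * ‖X.c m‖ * _ ≤ δ * ‖X.c m‖ * 2 := by
          refine mul_le_mul (mul_le_mul_of_nonneg_right h1 (norm_nonneg _)) h2 (norm_nonneg _) ?_
          exact mul_nonneg (le_trans (norm_nonneg _) h1) (norm_nonneg _)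
      _ = 2 * δ * ‖X.c m‖ := by ring
  have hpt : ∀ φ, ‖E φ‖ ^ 2 ≤ 2 * ‖A φ‖ ^ 2 + 2 * Z ^ 2 := by
    intro φ
    have h0 : ‖E φ‖ ≤ ‖A φ‖ + Z := by
      have := norm_le_norm_add_norm_sub' (E φ) (A φ)
      linarith [hdiff φ]
    refine (pow_le_pow_left₀ (norm_nonneg _) h0 2).trans ?_
    linarith [add_sq_le (a := ‖A φ‖) (b := Z)]
  have hadd : Measurable fun φ : Fin X.d → ℝ => θ₀ + φ := measurable_const_add θ₀
  have hAm : Measurable A := by
    refine Finset.measurable_sum _ fun r _ => Measurable.mul_const ?_ _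
    refine ((Measurable.ite ?_ measurable_const measurable_const).sub measurable_const).sub
      (Finset.measurable_sum _ fun m _ => ((measurable_chr X m).comp hadd).const_mul _)
    exact (X.sym_meas.comp hadd) (measurableSet_singleton r)
  have hAb : ∀ φ, ‖A φ‖ ≤ ∑ r ∈ range (q + 1),
      (1 + ‖mean q r‖ + ∑ m ∈ X.S, ‖X.c m‖ * ‖avec q (X.pick m) r‖) := by
    intro φ
    refine (norm_sum_le _ _).trans (sum_le_sum fun r _ => ?_)
    rw [norm_mul, ex_norm, mul_one]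
    refine (norm_sub_le _ _).trans (add_le_add ((norm_sub_le _ _).trans
      (add_le_add (by split_ifs <;> simp) le_rfl)) ((norm_sum_le _ _).trans ?_))
    exact sum_le_sum fun m _ => by rw [norm_mul, norm_mul, chr, ex_norm, mul_one]
  have hAi : Integrable (fun φ => ‖A φ‖ ^ 2) (volume.restrict (cube X.d)) :=
    Integrable.of_bound ((hAm.norm.pow_const 2).aestronglyMeasurable) _
      (Filter.Eventually.of_forall fun φ => by
        rw [Real.norm_eq_abs, abs_of_nonneg (sq_nonneg _)]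
        exact pow_le_pow_left₀ (norm_nonneg _) (hAb φ) 2)
  calc ∫ φ in cube X.d, ‖E φ‖ ^ 2 ≤ ∫ φ in cube X.d, (2 * ‖A φ‖ ^ 2 + 2 * Z ^ 2) :=
        integral_mono_of_nonneg (Filter.Eventually.of_forall fun φ => sq_nonneg _)
          ((hAi.const_mul 2).add (integrable_const _)) (Filter.Eventually.of_forall hpt)
    _ = 2 * (∫ φ in cube X.d, ‖A φ‖ ^ 2) + 2 * Z ^ 2 := by
        rw [integral_add (hAi.const_mul 2) (integrable_const _), integral_const_mul, integral_const,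
          hvol, one_smul]
    _ ≤ 2 * η + 2 * Z ^ 2 := by linarith [X.close θ₀ ξ]

/-- A translate per window with small average error at every frequency. -/
lemma exists_translates (hA : AverageStmt) (hq : 0 < q) (hδ : δ ≤ 1) {T : ℕ} (hT : 0 < T) :
    ∃ φ : Fin K.W → Fin X.d → ℝ, ∀ ξ : ℝ,
      (∑ j : Fin K.W, ∑ k ∈ range T,
          ‖tp (errRow X K j (jitter K φ T j k)) (q + 1) ξ‖ ^ 2) / ((K.W * T : ℕ) : ℝ) ≤
        2 * η + 2 * (2 * δ * ∑ m ∈ X.S, ‖X.c m‖) ^ 2 +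
          ((q + 1 : ℕ) : ℝ) ^ 2 * (2 + 4 * ∑ m ∈ X.S, ‖X.c m‖) ^ 2 / Real.sqrt K.W := by
  have : IsFiniteMeasure (volume.restrict (cube X.d)) := ⟨by
    rw [Measure.restrict_apply_univ, cube_vol]
    exact ENNReal.one_lt_top⟩
  set K₀ : ℝ := 2 + 4 * ∑ m ∈ X.S, ‖X.c m‖ with hK₀
  have hK0 : 0 ≤ K₀ := by positivity
  set θj : Fin K.W → ℕ → Fin X.d → ℝ := fun j k => K.θ j k ((k : ℝ) ^ 2 / (2 * T)) with hθj
  set M : Fin K.W → (Fin X.d → ℝ) → Fin (q + 1) → Fin (q + 1) → ℂ := fun j φ r r' =>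
    (T : ℂ)⁻¹ * ∑ k ∈ range T,
      errRow X K j (θj j k + φ) r * conj (errRow X K j (θj j k + φ) r') with hM
  have hTR : (0 : ℝ) < T := by exact_mod_cast hT
  have hMm : ∀ j (r r' : Fin (q + 1)), Measurable fun φ => M j φ r r' := fun j r r' =>
    (Finset.measurable_sum _ fun k _ => (measurable_errRow X K j _ r).mul
      (Complex.continuous_conj.measurable.comp (measurable_errRow X K j _ r'))).const_mul _
  have hMb : ∀ j φ r r', ‖M j φ r r'‖ ≤ K₀ ^ 2 := by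
    intro j φ r r'
    rw [hM, norm_mul, norm_inv, Complex.norm_natCast, inv_mul_le_iff₀ hTR]
    refine (norm_sum_le _ _).trans ((sum_le_sum fun k _ => ?_).trans_eq
      (by rw [sum_const, card_range, nsmul_eq_mul]))
    rw [norm_mul, RCLike.norm_conj, sq]
    exact mul_le_mul (norm_errRow_le X K hq hδ j _ _) (norm_errRow_le X K hq hδ j _ _)
      (norm_nonneg _) hK0
  have hquad : ∀ j φ ξ, ∑ r, ∑ r', M j φ r r' * ex (((r : ℕ) : ℝ) * ξ - ((r' : ℕ) : ℝ) * ξ)
      = (((∑ k ∈ range T, ‖tp (errRow X K j (θj j k + φ)) (q + 1) ξ‖ ^ 2) / T : ℝ) : ℂ) := by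
    intro j φ ξ
    simp only [hM, mul_assoc, sum_mul, ← mul_sum]
    rw [sum_congr rfl fun r _ => sum_comm, sum_comm, sum_div]
    push_cast
    rw [mul_sum]
    refine sum_congr rfl fun k _ => ?_
    have := quad_eq (q + 1) (errRow X K j (θj j k + φ)) ξ
    push_cast at this
    simp only [mul_assoc] at this
    rw [this, tp, inv_mul_eq_div]
  have hmean : ∀ j ξ, (∑ r, ∑ r', (∫ φ in cube X.d, M j φ r r') *
      ex (((r : ℕ) : ℝ) * ξ - ((r' : ℕ) : ℝ) * ξ)).re ≤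
        2 * η + 2 * (2 * δ * ∑ m ∈ X.S, ‖X.c m‖) ^ 2 := by
    intro j ξ
    have hint : ∀ r r', Integrable (fun φ => M j φ r r') (volume.restrict (cube X.d)) := fun r r' =>
      Integrable.of_bound (hMm j r r').aestronglyMeasurable _
        (Filter.Eventually.of_forall fun φ => hMb j φ r r')
    have hint' : ∀ k, Integrable
        (fun φ => ‖tp (errRow X K j (θj j k + φ)) (q + 1) ξ‖ ^ 2)
        (volume.restrict (cube X.d)) := fun k =>
      Integrable.of_bound ((Finset.measurable_sum _ fun r _ =>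
        (measurable_errRow X K j _ r).mul_const _).norm.pow_const 2).aestronglyMeasurable
        ((∑ r ∈ range (q + 1), K₀) ^ 2) (Filter.Eventually.of_forall fun φ => by
          rw [Real.norm_eq_abs, abs_of_nonneg (sq_nonneg _)]
          refine pow_le_pow_left₀ (norm_nonneg _)
            ((norm_sum_le _ _).trans (sum_le_sum fun r _ => ?_)) 2
          rw [norm_mul, ex_norm, mul_one]
          exact norm_errRow_le X K hq hδ j _ r)
    have e : ∑ r, ∑ r', (∫ φ in cube X.d, M j φ r r') *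
        ex (((r : ℕ) : ℝ) * ξ - ((r' : ℕ) : ℝ) * ξ)
          = (((∑ k ∈ range T,
            ∫ φ in cube X.d, ‖tp (errRow X K j (θj j k + φ)) (q + 1) ξ‖ ^ 2) / T : ℝ) : ℂ) := by
      calc _ = ∫ φ in cube X.d, ∑ r, ∑ r',
            M j φ r r' * ex (((r : ℕ) : ℝ) * ξ - ((r' : ℕ) : ℝ) * ξ) := by
            rw [integral_finsetSum _ fun r _ =>
              integrable_finsetSum _ fun r' _ => (hint r r').mul_const _]
            refine sum_congr rfl fun r _ => ?_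
            rw [integral_finsetSum _ fun r' _ => (hint r r').mul_const _]
            exact sum_congr rfl fun r' _ => (integral_mul_const _ _).symm
        _ = _ := by
            simp only [hquad]
            rw [integral_complex_ofReal, integral_div, integral_finsetSum _ fun k _ => hint' k]
    rw [e, Complex.ofReal_re, div_le_iff₀ hTR]
    refine (sum_le_sum fun k _ => integral_errRow_le X K hq j (θj j k) ξ).trans_eq ?_
    rw [sum_const, card_range, nsmul_eq_mul]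
    ring
  obtain ⟨φ, hφ⟩ := hA K.W X.d (q + 1) M (K₀ ^ 2) _ K.W_pos hMm hMb hmean
  refine ⟨φ, fun ξ => le_trans (le_of_eq ?_) (hφ ξ)⟩
  simp only [hquad, Complex.ofReal_re, hθj, jitter]
  rw [← sum_div, Nat.cast_mul, mul_comm (K.W : ℝ), div_div]

/-- The weighted size of the part away from the main row. -/
lemma rest_bound (hA : AverageStmt) (hW : WeightStmt) (hq : 0 < q) (hδ : δ ≤ 1) {T : ℕ}
    (hT : 0 < T) :
    ∃ φ : Fin K.W → Fin X.d → ℝ, ∀ (B n : ℕ) (g : ℕ → ℂ), n + 1 + q ≤ B →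
      ∫ ξ in (0 : ℝ)..1, ‖(ex ξ - 1) * tp g n ξ‖ ^ 2 *
          ‖stageP (K.W * T) B (pos X K φ T) ξ - mainP K q X.pick φ T B ξ‖ ^ 2 ≤
        (32 / (q : ℝ) ^ 2 + 8 * (2 * η + 2 * (2 * δ * ∑ m ∈ X.S, ‖X.c m‖) ^ 2 +
          ((q + 1 : ℕ) : ℝ) ^ 2 * (2 + 4 * ∑ m ∈ X.S, ‖X.c m‖) ^ 2 / Real.sqrt K.W)) *
          ∑ k ∈ range n, ‖g k‖ ^ 2 := by
  obtain ⟨φ, hφ⟩ := exists_translates X K hA hq hδ hT
  refine ⟨φ, fun B n g hB => ?_⟩
  obtain ⟨g', hg', hg'sq⟩ := weighted g n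
  set Λ : ℝ := 2 * η + 2 * (2 * δ * ∑ m ∈ X.S, ‖X.c m‖) ^ 2 +
    ((q + 1 : ℕ) : ℝ) ^ 2 * (2 + 4 * ∑ m ∈ X.S, ‖X.c m‖) ^ 2 / Real.sqrt K.W with hΛ
  set p := K.W * T with hp
  have hpR : (0 : ℝ) < (p : ℝ) := by exact_mod_cast Nat.mul_pos K.W_pos hT
  set G : ℝ := ∑ k ∈ range n, ‖g k‖ ^ 2 with hG
  set e₁ : ℕ → ℕ → ℂ := fun _ => mean q with he₁
  set e₂ : ℕ → ℕ → ℂ := fun b r => if h : b / T < K.W then
    errRow X K ⟨b / T, h⟩ (jitter K φ T ⟨b / T, h⟩ (b % T)) r else 0 with he₂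
  have hblock : ∀ (j : Fin K.W) (k : ℕ), k < T →
      e₂ ((j : ℕ) * T + k) = errRow X K j (jitter K φ T j k) := by
    intro j k hk
    obtain ⟨h1, h2⟩ := block_index X K j hk
    funext r
    simp only [he₂]
    rw [dif_pos (by rw [h1]; exact j.2)]
    simp only [h1, h2, Fin.eta]
  set S₁ : ℝ → ℂ := fun ξ =>
    ∑ b ∈ range p, tp (e₁ b) (q + 1) ξ * ex (((b * B : ℕ) : ℝ) * ξ) with hS₁
  set S₂ : ℝ → ℂ := fun ξ =>
    ∑ b ∈ range p, tp (e₂ b) (q + 1) ξ * ex (((b * B : ℕ) : ℝ) * ξ) with hS₂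
  have hid : ∀ ξ, stageP p B (pos X K φ T) ξ - mainP K q X.pick φ T B ξ =
      (((Real.sqrt p)⁻¹ : ℝ) : ℂ) * (S₁ ξ + S₂ ξ) := by
    intro ξ
    rw [stageP, mainP, ← mul_sub]
    congr 1
    simp only [hS₁, hS₂, hp]
    rw [sum_range_blocks, sum_range_blocks, sum_range_blocks, ← sum_sub_distrib, ← sum_add_distrib]
    refine sum_congr rfl fun j _ => ?_
    rw [← sum_sub_distrib, ← sum_add_distrib]
    refine sum_congr rfl fun k hk => ?_
    rw [pos_block X K φ j (mem_range.1 hk), hblock j k (mem_range.1 hk)]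
    have h1 : ex (((((j : ℕ) * T + k) * B + X.sym (jitter K φ T j k) : ℕ) : ℝ) * ξ)
        = ex (((((j : ℕ) * T + k) * B : ℕ) : ℝ) * ξ) *
          ex ((X.sym (jitter K φ T j k) : ℕ) * ξ) := by
      push_cast
      rw [add_mul, ex_add']
    have h2 : ex ((X.sym (jitter K φ T j k) : ℕ) * ξ) =
        ∑ r ∈ range (q + 1),
          (if X.sym (jitter K φ T j k) = r then (1 : ℂ) else 0) * ex (r * ξ) := by
      simp only [ite_mul, one_mul, zero_mul]
      rw [sum_ite_eq, if_pos (mem_range.2 (Nat.lt_succ_of_le (X.sym_le _)))]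
    rw [h1, h2]
    simp only [tp, he₁, errRow, sub_mul, sum_sub_distrib]
    ring
  have hpt : ∀ ξ, ‖(ex ξ - 1) * tp g n ξ‖ ^ 2 *
      ‖stageP p B (pos X K φ T) ξ - mainP K q X.pick φ T B ξ‖ ^ 2 ≤
      2 / (p : ℝ) * (‖tp g' (n + 1) ξ‖ ^ 2 * ‖S₁ ξ‖ ^ 2) +
      2 / (p : ℝ) * (‖tp g' (n + 1) ξ‖ ^ 2 * ‖S₂ ξ‖ ^ 2) := by
    intro ξ
    rw [hid, hg', norm_mul (((Real.sqrt p)⁻¹ : ℝ) : ℂ), Complex.norm_real, Real.norm_eq_abs,
      abs_inv, abs_of_nonneg (Real.sqrt_nonneg _), mul_pow, inv_pow, Real.sq_sqrt hpR.le]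
    have h : ‖S₁ ξ + S₂ ξ‖ ^ 2 ≤ 2 * ‖S₁ ξ‖ ^ 2 + 2 * ‖S₂ ξ‖ ^ 2 := by
      refine (pow_le_pow_left₀ (norm_nonneg _) (norm_add_le _ _) 2).trans ?_
      linarith [add_sq_le (a := ‖S₁ ξ‖) (b := ‖S₂ ξ‖)]
    refine (mul_le_mul_of_nonneg_left (mul_le_mul_of_nonneg_left h (inv_nonneg.2 hpR.le))
      (sq_nonneg _)).trans_eq ?_
    ring
  have hc : ∀ a : ℕ → ℕ → ℂ, IntervalIntegrable (fun ξ => ‖tp g' (n + 1) ξ‖ ^ 2 *
      ‖∑ b ∈ range p, tp (a b) (q + 1) ξ * ex (((b * B : ℕ) : ℝ) * ξ)‖ ^ 2) volume 0 1 := fun a =>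
    (((tp_cont _ _).norm.pow 2).mul
      ((stage_cont p B a (q + 1)).norm.pow 2)).intervalIntegrable 0 1
  have hcl : IntervalIntegrable (fun ξ => ‖(ex ξ - 1) * tp g n ξ‖ ^ 2 *
      ‖stageP p B (pos X K φ T) ξ - mainP K q X.pick φ T B ξ‖ ^ 2) volume 0 1 := by
    simp only [hid, hS₁, hS₂]
    exact ((((ex_cont.sub continuous_const).mul (tp_cont g n)).norm.pow 2).mul
      ((continuous_const.mul ((stage_cont p B e₁ (q + 1)).add
        (stage_cont p B e₂ (q + 1)))).norm.pow 2)).intervalIntegrable 0 1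
  refine (intervalIntegral.integral_mono_on zero_le_one hcl
    (((hc e₁).const_mul _).add ((hc e₂).const_mul _)) fun ξ _ => hpt ξ).trans ?_
  rw [intervalIntegral.integral_add ((hc e₁).const_mul _) ((hc e₂).const_mul _),
    intervalIntegral.integral_const_mul, intervalIntegral.integral_const_mul,
    hW.1 B q (n + 1) p g' e₁ hB, hW.1 B q (n + 1) p g' e₂ hB]
  have h1 : ∫ ξ in (0 : ℝ)..1, ‖tp g' (n + 1) ξ‖ ^ 2 *
      ∑ b ∈ range p, ‖tp (e₁ b) (q + 1) ξ‖ ^ 2 ≤ (p : ℝ) * (16 / (q : ℝ) ^ 2) * G := by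
    have hbd : ∀ ξ, ‖tp g' (n + 1) ξ‖ ^ 2 * ∑ b ∈ range p, ‖tp (e₁ b) (q + 1) ξ‖ ^ 2
        ≤ (p : ℝ) * (16 / (q : ℝ) ^ 2) * ‖tp g n ξ‖ ^ 2 := by
      intro ξ
      simp only [he₁, sum_const, card_range, nsmul_eq_mul]
      rw [hg']
      have := pow_le_pow_left₀ (norm_nonneg _) (weight_mean hq ξ) 2
      rw [norm_mul, mul_pow, div_pow] at this
      rw [norm_mul, mul_pow]
      have h0 := mul_le_mul_of_nonneg_left this
        (mul_nonneg hpR.le (sq_nonneg ‖tp g n ξ‖))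
      refine le_trans (le_of_eq ?_) (h0.trans_eq ?_)
      · ring
      · ring
    refine (intervalIntegral.integral_mono_on zero_le_one ?_ ?_ fun ξ _ => hbd ξ).trans_eq ?_
    · exact (((tp_cont _ _).norm.pow 2).mul (continuous_finsetSum _ fun b _ =>
        (tp_cont _ _).norm.pow 2)).intervalIntegrable 0 1
    · exact (continuous_const.mul ((tp_cont g n).norm.pow 2)).intervalIntegrable 0 1
    · rw [intervalIntegral.integral_const_mul, integral_tp_sq hW]
  have hΛ0 : ∀ ξ, ∑ b ∈ range p, ‖tp (e₂ b) (q + 1) ξ‖ ^ 2 ≤ Λ * p := by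
    intro ξ
    have := hφ ξ
    rw [div_le_iff₀ hpR] at this
    refine le_trans (le_of_eq ?_) this
    rw [hp, sum_range_blocks]
    exact sum_congr rfl fun j _ => sum_congr rfl fun k hk => by rw [hblock j k (mem_range.1 hk)]
  have hΛnn : 0 ≤ Λ := by
    have := le_trans (sum_nonneg fun b _ => sq_nonneg _) (hΛ0 0)
    exact nonneg_of_mul_nonneg_left this hpR
  have h2 : ∫ ξ in (0 : ℝ)..1, ‖tp g' (n + 1) ξ‖ ^ 2 *
      ∑ b ∈ range p, ‖tp (e₂ b) (q + 1) ξ‖ ^ 2 ≤ Λ * p * (4 * G) := by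
    refine (intervalIntegral.integral_mono_on zero_le_one ?_ ?_ fun ξ _ =>
      mul_le_mul_of_nonneg_left (hΛ0 ξ) (sq_nonneg _)).trans ?_
    · exact (((tp_cont _ _).norm.pow 2).mul (continuous_finsetSum _ fun b _ =>
        (tp_cont _ _).norm.pow 2)).intervalIntegrable 0 1
    · exact (((tp_cont _ _).norm.pow 2).mul continuous_const).intervalIntegrable 0 1
    · rw [intervalIntegral.integral_mul_const, integral_tp_sq hW, mul_comm]
      exact mul_le_mul_of_nonneg_left hg'sq (mul_nonneg hΛnn hpR.le)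
  have h3 := mul_le_mul_of_nonneg_left h1 (show 0 ≤ 2 / (p : ℝ) by positivity)
  have h4 := mul_le_mul_of_nonneg_left h2 (show 0 ≤ 2 / (p : ℝ) by positivity)
  refine (add_le_add h3 h4).trans_eq ?_
  field_simp
  ring

end Stage

end CombRest

end Vale.Agent.P130.Simple
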