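import Vale.Agent.P130.Simple.CombineMain
import Vale.Agent.P130.Simple.CombineRest

/-!
# P130: the pieces give flat stages
-/

open Finset MeasureTheory
open scoped ComplexConjugate

namespace Vale.Agent.P130.Simple

open Vale.Agent.P110.UF (ex)
open CombMain CombRest

lemma continuous_stageP (p B : ℕ) (σ : ℕ → ℕ) : Continuous (stageP p B σ) := by
  unfold stageP
  exact continuous_const.mul (continuous_finsetSum _ fun _ _ =>
    ex_cont.comp (continuous_const.mul continuous_id))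

lemma continuous_mainP {d : ℕ} {S : Finset (Fin d → ℤ)} {c : (Fin d → ℤ) → ℂ} {η : ℝ}
    (K : Packing S c η) (q : ℕ) (pick : (Fin d → ℤ) → ℕ) (φ : Fin K.W → Fin d → ℝ) (T B : ℕ) :
    Continuous (mainP K q pick φ T B) := by
  unfold mainP
  exact continuous_const.mul (continuous_finsetSum _ fun _ _ => continuous_finsetSum _ fun _ _ =>
    (ex_cont.comp (continuous_const.mul continuous_id)).mul (tp_cont _ _))

/-- The pieces give flat stages. -/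
theorem combine_stmt : CombineStmt := by
  intro hP hC hK hA hW η hη
  obtain ⟨C₀, hC₀, hmain⟩ := main_bound hC hW
  set ε : ℝ := min (η / (144 + 6 * C₀)) (1 / 4) with hεdef
  have hε : 0 < ε := lt_min (by positivity) (by norm_num)
  have hε4 : ε ≤ 1 / 4 := min_le_right _ _
  have hεη : (144 + 6 * C₀) * ε ≤ η := by
    have := min_le_left (η / (144 + 6 * C₀)) (1 / 4)
    rw [← hεdef, le_div_iff₀ (by positivity)] at this
    linarith
  obtain ⟨q₀, hq₀⟩ := hP ε hε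
  obtain ⟨L, hL⟩ := exists_nat_ge (1 / ε)
  refine ⟨2 * (max q₀ L + 1) + 2, fun D B N hD => ?_⟩
  obtain ⟨q, hqp, hq1, hq2⟩ := Nat.exists_prime_lt_and_le_two_mul (D / 2) (by omega)
  have hqD : q ≤ D := by omega
  have hq0 : 0 < q := hqp.pos
  have hqq₀ : q₀ ≤ q := by
    have := le_max_left q₀ L
    omega
  have hqL : L ≤ q := by
    have := le_max_right q₀ L
    omega
  have hqR : 1 / ε ≤ (q : ℝ) := hL.trans (by exact_mod_cast hqL)
  have hq1R : (1 : ℝ) ≤ q := by exact_mod_cast hq0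
  have hinv : 1 / (q : ℝ) ^ 2 ≤ ε := by
    rw [div_le_iff₀ (by positivity)]
    rw [div_le_iff₀ hε] at hqR
    have : (q : ℝ) ≤ (q : ℝ) ^ 2 := by nlinarith
    calc (1 : ℝ) ≤ (q : ℝ) * ε := hqR
      _ ≤ (q : ℝ) ^ 2 * ε := mul_le_mul_of_nonneg_right this hε.le
      _ = ε * (q : ℝ) ^ 2 := mul_comm _ _
  obtain ⟨X⟩ := hq₀ q hqp hqq₀
  have hne : X.S.Nonempty := by
    rcases X.S.eq_empty_or_nonempty with h | h
    · have := X.le_energy
      rw [h, sum_empty] at this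
      linarith
    · exact h
  set Sc : ℝ := ∑ m ∈ X.S, ‖X.c m‖ with hSc
  set A : ℝ := ((q + 1 : ℕ) : ℝ) ^ 2 * (2 + 4 * Sc) ^ 2 with hAdef
  have hSc0 : 0 ≤ Sc := by positivity
  have hA0 : 0 < A := by positivity
  set δ : ℝ := min ε (min (ε / (1 + (2 * Sc) ^ 2)) ((ε / A) ^ 2)) with hδdef
  have hδ : 0 < δ := lt_min hε (lt_min (by positivity) (by positivity))
  have hδε : δ ≤ ε := min_le_left _ _
  obtain ⟨K⟩ := hK X.d X.S X.c X.prim X.neg_mem X.conj_c X.c_ne hne X.energy_le δ hδ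
  obtain ⟨T, hNT, hT, hbound⟩ :=
    hmain X.d X.S X.c δ hδ (hδε.trans hε4) X.energy_le K q X.pick X.pick_le N
  obtain ⟨φ, hφ⟩ := rest_bound X K hA hW hq0 (show δ ≤ 1 by linarith) hT
  refine ⟨K.W * T, hNT.trans (Nat.le_mul_of_pos_left T K.W_pos), Nat.mul_pos K.W_pos hT,
    pos X K φ T, fun i => (pos_le X K φ T i).trans hqD, fun n hn => fun g => ?_⟩
  have h1 := hφ B n g (by omega)
  have h2 := hbound φ B n g (by omega)
  have hsq : (2 * δ * Sc) ^ 2 ≤ ε := by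
    have hd : δ ≤ ε / (1 + (2 * Sc) ^ 2) := le_trans (min_le_right _ _) (min_le_left _ _)
    rw [le_div_iff₀ (by positivity)] at hd
    have e : δ ^ 2 ≤ δ := by nlinarith
    calc (2 * δ * Sc) ^ 2 = δ ^ 2 * (2 * Sc) ^ 2 := by ring
      _ ≤ δ * (1 + (2 * Sc) ^ 2) := by
          exact mul_le_mul e (by linarith) (sq_nonneg _) hδ.le
      _ ≤ ε := hd
  have hW' : A / Real.sqrt K.W ≤ ε := by
    have hWR : (0 : ℝ) < K.W := by exact_mod_cast K.W_pos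
    have hd : δ ≤ (ε / A) ^ 2 := le_trans (min_le_right _ _) (min_le_right _ _)
    have hbig : (A / ε) ^ 2 ≤ (K.W : ℝ) := by
      refine le_trans ?_ K.W_big
      rw [le_div_iff₀ hδ]
      calc (A / ε) ^ 2 * δ ≤ (A / ε) ^ 2 * (ε / A) ^ 2 :=
            mul_le_mul_of_nonneg_left hd (sq_nonneg _)
        _ = 1 := by field_simp
    rw [div_le_iff₀ (Real.sqrt_pos.2 hWR)]
    have := Real.sqrt_le_sqrt hbig
    rw [Real.sqrt_sq (by positivity), div_le_iff₀ hε] at this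
    linarith
  set G : ℝ := ∑ k ∈ range n, ‖g k‖ ^ 2 with hG
  have hG0 : 0 ≤ G := by positivity
  set w : ℝ → ℝ := fun ξ => ‖(ex ξ - 1) * tp g n ξ‖ ^ 2 with hw
  set P := stageP (K.W * T) B (pos X K φ T) with hPdef
  set Q := mainP K q X.pick φ T B with hQdef
  have hwc : Continuous w :=
    ((ex_cont.sub continuous_const).mul (tp_cont g n)).norm.pow 2
  have hPc : Continuous P := continuous_stageP _ _ _
  have hQc : Continuous Q := continuous_mainP _ _ _ _ _ _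
  have hi1 : IntervalIntegrable (fun ξ => w ξ * ‖P ξ - Q ξ‖ ^ 2) volume 0 1 :=
    (hwc.mul ((hPc.sub hQc).norm.pow 2)).intervalIntegrable 0 1
  have hi2 : IntervalIntegrable (fun ξ => w ξ * (‖Q ξ‖ - 1) ^ 2) volume 0 1 :=
    (hwc.mul ((hQc.norm.sub continuous_const).pow 2)).intervalIntegrable 0 1
  have hi3 : IntervalIntegrable (fun ξ => w ξ * (‖P ξ‖ - 1) ^ 2) volume 0 1 :=
    (hwc.mul ((hPc.norm.sub continuous_const).pow 2)).intervalIntegrable 0 1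
  have hpt : ∀ ξ, w ξ * (‖P ξ‖ - 1) ^ 2 ≤
      2 * (w ξ * ‖P ξ - Q ξ‖ ^ 2) + 2 * (w ξ * (‖Q ξ‖ - 1) ^ 2) := by
    intro ξ
    have h0 : (‖P ξ‖ - ‖Q ξ‖) ^ 2 ≤ ‖P ξ - Q ξ‖ ^ 2 := by
      rw [← sq_abs]
      exact pow_le_pow_left₀ (abs_nonneg _) (abs_norm_sub_norm_le _ _) 2
    have h3 : (‖P ξ‖ - 1) ^ 2 ≤ 2 * ‖P ξ - Q ξ‖ ^ 2 + 2 * (‖Q ξ‖ - 1) ^ 2 := by
      have := add_sq_le (a := ‖P ξ‖ - ‖Q ξ‖) (b := ‖Q ξ‖ - 1)
      rw [show ‖P ξ‖ - ‖Q ξ‖ + (‖Q ξ‖ - 1) = ‖P ξ‖ - 1 by ring] at this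
      linarith
    have := mul_le_mul_of_nonneg_left h3 (show 0 ≤ w ξ from sq_nonneg _)
    linarith
  have hsum : (∫ ξ in (0 : ℝ)..1, w ξ * (‖P ξ‖ - 1) ^ 2) ≤
      2 * (∫ ξ in (0 : ℝ)..1, w ξ * ‖P ξ - Q ξ‖ ^ 2) +
      2 * (∫ ξ in (0 : ℝ)..1, w ξ * (‖Q ξ‖ - 1) ^ 2) := by
    rw [← intervalIntegral.integral_const_mul, ← intervalIntegral.integral_const_mul,
      ← intervalIntegral.integral_add (hi1.const_mul 2) (hi2.const_mul 2)]
    exact intervalIntegral.integral_mono_on zero_le_one hi3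
      ((hi1.const_mul 2).add (hi2.const_mul 2)) fun ξ _ => hpt ξ
  have e1 : 32 / (q : ℝ) ^ 2 + 8 * (2 * ε + 2 * (2 * δ * Sc) ^ 2 +
      ((q + 1 : ℕ) : ℝ) ^ 2 * (2 + 4 * Sc) ^ 2 / Real.sqrt K.W) ≤ 72 * ε := by
    rw [← hAdef, show (32 : ℝ) / (q : ℝ) ^ 2 = 32 * (1 / (q : ℝ) ^ 2) by ring]
    linarith
  have e2 : C₀ * (δ + (1 - ∑ m ∈ X.S, ‖X.c m‖ ^ 2) + 1 / (q : ℝ) ^ 2) ≤ C₀ * (3 * ε) :=
    mul_le_mul_of_nonneg_left (by linarith [X.le_energy]) hC₀.le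
  have k1 := h1.trans (mul_le_mul_of_nonneg_right e1 hG0)
  have k2 := h2.trans (mul_le_mul_of_nonneg_right e2 hG0)
  have k3 := mul_le_mul_of_nonneg_right hεη hG0
  show (∫ ξ in (0 : ℝ)..1, w ξ * (‖P ξ‖ - 1) ^ 2) ≤ η * G
  linarith

end Vale.Agent.P130.Simple
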