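import Mathlib
import Vale.Agent.P110.UF.Defs

/-!
# P130: frozen statements for a transformation with simple Lebesgue spectrum

A finite-measure rank one transformation.  At stage `J` the tower of height `H J` is placed at the
positions `i * B J + (c J + σ J i)`, `i < p J`.  `stageP` is the normalised polynomial of the
positions; the whole construction rests on `StageStmt`: `‖stageP‖` is close to one in the weighted
`L²` sense, for every weight `(z - 1) g` of low degree.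
-/

open Finset MeasureTheory
open scoped ComplexConjugate

namespace Vale.Agent.P130.Simple

open Vale.Agent.P110.UF (ex)

/-- Trigonometric polynomial with coefficients `g 0, ..., g (n - 1)`. -/
noncomputable def tp (g : ℕ → ℂ) (n : ℕ) (ξ : ℝ) : ℂ := ∑ k ∈ range n, g k * ex (k * ξ)

/-- The normalised polynomial of the positions `i * B + σ i`, `i < p`. -/
noncomputable def stageP (p B : ℕ) (σ : ℕ → ℕ) (ξ : ℝ) : ℂ :=
  (((Real.sqrt p)⁻¹ : ℝ) : ℂ) * ∑ i ∈ range p, ex (((i * B + σ i : ℕ) : ℝ) * ξ)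

/-- The weighted defect of flatness. -/
def Flat (P : ℝ → ℂ) (n : ℕ) (η : ℝ) : Prop :=
  ∀ g : ℕ → ℂ, (∫ ξ in (0 : ℝ)..1, ‖(ex ξ - 1) * tp g n ξ‖ ^ 2 * (‖P ξ‖ - 1) ^ 2) ≤
    η * ∑ k ∈ range n, ‖g k‖ ^ 2

/-- Flat stages: jitter `≤ D` in blocks of any length `B`, arbitrarily many blocks. -/
def StageStmt : Prop :=
  ∀ η : ℝ, 0 < η → ∃ D₀ : ℕ, ∀ D B N : ℕ, D₀ ≤ D → ∃ p : ℕ, N ≤ p ∧ 0 < p ∧ ∃ σ : ℕ → ℕ,
    (∀ i, σ i ≤ D) ∧ ∀ n : ℕ, n + D + 2 ≤ B → Flat (stageP p B σ) n η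

/-- The parameters of the rank one construction. -/
structure Chain where
  H : ℕ → ℕ
  p : ℕ → ℕ
  B : ℕ → ℕ
  off : ℕ → ℕ → ℕ
  H_zero : H 0 = 1
  p_pos : ∀ J, 0 < p J
  H_succ : ∀ J, H (J + 1) = p J * B J
  lead : ∀ J i, J + 1 ≤ off J i
  trail : ∀ J i, off J i + H J + (J + 1) ≤ B J
  small : Summable fun J => ((B J : ℝ) - H J) / H J
  flat : ∀ J n, n ≤ H J → Flat (stageP (p J) (B J) (off J)) n ((1 / 4 : ℝ) ^ J)

namespace Chain

variable (C : Chain)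

/-- The position in tower `J + 1` of the bottom of copy `i` of tower `J`. -/
def t (J i : ℕ) : ℕ := i * C.B J + C.off J i

/-- The polynomial of stage `J`. -/
noncomputable def P (J : ℕ) (ξ : ℝ) : ℂ := stageP (C.p J) (C.B J) (C.off J) ξ

end Chain

/-- A flat stage gives parameters. -/
def ChainStmt : Prop := StageStmt → Nonempty Chain

/-- The step function with values `a n` on the sets `S n`, `n < H`. -/
noncomputable def stepFun (S : ℕ → Set ℝ) (H : ℕ) (a : ℕ → ℂ) (x : ℝ) : ℂ :=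
  ∑ n ∈ range H, (S n).indicator (fun _ => a n) x

/-- A measure preserving system realising the towers of a chain. -/
structure System (C : Chain) where
  μ : Measure ℝ
  prob : IsProbabilityMeasure μ
  noAtoms : NoAtoms μ
  T : ℝ ≃ᵐ ℝ
  mp : MeasurePreserving T μ μ
  lev : ℕ → ℕ → Set ℝ
  w : ℕ → ℝ
  w_pos : ∀ J, 0 < w J
  w_succ : ∀ J, w (J + 1) * C.p J = w J
  meas : ∀ J n, MeasurableSet (lev J n)
  mass : ∀ J n, n < C.H J → μ.real (lev J n) = w J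
  disj : ∀ J m n, m < C.H J → n < C.H J → m ≠ n → Disjoint (lev J m) (lev J n)
  shift : ∀ J n, n + 1 < C.H J → (T ⁻¹' lev J (n + 1) : Set ℝ) =ᵐ[μ] lev J n
  split : ∀ J k, k < C.H J →
    lev J k =ᵐ[μ] (⋃ i ∈ Finset.range (C.p J), lev (J + 1) (C.t J i + k))
  dense : ∀ f : ℝ → ℂ, MemLp f 2 μ → ∀ ε : ℝ, 0 < ε → ∃ J, ∃ a : ℕ → ℂ,
    ∫ x, ‖f x - stepFun (lev J) (C.H J) a x‖ ^ 2 ∂μ < ε

/-- Every chain is realised. -/
def SpaceStmt : Prop := ∀ C : Chain, Nonempty (System C)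

/-- `T` has simple Lebesgue spectrum on the orthogonal complement of the constants: the translates
of one mean zero function form a complete orthonormal system there. -/
def SimpleLebesgue (T : ℝ ≃ᵐ ℝ) (μ : Measure ℝ) : Prop :=
  ∃ f : ℝ → ℂ, MemLp f 2 μ ∧ ∫ x, f x ∂μ = 0 ∧
    (∀ n m : ℤ, ∫ x, conj (f ((T.toEquiv ^ n) x)) * f ((T.toEquiv ^ m) x) ∂μ =
      if n = m then 1 else 0) ∧
    ∀ g : ℝ → ℂ, MemLp g 2 μ → ∫ x, g x ∂μ = 0 →
      (∀ n : ℤ, ∫ x, conj (f ((T.toEquiv ^ n) x)) * g x ∂μ = 0) → g =ᵐ[μ] 0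

/-- The spectral theorem for flat chains. -/
def SpectralStmt : Prop := ∀ (C : Chain) (Y : System C), SimpleLebesgue Y.T Y.μ

/-- The answer to Banach's problem. -/
def BanachStmt : Prop :=
  ∃ (μ : Measure ℝ) (T : ℝ ≃ᵐ ℝ), IsProbabilityMeasure μ ∧ NoAtoms μ ∧
    MeasurePreserving T μ μ ∧ SimpleLebesgue T μ

theorem banach_of (hS : StageStmt) (hC : ChainStmt) (hY : SpaceStmt) (hP : SpectralStmt) :
    BanachStmt := by
  obtain ⟨C⟩ := hC hS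
  obtain ⟨Y⟩ := hY C
  exact ⟨Y.μ, Y.T, Y.prob, Y.noAtoms, Y.mp, hP C Y⟩

/-! ### The pieces of the stage -/

/-- The character `θ ↦ e (m · θ)` of the torus. -/
noncomputable def chr {d : ℕ} (m : Fin d → ℤ) (θ : Fin d → ℝ) : ℂ :=
  ex (∑ i, (m i : ℝ) * θ i)

/-- The unit cube. -/
def cube (d : ℕ) : Set (Fin d → ℝ) := Set.univ.pi fun _ => Set.Ico (0 : ℝ) 1

/-- The Dirichlet mean of `q` exponentials. -/
noncomputable def dir (q : ℕ) (ξ : ℝ) : ℂ := ((q : ℂ))⁻¹ * ∑ r ∈ range q, ex (r * ξ)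

/-- The mean of the pattern of modulus `q`. -/
noncomputable def mean (q r : ℕ) : ℂ :=
  if r < q then ((q : ℂ) - 1) / (q : ℂ) ^ 2 else if r = q then 1 / (q : ℂ) else 0

/-- The coefficient vector of a character that distinguishes the position `r₀`. -/
noncomputable def avec (q r₀ r : ℕ) : ℂ :=
  (if r = r₀ then 1 else 0) - if r < q then (q : ℂ)⁻¹ else 0

/-- A one-hot pattern on `0, ..., q` whose Fourier coefficient vectors are multiples of `avec`. -/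
structure Pattern (q : ℕ) (η : ℝ) where
  d : ℕ
  S : Finset (Fin d → ℤ)
  c : (Fin d → ℤ) → ℂ
  pick : (Fin d → ℤ) → ℕ
  sym : (Fin d → ℝ) → ℕ
  prim : ∀ m ∈ S, Finset.univ.gcd m = 1
  neg_mem : ∀ m ∈ S, -m ∈ S
  conj_c : ∀ m ∈ S, c (-m) = conj (c m)
  c_ne : ∀ m ∈ S, c m ≠ 0
  pick_le : ∀ m ∈ S, pick m ≤ q
  energy_le : ∑ m ∈ S, ‖c m‖ ^ 2 ≤ 1
  le_energy : 1 - η ≤ ∑ m ∈ S, ‖c m‖ ^ 2
  sym_le : ∀ θ, sym θ ≤ q
  sym_meas : Measurable sym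
  close : ∀ (θ : Fin d → ℝ) (ξ : ℝ),
    ∫ φ in cube d, ‖∑ r ∈ range (q + 1),
        ((if sym (θ + φ) = r then 1 else 0) - mean q r -
          ∑ m ∈ S, c m * avec q (pick m) r * chr m (θ + φ)) * ex (r * ξ)‖ ^ 2 ≤ η

/-- Patterns exist for large primes. -/
def PatternStmt : Prop :=
  ∀ η : ℝ, 0 < η → ∃ q₀ : ℕ, ∀ q : ℕ, q.Prime → q₀ ≤ q → Nonempty (Pattern q η)

/-- The lower end of the interval between `α` and `α + β`. -/
noncomputable def ilo (α β : ℝ) : ℝ := min α (α + β)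

/-- The upper end of the interval between `α` and `α + β`. -/
noncomputable def ihi (α β : ℝ) : ℝ := max α (α + β)

/-- The chirp of length `T` sweeping the frequencies from `α` to `α + β`. -/
noncomputable def chirpSum (α β : ℝ) (T : ℕ) (v : ℝ) : ℂ :=
  ∑ k ∈ range T, ex (α * k + β * ((k : ℝ) ^ 2 / (2 * T)) - k * v)

/-- The target modulus of a chirp. -/
noncomputable def boxFun (α β v : ℝ) : ℝ :=
  (Set.Ioo (ilo α β) (ihi α β)).indicator (fun _ => (Real.sqrt |β|)⁻¹) v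

/-- Chirps become flat on their interval in mean square. -/
def ChirpStmt : Prop :=
  ∀ α β : ℝ, β ≠ 0 → |β| ≤ 1 / 2 → 0 ≤ ilo α β → ihi α β ≤ 1 →
    Filter.Tendsto (fun T : ℕ => ∫ v in (0 : ℝ)..1,
        ((Real.sqrt T)⁻¹ * ‖chirpSum α β T v‖ - boxFun α β v) ^ 2)
      Filter.atTop (nhds 0)

/-- Windows with quadratic torus trajectories whose chirps tile the circle. -/
structure Packing {d : ℕ} (S : Finset (Fin d → ℤ)) (c : (Fin d → ℤ) → ℂ) (η : ℝ) where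
  W : ℕ
  I : ℕ
  W_pos : 0 < W
  W_big : 1 / η ≤ W
  J₀ : ℝ
  J₀_ge : (W : ℝ) ≤ J₀
  J₀_le : J₀ ≤ (1 + η) * W
  win : Fin I → Fin W
  vec : Fin I → Fin d → ℤ
  vec_mem : ∀ i, vec i ∈ S
  al : Fin I → ℝ
  be : Fin I → ℝ
  cf : Fin I → ℂ
  θ : Fin W → ℕ → ℝ → Fin d → ℝ
  sc : Fin W → (Fin d → ℤ) → ℝ
  sc_near : ∀ j, ∀ m ∈ S, |sc j m - 1| ≤ η
  decomp : ∀ (j : Fin W) (k : ℕ) (u : ℝ), ∀ m ∈ S,
    ((sc j m : ℝ) : ℂ) * c m * chr m (θ j k u) =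
      ∑ i ∈ univ.filter (fun i => win i = j ∧ vec i = m), cf i * ex (al i * k + be i * u)
  be_ne : ∀ i, be i ≠ 0
  be_small : ∀ i, |be i| ≤ 1 / 2
  lo : ∀ i, 0 ≤ ilo (al i) (be i)
  hi : ∀ i, ihi (al i) (be i) ≤ 1
  weight : ∀ i, ‖cf i‖ ^ 2 = |be i| * J₀
  disjoint : ∀ i i', i ≠ i' →
    ihi (al i) (be i) ≤ ilo (al i') (be i') ∨ ihi (al i') (be i') ≤ ilo (al i) (be i)
  cover : (1 - η) * ∑ m ∈ S, ‖c m‖ ^ 2 ≤ ∑ i, |be i|

/-- Packings exist. -/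
def PackingStmt : Prop :=
  ∀ (d : ℕ) (S : Finset (Fin d → ℤ)) (c : (Fin d → ℤ) → ℂ),
    (∀ m ∈ S, Finset.univ.gcd m = 1) → (∀ m ∈ S, -m ∈ S) →
    (∀ m ∈ S, c (-m) = conj (c m)) → (∀ m ∈ S, c m ≠ 0) → S.Nonempty →
    ∑ m ∈ S, ‖c m‖ ^ 2 ≤ 1 → ∀ η : ℝ, 0 < η → Nonempty (Packing S c η)

/-- A random translate per window keeps the averaged quadratic form below its mean. -/
def AverageStmt : Prop :=
  ∀ (W d n : ℕ) (M : Fin W → (Fin d → ℝ) → Fin n → Fin n → ℂ) (K η : ℝ), 0 < W →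
    (∀ j r r', Measurable fun φ => M j φ r r') → (∀ j φ r r', ‖M j φ r r'‖ ≤ K) →
    (∀ j ξ, (∑ r, ∑ r', (∫ φ in cube d, M j φ r r') *
        ex (((r : ℕ) : ℝ) * ξ - ((r' : ℕ) : ℝ) * ξ)).re ≤ η) →
    ∃ φ : Fin W → Fin d → ℝ, ∀ ξ : ℝ,
      (∑ j, (∑ r, ∑ r', M j (φ j) r r' *
        ex (((r : ℕ) : ℝ) * ξ - ((r' : ℕ) : ℝ) * ξ)).re) / W ≤
        η + (n : ℝ) ^ 2 * K / Real.sqrt W

/-- Two facts on weights of degree less than a block. -/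
def WeightStmt : Prop :=
  (∀ (B D n p : ℕ) (g : ℕ → ℂ) (e : ℕ → ℕ → ℂ), n + D ≤ B →
    ∫ ξ in (0 : ℝ)..1, ‖tp g n ξ‖ ^ 2 *
        ‖∑ b ∈ range p, tp (e b) (D + 1) ξ * ex (((b * B : ℕ) : ℝ) * ξ)‖ ^ 2 =
      ∫ ξ in (0 : ℝ)..1, ‖tp g n ξ‖ ^ 2 * ∑ b ∈ range p, ‖tp (e b) (D + 1) ξ‖ ^ 2) ∧
  ∀ (B n : ℕ) (g : ℕ → ℂ) (f : ℝ → ℝ), n ≤ B → Function.Periodic f 1 →
    IntervalIntegrable f volume 0 1 →
    ∫ ξ in (0 : ℝ)..1, ‖tp g n ξ‖ ^ 2 * f (B * ξ) =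
      (∫ v in (0 : ℝ)..1, f v) * ∑ k ∈ range n, ‖g k‖ ^ 2

/-- The pieces give flat stages. -/
def CombineStmt : Prop :=
  PatternStmt → ChirpStmt → PackingStmt → AverageStmt → WeightStmt → StageStmt

end Vale.Agent.P130.Simple
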