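import Vale.Agent.P110.UF.Pack.Main
import Vale.Agent.P130.Simple.Defs

/-!
# P130: packings exist

An adapter over the packing of P110: the items are all teeth of all pieces on the whole circle.
-/

open Finset
open scoped Classical ComplexConjugate

namespace Vale.Agent.P130.Simple

open Vale.Agent.P110.UF (ex)
open Vale.Agent.P110.UF.Pack

variable (K : Cfg)

/-- All intervals of all pieces. -/
abbrev PackItem := Σ j : K.Piece, {p // p ∈ K.items j}

/-- The start of an interval. -/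
noncomputable def itemAl (s : PackItem K) : ℝ := ((s.2.1.2 + K.sh s.2.1.1 : ℕ) : ℝ) / K.L

/-- The signed length of an interval. -/
noncomputable def itemBe (s : PackItem K) : ℝ := (dot K.V.v s.2.1.1.1 : ℝ) / K.L

lemma item_ends (s : PackItem K) :
    ilo (itemAl K s) (itemBe K s) = (s.2.1.2 : ℝ) / K.L ∧
      ihi (itemAl K s) (itemBe K s) = ((s.2.1.2 : ℝ) + K.n s.2.1.1) / K.L := by
  have hL : (0 : ℝ) < K.L := Nat.cast_pos.2 K.L_pos
  have hsum : itemAl K s + itemBe K s =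
      (((s.2.1.2 + K.sh s.2.1.1 : ℕ) : ℝ) + (dot K.V.v s.2.1.1.1 : ℝ)) / K.L := (add_div _ _ _).symm
  have hn : (0 : ℝ) ≤ (swp K.V.v s.2.1.1.1 : ℝ) := Nat.cast_nonneg _
  rw [ilo, ihi, hsum, dot_eq_sign]
  by_cases h : dot K.V.v s.2.1.1.1 < 0
  · have e : K.sh s.2.1.1 = K.n s.2.1.1 := by simp [Cfg.sh, shiftOf, h, Cfg.n]
    simp only [itemAl, if_pos h, e, Cfg.n]
    push_cast
    constructor
    · rw [add_neg_cancel_right, min_eq_right (div_le_div_of_nonneg_right (by linarith) hL.le)]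
    · rw [add_neg_cancel_right, max_eq_left (div_le_div_of_nonneg_right (by linarith) hL.le)]
  · have e : K.sh s.2.1.1 = 0 := by simp [Cfg.sh, shiftOf, h]
    simp only [itemAl, if_neg h, e, Cfg.n]
    push_cast
    constructor
    · rw [min_eq_left (by gcongr; linarith), add_zero]
    · rw [max_eq_right (by gcongr; linarith), add_zero]

lemma abs_itemBe (s : PackItem K) : |itemBe K s| = (K.n s.2.1.1 : ℝ) / K.L := by
  rw [itemBe, abs_div, Nat.abs_cast]
  simp only [Cfg.n, swp, Nat.cast_natAbs, Int.cast_abs]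

lemma sum_abs_itemBe :
    ∑ s : PackItem K, |itemBe K s| =
      ∑ j : K.Piece, (∑ m : K.Vec, K.lam j m * ‖K.c m.1‖ ^ 2) / K.J0 := by
  rw [Fintype.sum_sigma]
  refine sum_congr rfl fun j _ => ?_
  simp only [abs_itemBe]
  rw [sum_coe_sort (K.items j) fun p => (K.n p.1 : ℝ) / K.L, K.sum_items j, sum_div]
  refine sum_congr rfl fun m _ => ?_
  simp only [sum_const, K.card_comb, nsmul_eq_mul]
  have hL : (K.L : ℝ) ≠ 0 := Nat.cast_ne_zero.2 K.L_pos.ne'
  have hJ : (K.J0 : ℝ) ≠ 0 := Nat.cast_ne_zero.2 K.J0_pos.ne'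
  have e : (K.L : ℝ) = K.O j m * K.teeth j m := by exact_mod_cast K.L_eq j m
  rw [← mul_div_assoc, div_eq_div_iff hL hJ, e]
  linear_combination -(K.teeth j m : ℝ) * K.lam_identity j m

/-- A configuration gives a packing of its coefficients. -/
theorem packing_of (η g : ℝ) (hη : 0 < η) (hprim : ∀ m ∈ K.S, Finset.univ.gcd m = 1)
    (hg : g * (K.R ^ K.d : ℕ) ≤ (Nat.card {w // Good K.B K.H K.S K.V.v w} : ℝ))
    (hg2 : 1 / 2 ≤ g) (hκ : 3 * K.κ ≤ η) (hcov : 1 - η ≤ g * (1 - K.κ * 3))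
    (hgood : 1 ≤ (1 + η) * g) (hbig : 1 / η ≤ g * K.J0) :
    Nonempty (Packing K.S K.c η) := by
  have hfib : ∀ (m : K.Vec) (p : ℕ), (K.fib m p).card ≤ K.K1 := fun m p =>
    K.fib_card m p fun x => fibre_card m.1 (hprim _ m.2) x
  have hL : (0 : ℝ) < K.L := Nat.cast_pos.2 K.L_pos
  have hJ : (0 : ℝ) < K.J0 := Nat.cast_pos.2 K.J0_pos
  set W := Fintype.card K.Piece with hW
  have hWg : g * K.J0 ≤ (W : ℝ) := by
    rw [hW, K.piece_card, Cfg.J0]
    push_cast at hg ⊢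
    calc g * ((K.P.mu : ℝ) * ((2 : ℝ) * K.H * K.B) ^ K.d)
        = (K.P.mu : ℝ) * (g * ((2 : ℝ) * K.H * K.B) ^ K.d) := by ring
      _ ≤ (K.P.mu : ℝ) * (Nat.card {w // Good K.B K.H K.S K.V.v w} : ℝ) :=
          mul_le_mul_of_nonneg_left hg (Nat.cast_nonneg _)
  have hW0 : 0 < W := Nat.cast_pos.1 (lt_of_lt_of_le (mul_pos (by linarith) hJ) hWg)
  have hWJ : (W : ℝ) ≤ K.J0 := by
    have h : W ≤ K.J0 := by
      refine (Fintype.card_subtype_le _).trans (le_of_eq ?_)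
      rw [Fintype.card_prod, Fintype.card_fun, ZMod.card, Fintype.card_fin, Fintype.card_fin,
        Cfg.J0, mul_comm]
    exact_mod_cast h
  let eW := Fintype.equivFin K.Piece
  let eI := Fintype.equivFin (PackItem K)
  refine ⟨{
    W := W, I := Fintype.card (PackItem K), W_pos := hW0
    W_big := le_trans hbig hWg
    J₀ := (K.J0 : ℝ), J₀_ge := hWJ, J₀_le := ?_
    win := fun i => eW (eI.symm i).1
    vec := fun i => (eI.symm i).2.1.1.1
    vec_mem := fun i => (eI.symm i).2.1.1.2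
    al := fun i => itemAl K (eI.symm i)
    be := fun i => itemBe K (eI.symm i)
    cf := fun i => K.cf (eI.symm i).1 (eI.symm i).2.1
    θ := fun j k u => K.theta (eW.symm j) (k : ℤ) u
    sc := fun j m => if h : m ∈ K.S then Real.sqrt (K.lam (eW.symm j) ⟨m, h⟩) else 1
    sc_near := ?_, decomp := ?_, be_ne := ?_, be_small := ?_, lo := ?_, hi := ?_, weight := ?_
    disjoint := ?_, cover := ?_ }⟩
  · nlinarith
  · intro j m hm
    rw [dif_pos hm]
    obtain ⟨h1, h2⟩ := K.lam_bounds (eW.symm j) ⟨m, hm⟩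
    have hl : 0 ≤ K.lam (eW.symm j) ⟨m, hm⟩ := by linarith [K.ksmall]
    have hsq := Real.sq_sqrt hl
    have := Real.sqrt_nonneg (K.lam (eW.symm j) ⟨m, hm⟩)
    have := K.kpos
    rw [abs_le]
    constructor <;> nlinarith
  · intro j k u m hm
    rw [dif_pos hm, chr, ← K.sum_comb (eW.symm j) ⟨m, hm⟩ (k : ℤ) u, sum_filter,
      eI.symm.sum_comp (fun s : PackItem K => if eW s.1 = j ∧ s.2.1.1.1 = m then
        K.cf s.1 s.2.1 * ex (itemAl K s * k + itemBe K s * u) else 0), Fintype.sum_sigma,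
      Finset.sum_eq_single (eW.symm j) (fun j' _ hne => sum_eq_zero fun p _ =>
        if_neg fun h => hne (eW.eq_symm_apply.2 h.1)) (fun h => absurd (mem_univ _) h)]
    simp only [itemAl, itemBe]
    rw [sum_coe_sort (K.items (eW.symm j)) fun p => if eW (eW.symm j) = j ∧ p.1.1 = m then
      K.cf (eW.symm j) p * ex (((p.2 + K.sh p.1 : ℕ) : ℝ) / K.L * k +
        (dot K.V.v p.1.1 : ℝ) / K.L * u) else 0, K.sum_items (eW.symm j),
      Finset.sum_eq_single (⟨m, hm⟩ : K.Vec) (fun m' _ hne => sum_eq_zero fun x _ =>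
        if_neg fun h => hne (Subtype.ext h.2)) (fun h => absurd (mem_univ _) h)]
    refine sum_congr rfl fun x _ => ?_
    rw [if_pos ⟨eW.apply_symm_apply j, rfl⟩, Cfg.term, Int.cast_natCast]
    congr 2
    ring
  · intro i
    exact div_ne_zero (Int.cast_ne_zero.2 (K.V.v_ne _ (eI.symm i).2.1.1.2)) hL.ne'
  · intro i
    set s := eI.symm i
    rw [abs_itemBe, div_le_iff₀ hL]
    have h1 : 2 * K.n s.2.1.1 ≤ K.L := by
      have hb : K.n s.2.1.1 ≤ K.B := le_trans (Nat.le_add_left _ _) (K.bp_fit s.1 s.2.1.1)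
      refine le_trans (Nat.mul_le_mul_left 2 hb) (le_trans ?_ (Nat.le_mul_of_pos_right _
        (prod_pos fun q _ => K.md_pos q)))
      exact Nat.mul_le_mul_right _ (Nat.le_mul_of_pos_right _ K.H_pos)
    have h2 : (2 : ℝ) * K.n s.2.1.1 ≤ K.L := by exact_mod_cast h1
    linarith
  · intro i
    rw [(item_ends K _).1]
    positivity
  · intro i
    set s := eI.symm i
    rw [(item_ends K _).2, div_le_one hL]
    exact_mod_cast K.comb_end ((K.mem_items).1 s.2.2)
  · intro i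
    rw [K.norm_cf (eI.symm i).2.2, abs_itemBe]
    ring
  · intro i i' hne
    set s := eI.symm i with hs
    set s' := eI.symm i' with hs'
    rw [(item_ends K s).1, (item_ends K s).2, (item_ends K s').1, (item_ends K s').2]
    by_contra hcon
    rw [not_or, not_le, not_le, div_lt_div_iff_of_pos_right hL,
      div_lt_div_iff_of_pos_right hL] at hcon
    have h1 : s'.2.1.2 < s.2.1.2 + K.n s.2.1.1 := by exact_mod_cast hcon.1
    have h2 : s.2.1.2 < s'.2.1.2 + K.n s'.2.1.1 := by exact_mod_cast hcon.2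
    have hn := K.n_pos s.2.1.1
    have hn' := K.n_pos s'.2.1.1
    obtain ⟨hj, hp⟩ := K.disjoint_half hfib s.2.2 s'.2.2 (a := max s.2.1.2 s'.2.1.2)
      (le_max_left _ _) (by omega) (le_max_right _ _) (by omega)
    refine hne (eI.symm.injective ?_)
    show s = s'
    obtain ⟨j, p, hp0⟩ := s
    obtain ⟨j', p', hp0'⟩ := s'
    obtain rfl := hj
    obtain rfl := hp
    rfl
  · rw [eI.symm.sum_comp (fun s : PackItem K => |itemBe K s|), sum_abs_itemBe]
    set E := ∑ m ∈ K.S, ‖K.c m‖ ^ 2 with hE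
    have hE0 : 0 ≤ E := sum_nonneg fun m _ => sq_nonneg _
    have hk : 0 ≤ 1 - K.κ * 3 := by linarith [K.ksmall]
    have h1 : ∀ j : K.Piece, (1 - K.κ * 3) * E / K.J0 ≤
        (∑ m : K.Vec, K.lam j m * ‖K.c m.1‖ ^ 2) / K.J0 := fun j => by
      refine div_le_div_of_nonneg_right ?_ hJ.le
      rw [hE, mul_sum, ← sum_coe_sort K.S (fun m => (1 - K.κ * 3) * ‖K.c m‖ ^ 2)]
      exact sum_le_sum fun m _ =>
        mul_le_mul_of_nonneg_right (K.lam_bounds j m).1 (sq_nonneg _)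
    refine le_trans ?_ (card_nsmul_le_sum univ _ _ fun j _ => h1 j)
    rw [card_univ, nsmul_eq_mul, ← hW, ← mul_div_assoc, le_div_iff₀ hJ]
    calc (1 - η) * E * K.J0 ≤ g * (1 - K.κ * 3) * E * K.J0 := by gcongr
      _ = g * K.J0 * ((1 - K.κ * 3) * E) := by ring
      _ ≤ (W : ℝ) * ((1 - K.κ * 3) * E) := mul_le_mul_of_nonneg_right hWg (mul_nonneg hk hE0)

/-- Packings exist. -/
theorem packing_stmt : PackingStmt := by
  intro d S c hprim hneg hconj hcne hne hE η hη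
  have hd : 0 < d := by
    obtain ⟨m, hm⟩ := hne
    rcases Nat.eq_zero_or_pos d with rfl | h
    · exact absurd (funext fun i => i.elim0) (ne_zero_of_gcd (hprim m hm))
    · exact h
  obtain ⟨V⟩ := vectors_exist S hprim
  have : Nonempty {m // m ∈ S} := hne.to_subtype
  obtain ⟨m₀, hm₀⟩ := hne
  have hc0 : 0 < ‖c m₀‖ ^ 2 := pow_pos (norm_pos_iff.2 (hcne _ hm₀)) 2
  set η' : ℝ := min η 1 with hη'
  have hη0 : 0 < η' := lt_min hη one_pos
  set κ : ℝ := η' * ‖c m₀‖ ^ 2 / 6 with hκ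
  have hκ0 : 0 < κ := by positivity
  have hc1' : ‖c m₀‖ ^ 2 ≤ 1 :=
    (single_le_sum (f := fun m => ‖c m‖ ^ 2) (fun i _ => sq_nonneg _) hm₀).trans hE
  have hκη : 6 * κ ≤ η' := by rw [hκ]; nlinarith
  have hηη : η' ≤ η := min_le_left _ _
  have hη1 : η' ≤ 1 := min_le_right _ _
  set N1 : ℕ := ∑ m ∈ S, swp V.v m with hN1
  set Dm : ℕ := 2 * ∑ m ∈ S, ∑ i, (m i).natAbs with hDm
  obtain ⟨B, hBk⟩ := exists_nat_ge ((N1 : ℝ) / κ + 1)
  obtain ⟨H, hHk⟩ := exists_nat_ge (((S.card * S.card * Dm : ℕ) : ℝ) / κ + 1)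
  have hB1 : (1 : ℝ) ≤ B := le_trans (le_add_of_nonneg_left (by positivity)) hBk
  have hH1 : (1 : ℝ) ≤ H := le_trans (le_add_of_nonneg_left (by positivity)) hHk
  have hB0 : 0 < B := by exact_mod_cast hB1
  have hH0 : 0 < H := by exact_mod_cast hH1
  have hNB : (N1 : ℝ) / B ≤ κ := by
    rw [div_le_iff₀ (by positivity), ← div_le_iff₀' hκ0]
    linarith
  have hSH : ((S.card * S.card * Dm : ℕ) : ℝ) / H ≤ κ := by
    rw [div_le_iff₀ (by positivity), ← div_le_iff₀' hκ0]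
    linarith
  let D : ℕ := (∏ m ∈ S, (dot V.v m).natAbs) *
    ∏ m ∈ S, ∏ m' ∈ S, (if dot (V.perp m) m' = 0 then 1 else (dot (V.perp m) m').natAbs)
  have hD : 0 < D := by
    refine Nat.mul_pos (prod_pos fun m hm => Int.natAbs_pos.2 (V.v_ne m hm))
      (prod_pos fun m _ => prod_pos fun m' _ => ?_)
    split_ifs with h
    · exact Nat.one_pos
    · exact Int.natAbs_pos.2 h
  have hc1 : ∀ m : {m // m ∈ S}, ‖c m.1‖ ^ 2 ≤ 1 := fun m =>
    (single_le_sum (f := fun m => ‖c m‖ ^ 2) (fun i _ => sq_nonneg _) m.2).trans hE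
  obtain ⟨P⟩ := params_exist (fun m : {m // m ∈ S} => swp V.v m)
    (fun m : {m // m ∈ S} => ‖c m‖ ^ 2) κ d D B H (fun m => swp_pos (V.v_ne _ m.2))
    (fun m => pow_pos (norm_pos_iff.2 (hcne _ m.2)) 2) hc1 hκ0 (by linarith) hB0 hH0 hD
  let K : Cfg :=
    { d := d, S := S, c := c, V := V, B := B, H := H, κ := κ, D := D, d_pos := hd, B_pos := hB0,
      H_pos := hH0, nz := fun m hm => ne_zero_of_gcd (hprim m hm), neg_mem := hneg,
      conj_c := hconj, c_ne := hcne, energy := hE,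
      kpos := hκ0, ksmall := by linarith,
      dvd_v := fun m hm => dvd_mul_of_dvd_left (dvd_prod_of_mem (fun m => (dot V.v m).natAbs) hm) _
      dvd_perp := fun m hm m' hm' h1 h2 => by
        have h0 := V.perp_ne m hm m' hm' h1 h2
        refine dvd_mul_of_dvd_right (dvd_trans ?_ (dvd_prod_of_mem _ hm)) _
        refine dvd_trans ?_ (dvd_prod_of_mem _ hm')
        rw [if_neg h0]
      P := P }
  have : NeZero (2 * H * B) := ⟨K.R_pos.ne'⟩
  have hcount := good_card hB0 hH0 S hprim V.v Dm fun m hm i => by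
    refine Nat.mul_le_mul_left 2 ?_
    exact le_trans (single_le_sum (f := fun i => (m i).natAbs) (fun _ _ => Nat.zero_le _)
      (mem_univ i)) (single_le_sum (f := fun m : Fin d → ℤ => ∑ i, (m i).natAbs)
        (fun _ _ => Nat.zero_le _) hm)
  -- the multiplicity is large
  have hJ : ‖c m₀‖ ^ 2 / (2 * κ) ≤ (K.J0 : ℝ) := by
    set t : Fin H := ⟨0, hH0⟩
    set M : {m // m ∈ S} := ⟨m₀, hm₀⟩
    set n : ℝ := (swp V.v m₀ : ℝ)
    set p : ℝ := (P.md (Sum.inl t) : ℝ)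
    set q : ℝ := (P.md (Sum.inr (t, M)) : ℝ)
    have hn : 0 < n := Nat.cast_pos.2 (swp_pos (V.v_ne _ hm₀))
    have hq : 1 ≤ q := Nat.one_le_cast.2 (P.md_odd _).pos
    have hK1 : (1 - κ * 3) * (‖c m₀‖ ^ 2 * p * q) ≤ n * (K.K1 : ℝ) := (P.ratio t M).1
    have hp : n ≤ κ * p := le_trans
      (Nat.cast_le.2 (single_le_sum (f := fun m : {m // m ∈ S} => swp V.v m)
        (fun _ _ => Nat.zero_le _) (mem_univ M))) (P.room t)
    have h2 : (1 / 2) * ‖c m₀‖ ^ 2 * n ≤ κ * (n * (K.K1 : ℝ)) := by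
      refine le_trans ?_ (mul_le_mul_of_nonneg_left hK1 hκ0.le)
      calc (1 / 2) * ‖c m₀‖ ^ 2 * n ≤ (1 - κ * 3) * ‖c m₀‖ ^ 2 * (κ * p) := by
            apply mul_le_mul _ hp hn.le <;> nlinarith
        _ = κ * ((1 - κ * 3) * (‖c m₀‖ ^ 2 * p * 1)) := by ring
        _ ≤ κ * ((1 - κ * 3) * (‖c m₀‖ ^ 2 * p * q)) := by
            have : 0 ≤ 1 - κ * 3 := by linarith
            have : 0 ≤ p := Nat.cast_nonneg _
            gcongr
    have h3 : (1 / 2) * ‖c m₀‖ ^ 2 ≤ κ * (K.K1 : ℝ) := le_of_mul_le_mul_right (by linarith) hn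
    have h4 : (K.K1 : ℝ) ≤ K.J0 := by
      rw [K.J0_eq]; exact_mod_cast Nat.le_mul_of_pos_right _ K.R_pos
    rw [div_le_iff₀ (by positivity)]
    nlinarith
  refine packing_of K η (1 - 2 * κ) hη hprim (le_trans ?_ hcount) (by linarith) ?_ ?_ ?_ ?_
  · refine mul_le_mul_of_nonneg_right ?_ (Nat.cast_nonneg _)
    linarith
  · show 3 * κ ≤ η
    linarith
  · show 1 - η ≤ (1 - 2 * κ) * (1 - κ * 3)
    nlinarith
  · nlinarith
  · show 1 / η ≤ (1 - 2 * κ) * (K.J0 : ℝ)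
    have h1 : 1 / η ≤ 3 / η' * (1 / 2) := by
      rw [div_mul_div_comm, div_le_div_iff₀ hη (by positivity)]
      linarith
    refine h1.trans ?_
    have h2 : ‖c m₀‖ ^ 2 / (2 * κ) = 3 / η' := by
      rw [div_eq_div_iff (by positivity) hη0.ne', hκ]; ring
    rw [← h2, mul_comm]
    exact mul_le_mul (by linarith) hJ (by positivity) (by linarith)

end Vale.Agent.P130.Simple
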