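import Vale.Agent.P130.Simple.Pattern.Torus

/-!
# P130: one-hot patterns with nearly rank one Fourier coefficient vectors
-/

open Finset MeasureTheory
open scoped ComplexConjugate

namespace Vale.Agent.P130.Simple

open Vale.Agent.P110.UF (ex)

namespace Pat

variable {q : ℕ} [Fact q.Prime]

lemma exists_dim {δ : ℝ} (hδ : 0 < δ) :
    ∃ n : ℕ, ∀ r : ℤ, (r : ZMod q) ≠ 0 → -(q : ℤ) < r → r < q →
      (1 - wt q r) ^ (n + 1) ≤ δ := by
  have h : ∀ r : ℤ, ∀ᶠ n : ℕ in Filter.atTop, (r : ZMod q) ≠ 0 → (1 - wt q r) ^ (n + 1) ≤ δ := by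
    intro r
    by_cases hr : (r : ZMod q) = 0
    · exact Filter.Eventually.of_forall fun _ h => absurd hr h
    have h1 : wt q r ≤ 1 := by
      have := sum_wt_le (r : ZMod q) {r} (fun l hl => by rw [mem_singleton.1 hl])
      simpa using this
    have h0 : 0 < wt q r := by
      have := sc_ne_zero (NeZero.ne q) (l := r) fun h =>
        hr ((ZMod.intCast_zmod_eq_zero_iff_dvd _ _).2 h)
      rw [wt]; positivity
    have hlim := (tendsto_pow_atTop_nhds_zero_of_lt_one (r := 1 - wt q r) (by linarith)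
      (by linarith)).comp (Filter.tendsto_add_atTop_nat 1)
    filter_upwards [hlim.eventually (Iio_mem_nhds hδ)] with n hn _ using le_of_lt hn
  obtain ⟨n, hn⟩ := ((Filter.eventually_all_finset (Icc (-(q : ℤ)) q)).2 fun r _ => h r).exists
  exact ⟨n, fun r h1 h2 h3 => hn r (mem_Icc.2 ⟨h2.le, h3.le⟩) h1⟩

lemma exists_box {ε : ℝ} (hε : 0 < ε) :
    ∃ K : ℕ, ∀ a : ZMod q, 1 - ε ≤ ∑ l ∈ cset K a, wt q l := by
  have h : ∀ a : ZMod q, ∀ᶠ K : ℕ in Filter.atTop, 1 - ε ≤ ∑ l ∈ cset K a, wt q l := by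
    intro a
    obtain ⟨T, hT⟩ := Filter.eventually_atTop.1
      ((hasSum_wt a).eventually (Ici_mem_nhds (show 1 - ε < 1 by linarith)))
    refine Filter.eventually_atTop.2 ⟨T.sup Int.natAbs, fun K hK => ?_⟩
    have hsub : T ⊆ Icc (-(K : ℤ)) K := fun l hl => by
      have := (Finset.le_sup (f := Int.natAbs) hl).trans hK
      rw [mem_Icc]
      omega
    have := hT _ hsub
    rw [cset, sum_filter]
    exact this
  exact (Filter.eventually_all.2 h).exists

variable {n : ℕ}

/-- The coefficient of the pattern. -/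
noncomputable def patC (q : ℕ) (M : Fin (n + 2) → ℤ) : ℂ := (q : ℂ)⁻¹ * coef q M

/-- The support of the pattern. -/
noncomputable def patS (q : ℕ) [Fact q.Prime] (K n : ℕ) : Finset (Fin (n + 2) → ℤ) :=
  by classical exact ((univ : Finset (ZMod q × ZMod q)).erase 0).biUnion (Sm K n)

lemma mem_patS {K : ℕ} {M : Fin (n + 2) → ℤ} :
    M ∈ patS q K n ↔ ∃ m : ZMod q × ZMod q, M ∈ Sm K n m := by
  classical
  simp only [patS, mem_biUnion, mem_erase, mem_univ, and_true]
  refine ⟨fun ⟨m, _, h⟩ => ⟨m, h⟩, fun ⟨m, h⟩ => ⟨m, fun e => ?_, h⟩⟩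
  rw [e, Sm_zero] at h
  exact notMem_empty _ h

lemma sum_patS {β : Type*} [AddCommMonoid β] (K : ℕ) (f : (Fin (n + 2) → ℤ) → β) :
    ∑ M ∈ patS q K n, f M =
      ∑ m ∈ (univ : Finset (ZMod q × ZMod q)).erase 0, ∑ M ∈ Sm K n m, f M := by
  classical
  rw [patS, sum_biUnion]
  intro m _ m' _ hne
  exact disjoint_left.2 fun M h h' => hne (by rw [← cls_eq_of_mem h, ← cls_eq_of_mem h'])

lemma error_eq (K : ℕ) (x : Fin (n + 2) → ℝ) {r : ℕ} (hr : r ≤ q) :
    (if slope (point q x) = r then (1 : ℂ) else 0) - mean q r -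
        ∑ M ∈ patS q K n, patC q M * avec q (pickZ (cls (q := q) M)) r * chr M x =
      ∑ m ∈ (univ : Finset (ZMod q × ZMod q)).erase 0,
        (q : ℂ)⁻¹ * avec q (pickZ m) r * rem K m x := by
  rw [spread _ hr, sum_patS, ← sum_sub_distrib]
  refine sum_congr rfl fun m _ => ?_
  rw [rem, trunc, lift_eq, mul_sub, mul_sum]
  congr 1
  refine sum_congr rfl fun M hM => ?_
  rw [cls_eq_of_mem hM, patC]
  ring

lemma card_fst_zero : ((univ : Finset (ZMod q × ZMod q)).filter fun m => m.1 = 0).card = q := by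
  have : ((univ : Finset (ZMod q × ZMod q)).filter fun m => m.1 = 0) =
      ({0} : Finset (ZMod q)) ×ˢ (univ : Finset (ZMod q)) := by
    ext ⟨a, b⟩; simp [eq_comm]
  rw [this, card_product, card_singleton, one_mul, card_univ, ZMod.card]

/-- The total lost energy. -/
lemma sum_defect_le (K : ℕ) {δ : ℝ} (hδ : 0 ≤ δ)
    (hmass : ∀ m : ZMod q × ZMod q, m.1 ≠ 0 → 1 - δ ≤ mass K n m) :
    ∑ m ∈ (univ : Finset (ZMod q × ZMod q)).erase 0, (1 - mass K n m) ≤
      (q : ℝ) + (q : ℝ) ^ 2 * δ := by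
  calc ∑ m ∈ (univ : Finset (ZMod q × ZMod q)).erase 0, (1 - mass K n m)
      ≤ ∑ m : ZMod q × ZMod q, (1 - mass K n m) :=
        sum_le_sum_of_subset_of_nonneg (erase_subset _ _)
          fun m _ _ => sub_nonneg.2 (mass_le_one K m)
    _ ≤ ∑ m : ZMod q × ZMod q, ((if m.1 = 0 then (1 : ℝ) else 0) + δ) := by
        refine sum_le_sum fun m _ => ?_
        split_ifs with h
        · have : 0 ≤ mass K n m := sum_nonneg fun _ _ => sq_nonneg _
          linarith
        · have := hmass m h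
          linarith
    _ = (q : ℝ) + (q : ℝ) ^ 2 * δ := by
        rw [sum_add_distrib, sum_boole, card_fst_zero, sum_const, card_univ, Fintype.card_prod,
          ZMod.card, nsmul_eq_mul]
        push_cast
        ring

lemma energy_eq (K : ℕ) :
    ∑ M ∈ patS q K n, ‖patC q M‖ ^ 2 =
      ((q : ℝ) ^ 2)⁻¹ * ∑ m ∈ (univ : Finset (ZMod q × ZMod q)).erase 0, mass K n m := by
  simp only [sum_patS, mass, mul_sum, patC, norm_mul, norm_inv, Complex.norm_natCast, mul_pow,
    inv_pow]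

lemma error_le (K : ℕ) (θ : Fin (n + 2) → ℝ) (ξ : ℝ) :
    ∫ φ in cube (n + 2), ‖∑ r ∈ range (q + 1),
        ((if slope (point q (θ + φ)) = r then 1 else 0) - mean q r -
          ∑ M ∈ patS q K n, patC q M * avec q (pickZ (cls (q := q) M)) r * chr M (θ + φ)) *
            ex (r * ξ)‖ ^ 2 ≤
      4 / (q : ℝ) ^ 2 *
        ∑ m ∈ (univ : Finset (ZMod q × ZMod q)).erase 0, (1 - mass K n m) := by
  set E := (univ : Finset (ZMod q × ZMod q)).erase 0 with hE
  set A : ZMod q × ZMod q → ℂ := fun m =>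
    (q : ℂ)⁻¹ * ∑ r ∈ range (q + 1), avec q (pickZ m) r * ex (r * ξ) with hA
  have e : ∀ x : Fin (n + 2) → ℝ, ∑ r ∈ range (q + 1),
      ((if slope (point q x) = r then 1 else 0) - mean q r -
        ∑ M ∈ patS q K n, patC q M * avec q (pickZ (cls (q := q) M)) r * chr M x) *
          ex (r * ξ) = ∑ m ∈ E, A m * rem K m x := by
    intro x
    rw [sum_congr rfl fun r hr => by rw [error_eq K x (Nat.lt_succ_iff.1 (mem_range.1 hr))]]
    simp only [sum_mul, hA, mul_sum]
    rw [sum_comm]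
    exact sum_congr rfl fun m _ => sum_congr rfl fun r _ => by ring
  simp only [e]
  rw [restrict_cube]
  set ν := Measure.pi fun _ : Fin (n + 2) => nu
  have bA : ∀ m, ‖A m‖ ^ 2 ≤ 4 / (q : ℝ) ^ 2 := fun m => by
    rw [hA, norm_mul, norm_inv, Complex.norm_natCast, mul_pow, inv_pow, div_eq_inv_mul]
    refine mul_le_mul_of_nonneg_left ?_ (by positivity)
    calc ‖∑ r ∈ range (q + 1), avec q (pickZ m) r * ex (r * ξ)‖ ^ 2 ≤ (2 : ℝ) ^ 2 :=
          pow_le_pow_left₀ (norm_nonneg _)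
            (norm_avec_sum_le (pickZ m) (fun r => ex (r * ξ)) fun r => (norm_ex _).le) 2
      _ = 4 := by norm_num
  have hint : ∀ m m', Integrable
      (fun φ => A m * rem K m (θ + φ) * (conj (A m') * conj (rem K m' (θ + φ)))) ν := fun m m' =>
    integrable_bdd (f := fun x => A m * rem K m x * (conj (A m') * conj (rem K m' x)))
      (((measurable_rem K m).const_mul _).mul
        ((Complex.continuous_conj.measurable.comp (measurable_rem K m')).const_mul _))
      (C := ‖A m‖ * (1 + ∑ M ∈ Sm K n m, ‖coef q M‖) *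
        (‖A m'‖ * (1 + ∑ M ∈ Sm K n m', ‖coef q M‖)))
      (fun x => by
        simp only [norm_mul, RCLike.norm_conj]
        gcongr <;> exact norm_rem_le _ _ _) θ
  have main : ((∫ φ, ‖∑ m ∈ E, A m * rem K m (θ + φ)‖ ^ 2 ∂ν : ℝ) : ℂ) =
      ((∑ m ∈ E, ‖A m‖ ^ 2 * (1 - mass K n m) : ℝ) : ℂ) := by
    rw [← integral_complex_ofReal]
    have e2 : ∀ z : ℂ, (((‖z‖ ^ 2 : ℝ)) : ℂ) = z * conj z := fun z => by
      rw [Complex.mul_conj, Complex.normSq_eq_norm_sq]
    simp only [e2, map_sum, map_mul, sum_mul_sum]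
    rw [integral_finsetSum _ fun m _ => integrable_finsetSum _ fun m' _ => hint m m',
      sum_congr rfl fun m _ => integral_finsetSum _ fun m' _ => hint m m', Complex.ofReal_sum]
    simp only [mul_mul_mul_comm (A _) _ (conj (A _)), integral_const_mul]
    refine sum_congr rfl fun m hm => ?_
    simp only [ν, rem_rem, mul_ite, mul_zero, sum_ite_eq, if_pos hm, Complex.mul_conj,
      Complex.normSq_eq_norm_sq]
    push_cast
    ring
  rw [Complex.ofReal_inj.1 main, mul_sum]
  exact sum_le_sum fun m _ => mul_le_mul_of_nonneg_right (bA m) (sub_nonneg.2 (mass_le_one K m))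

end Pat

open Pat in
/-- Patterns exist for large primes. -/
theorem pattern_stmt : PatternStmt := by
  intro η hη
  obtain ⟨q₀, hq₀⟩ := exists_nat_gt (20 / η)
  refine ⟨q₀, fun q hq hq₀q => ?_⟩
  have : Fact q.Prime := ⟨hq⟩
  have hqpos : (0 : ℝ) < q := Nat.cast_pos.2 hq.pos
  have hqη : 1 / (q : ℝ) ≤ η / 20 := by
    have h1 : 20 / η ≤ q := hq₀.le.trans (Nat.cast_le.2 hq₀q)
    rw [div_le_iff₀ hη] at h1
    rw [div_le_iff₀ hqpos]
    linarith
  obtain ⟨η', hη', hη'1, hη'2⟩ : ∃ η' : ℝ, 0 < η' ∧ η' ≤ η / 60 ∧ η' ≤ 1 :=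
    ⟨min (η / 60) 1, lt_min (by positivity) one_pos, min_le_left _ _, min_le_right _ _⟩
  obtain ⟨n, hn⟩ := exists_dim (q := q) hη'
  obtain ⟨K, hK⟩ := exists_box (q := q) (ε := η' / (n + 2 : ℕ)) (by positivity)
  have hmass : ∀ m : ZMod q × ZMod q, m.1 ≠ 0 → 1 - 3 * η' ≤ mass K n m := fun m hm => by
    have h := mass_ge hm (ε := η' / (n + 2 : ℕ)) (δ := η') ?_ hK hn
    · rw [mul_div_cancel₀ η' (Nat.cast_ne_zero.2 (by omega))] at h
      linarith
    · rw [div_le_one (by positivity)]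
      push_cast
      linarith [Nat.cast_nonneg (α := ℝ) n]
  have hdef := sum_defect_le (n := n) K (by positivity : (0 : ℝ) ≤ 3 * η') hmass
  have hE : (((univ : Finset (ZMod q × ZMod q)).erase 0).card : ℝ) = (q : ℝ) ^ 2 - 1 := by
    have := card_erase_add_one (mem_univ (0 : ZMod q × ZMod q))
    rw [card_univ, Fintype.card_prod, ZMod.card] at this
    have h : (((univ : Finset (ZMod q × ZMod q)).erase 0).card : ℝ) + 1 = (q : ℝ) * q := by
      exact_mod_cast this
    linarith [sq (q : ℝ)]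
  have hmle : ∑ m ∈ (univ : Finset (ZMod q × ZMod q)).erase 0, mass K n m ≤ (q : ℝ) ^ 2 := by
    refine (sum_le_sum fun m _ => mass_le_one K m).trans ?_
    rw [sum_const, nsmul_eq_mul, mul_one, hE]
    linarith
  refine ⟨{ d := n + 2, S := patS q K n, c := patC q, pick := fun M => pickZ (cls (q := q) M),
            sym := fun θ => slope (point q θ), prim := ?_, neg_mem := ?_, conj_c := ?_,
            c_ne := ?_, pick_le := fun M _ => pickZ_le _, energy_le := ?_, le_energy := ?_,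
            sym_le := fun θ => slope_le _, sym_meas := measurable_slope_point, close := ?_ }⟩
  · intro M hM
    obtain ⟨m, hm⟩ := mem_patS.1 hM
    exact gcd_eq_one hm
  · intro M hM
    obtain ⟨m, hm⟩ := mem_patS.1 hM
    exact mem_patS.2 ⟨-m, neg_mem_Sm hm⟩
  · intro M _
    simp [patC, conj_coef]
  · intro M hM
    obtain ⟨m, hm⟩ := mem_patS.1 hM
    exact mul_ne_zero (inv_ne_zero (Nat.cast_ne_zero.2 hq.ne_zero)) (mem_Sm.1 hm).2.2.1
  · rw [energy_eq, inv_mul_le_iff₀ (by positivity), mul_one]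
    exact hmle
  · rw [energy_eq, le_inv_mul_iff₀ (by positivity)]
    rw [sum_sub_distrib, sum_const, nsmul_eq_mul, mul_one, hE] at hdef
    have h1 : 1 ≤ (q : ℝ) := by exact_mod_cast hq.one_le
    rw [div_le_iff₀ hqpos] at hqη
    nlinarith
  · intro θ ξ
    refine (error_le K θ ξ).trans ((mul_le_mul_of_nonneg_left hdef (by positivity)).trans ?_)
    have : 4 / (q : ℝ) ^ 2 * ((q : ℝ) + (q : ℝ) ^ 2 * (3 * η')) =
        4 * (1 / (q : ℝ)) + 12 * η' := by
      field_simp
      ring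
    rw [this]
    linarith

end Vale.Agent.P130.Simple
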