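import Vale.Agent.P130.Simple.Defs

/-!
# P130: every chain is realised by a rank one system on the unit interval

Level `n` of tower `J` is the interval number `idx C J n` of length `wd C J`.  Copy `i` of level
`k` is the sub-interval number `i` of level `k`; the spacers come from the right of the tower.
As every copy of a tower is preceded and followed by spacers, every point of `[0,1)` is eventually
in an interior level, so the translations define a bijection of `[0,1)` exactly.
-/

open Finset MeasureTheory Filter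
open scoped Topology

namespace Vale.Agent.P130.Simple.Space

variable (C : Chain)

theorem H_lt_B (J : ℕ) : C.H J + 2 * (J + 1) ≤ C.B J := by
  have h₁ := C.lead J 0
  have h₂ := C.trail J 0
  omega

theorem le_H_succ (J : ℕ) : C.B J ≤ C.H (J + 1) := by
  rw [C.H_succ]
  exact Nat.le_mul_of_pos_left _ (C.p_pos J)

theorem succ_le_H (J : ℕ) : J + 1 ≤ C.H J := by
  induction J with
  | zero => simp [C.H_zero]
  | succ J ih =>
    have := H_lt_B C J
    have := le_H_succ C J
    omega

theorem H_pos (J : ℕ) : 0 < C.H J := by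
  have := succ_le_H C J
  omega

theorem B_pos (J : ℕ) : 0 < C.B J := by
  have := H_lt_B C J
  omega

/-! ### Widths -/

/-- The width of stage `J` before normalisation. -/
noncomputable def u (J : ℕ) : ℝ := ((∏ j ∈ range J, C.p j : ℕ) : ℝ)⁻¹

/-- The measure of tower `J` before normalisation. -/
noncomputable def Mr (J : ℕ) : ℝ := C.H J * u C J

theorem u_pos (J : ℕ) : 0 < u C J :=
  inv_pos.mpr (Nat.cast_pos.mpr (Finset.prod_pos fun j _ => C.p_pos j))

theorem u_succ (J : ℕ) : u C (J + 1) * C.p J = u C J := by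
  have h : (C.p J : ℝ) ≠ 0 := Nat.cast_ne_zero.mpr (C.p_pos J).ne'
  simp only [u, Finset.prod_range_succ, Nat.cast_mul, mul_inv]
  rw [mul_assoc, inv_mul_cancel₀ h, mul_one]

theorem Mr_pos (J : ℕ) : 0 < Mr C J :=
  mul_pos (Nat.cast_pos.mpr (H_pos C J)) (u_pos C J)

theorem Mr_succ (J : ℕ) : Mr C (J + 1) = C.B J * u C J := by
  rw [Mr, C.H_succ, Nat.cast_mul, ← u_succ C J]
  ring

theorem Mr_lt_succ (J : ℕ) : Mr C J < Mr C (J + 1) := by
  rw [Mr_succ, Mr]
  refine mul_lt_mul_of_pos_right (Nat.cast_lt.mpr ?_) (u_pos C J)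
  have := H_lt_B C J
  omega

theorem Mr_le_exp (J : ℕ) :
    Mr C J ≤ Real.exp (∑ j ∈ range J, ((C.B j : ℝ) - C.H j) / C.H j) := by
  induction J with
  | zero => simp [Mr, u, C.H_zero]
  | succ J ih =>
    rw [Finset.sum_range_succ, Real.exp_add]
    have hH : (0 : ℝ) < C.H J := Nat.cast_pos.mpr (H_pos C J)
    have h : Mr C (J + 1) = Mr C J * (((C.B J : ℝ) - C.H J) / C.H J + 1) := by
      rw [Mr_succ, Mr]
      field_simp
      ring
    rw [h]
    refine mul_le_mul ih (Real.add_one_le_exp _) ?_ (Real.exp_pos _).le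
    have : (C.H J : ℝ) ≤ C.B J := Nat.cast_le.mpr (by have := H_lt_B C J; omega)
    have := div_nonneg (sub_nonneg.mpr this) hH.le
    linarith

/-- The measure of the whole space before normalisation. -/
noncomputable def total : ℝ := ⨆ J, Mr C J

theorem Mr_bdd : BddAbove (Set.range (Mr C)) := by
  refine ⟨Real.exp (∑' j, ((C.B j : ℝ) - C.H j) / C.H j), ?_⟩
  rintro _ ⟨J, rfl⟩
  refine (Mr_le_exp C J).trans (Real.exp_le_exp.mpr (C.small.sum_le_tsum _ fun j _ => ?_))
  refine div_nonneg (sub_nonneg.mpr (Nat.cast_le.mpr ?_)) (Nat.cast_nonneg _)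
  have := H_lt_B C j
  omega

theorem Mr_lt_total (J : ℕ) : Mr C J < total C :=
  (Mr_lt_succ C J).trans_le (le_ciSup (Mr_bdd C) (J + 1))

theorem total_pos : 0 < total C := (Mr_pos C 0).trans (Mr_lt_total C 0)

/-- The width of stage `J`. -/
noncomputable def wd (J : ℕ) : ℝ := u C J / total C

theorem wd_pos (J : ℕ) : 0 < wd C J := div_pos (u_pos C J) (total_pos C)

theorem wd_succ (J : ℕ) : wd C (J + 1) * C.p J = wd C J := by
  rw [wd, wd, div_mul_eq_mul_div, u_succ]

theorem H_mul_wd (J : ℕ) : (C.H J : ℝ) * wd C J = Mr C J / total C := by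
  rw [wd, Mr, mul_div_assoc]

theorem H_mul_wd_lt_one (J : ℕ) : (C.H J : ℝ) * wd C J < 1 := by
  rw [H_mul_wd, div_lt_one (total_pos C)]
  exact Mr_lt_total C J

theorem H_mul_wd_mono : Monotone fun J => (C.H J : ℝ) * wd C J := by
  refine monotone_nat_of_le_succ fun J => ?_
  simp only [H_mul_wd]
  exact div_le_div_of_nonneg_right (Mr_lt_succ C J).le (total_pos C).le

theorem exists_tower {x : ℝ} (hx : x < 1) : ∃ J, x < C.H J * wd C J := by
  have : x * total C < ⨆ J, Mr C J := by
    calc x * total C < 1 * total C := mul_lt_mul_of_pos_right hx (total_pos C)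
      _ = ⨆ J, Mr C J := one_mul _
  obtain ⟨J, hJ⟩ := exists_lt_of_lt_ciSup this
  exact ⟨J, by rw [H_mul_wd, lt_div_iff₀ (total_pos C)]; exact hJ⟩

theorem tendsto_wd : Tendsto (wd C) atTop (𝓝 0) := by
  refine squeeze_zero (fun J => (wd_pos C J).le) (fun J => ?_)
    tendsto_one_div_add_atTop_nhds_zero_nat
  have h₁ : ((J : ℝ) + 1) * wd C J ≤ C.H J * wd C J :=
    mul_le_mul_of_nonneg_right (by exact_mod_cast succ_le_H C J) (wd_pos C J).le
  rw [le_div_iff₀ (by positivity)]
  nlinarith [H_mul_wd_lt_one C J]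

/-! ### The index of a level -/

/-- The position in `[0,1)` of level `n` of tower `J`, in units of `wd C J`. -/
def idx : ℕ → ℕ → ℕ
  | 0, n => n
  | J + 1, n =>
    let i := n / C.B J
    let r := n % C.B J
    if C.off J i ≤ r ∧ r < C.off J i + C.H J then C.p J * idx J (r - C.off J i) + i
    else C.p J * C.H J + (i * (C.B J - C.H J) + if r < C.off J i then r else r - C.H J)

theorem idx_child (J i k : ℕ) (hk : k < C.H J) :
    idx C (J + 1) (C.t J i + k) = C.p J * idx C J k + i := by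
  have h := C.trail J i
  have hdiv : (C.t J i + k) / C.B J = i := by
    have : C.t J i + k = (C.off J i + k) + i * C.B J := by simp only [Chain.t]; ring
    rw [this, Nat.add_mul_div_right _ _ (B_pos C J), Nat.div_eq_of_lt (by omega), zero_add]
  have hmod : (C.t J i + k) % C.B J = C.off J i + k := by
    have : C.t J i + k = (C.off J i + k) + i * C.B J := by simp only [Chain.t]; ring
    rw [this, Nat.add_mul_mod_self_right, Nat.mod_eq_of_lt (by omega)]
  simp only [idx, hdiv, hmod]
  rw [if_pos ⟨by omega, by omega⟩]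
  simp

theorem idx_lt : ∀ J n : ℕ, n < C.H J → idx C J n < C.H J := by
  intro J
  induction J with
  | zero => intro n hn; simpa [idx] using hn
  | succ J ih =>
    intro n hn
    rw [C.H_succ] at hn ⊢
    have hB := B_pos C J
    have hi : n / C.B J < C.p J := (Nat.div_lt_iff_lt_mul hB).mpr hn
    have hr : n % C.B J < C.B J := Nat.mod_lt _ hB
    have htr := C.trail J (n / C.B J)
    simp only [idx]
    generalize n / C.B J = i at *
    generalize n % C.B J = r at *
    split_ifs with h h'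
    · have h₁ : C.p J * (idx C J (r - C.off J i) + 1) ≤ C.p J * C.B J := by
        refine Nat.mul_le_mul_left _ ?_
        have := ih (r - C.off J i) (by omega)
        omega
      rw [Nat.mul_add, Nat.mul_one] at h₁
      omega
    all_goals
      have h₁ : (i + 1) * (C.B J - C.H J) ≤ C.p J * (C.B J - C.H J) :=
        Nat.mul_le_mul_right _ hi
      rw [Nat.add_mul, Nat.one_mul] at h₁
      have hsub : C.p J * (C.B J - C.H J) = C.p J * C.B J - C.p J * C.H J := Nat.mul_sub ..
      have h₂ : C.p J * C.H J ≤ C.p J * C.B J := Nat.mul_le_mul_left _ (by omega)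
      omega

theorem idx_inj : ∀ J : ℕ, Set.InjOn (idx C J) (Set.Iio (C.H J)) := by
  intro J
  induction J with
  | zero => intro n _ m _ h; simpa [idx] using h
  | succ J ih =>
    intro n hn m hm h
    have hB := B_pos C J
    simp only [Set.mem_Iio, C.H_succ] at hn hm
    have hi : n / C.B J < C.p J := (Nat.div_lt_iff_lt_mul hB).mpr hn
    have hi' : m / C.B J < C.p J := (Nat.div_lt_iff_lt_mul hB).mpr hm
    have hr : n % C.B J < C.B J := Nat.mod_lt _ hB
    have hr' : m % C.B J < C.B J := Nat.mod_lt _ hB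
    have htr := C.trail J (n / C.B J)
    have htr' := C.trail J (m / C.B J)
    have key : n / C.B J = m / C.B J ∧ n % C.B J = m % C.B J := by
      simp only [idx] at h
      generalize n / C.B J = i at *
      generalize n % C.B J = r at *
      generalize m / C.B J = i' at *
      generalize m % C.B J = r' at *
      by_cases hc : C.off J i ≤ r ∧ r < C.off J i + C.H J <;>
        by_cases hc' : C.off J i' ≤ r' ∧ r' < C.off J i' + C.H J
      · rw [if_pos hc, if_pos hc'] at h
        have e₁ : i = i' := by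
          have := congrArg (· % C.p J) h
          simpa [Nat.mul_add_mod, Nat.mod_eq_of_lt hi, Nat.mod_eq_of_lt hi'] using this
        subst e₁
        have e₂ : idx C J (r - C.off J i) = idx C J (r' - C.off J i) :=
          Nat.eq_of_mul_eq_mul_left (C.p_pos J) (by omega)
        have := ih (Set.mem_Iio.mpr (by omega)) (Set.mem_Iio.mpr (by omega)) e₂
        omega
      · rw [if_pos hc, if_neg hc'] at h
        have h₁ : C.p J * (idx C J (r - C.off J i) + 1) ≤ C.p J * C.H J :=
          Nat.mul_le_mul_left _ (idx_lt C J _ (by omega))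
        rw [Nat.mul_add, Nat.mul_one] at h₁
        omega
      · rw [if_neg hc, if_pos hc'] at h
        have h₁ : C.p J * (idx C J (r' - C.off J i') + 1) ≤ C.p J * C.H J :=
          Nat.mul_le_mul_left _ (idx_lt C J _ (by omega))
        rw [Nat.mul_add, Nat.mul_one] at h₁
        omega
      · rw [if_neg hc, if_neg hc'] at h
        have h₁ := Nat.add_left_cancel h
        have e₁ : i = i' := by
          have := congrArg (· / (C.B J - C.H J)) h₁
          have hp : 0 < C.B J - C.H J := by omega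
          have hs : (if r < C.off J i then r else r - C.H J) < C.B J - C.H J := by
            split_ifs <;> omega
          have hs' : (if r' < C.off J i' then r' else r' - C.H J) < C.B J - C.H J := by
            split_ifs <;> omega
          simpa [Nat.mul_comm i, Nat.mul_comm i', Nat.mul_add_div hp, Nat.div_eq_of_lt hs,
            Nat.div_eq_of_lt hs'] using this
        subst e₁
        have h₂ := Nat.add_left_cancel h₁
        split_ifs at h₂ <;> omega
    calc n = n / C.B J * C.B J + n % C.B J := (Nat.div_add_mod' n _).symm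
      _ = m / C.B J * C.B J + m % C.B J := by rw [key.1, key.2]
      _ = m := Nat.div_add_mod' m _

theorem idx_surj (J a : ℕ) (ha : a < C.H J) : ∃ n, n < C.H J ∧ idx C J n = a := by
  have h : (range (C.H J)).image (idx C J) = range (C.H J) := by
    refine Finset.eq_of_subset_of_card_le ?_ ?_
    · intro b hb
      obtain ⟨n, hn, rfl⟩ := Finset.mem_image.mp hb
      exact Finset.mem_range.mpr (idx_lt C J n (Finset.mem_range.mp hn))
    · rw [Finset.card_image_of_injOn]
      intro n hn m hm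
      exact idx_inj C J (Finset.mem_range.mp hn) (Finset.mem_range.mp hm)
  have ha' := Finset.mem_range.mpr ha
  rw [← h, Finset.mem_image] at ha'
  obtain ⟨n, hn, e⟩ := ha'
  exact ⟨n, Finset.mem_range.mp hn, e⟩

/-! ### The levels -/

/-- Level `n` of tower `J`. -/
noncomputable def lvl (J n : ℕ) : Set ℝ :=
  Set.Ico ((idx C J n : ℝ) * wd C J) (((idx C J n : ℝ) + 1) * wd C J)

theorem mem_lvl_iff {J n : ℕ} {x : ℝ} :
    x ∈ lvl C J n ↔ 0 ≤ x / wd C J ∧ ⌊x / wd C J⌋₊ = idx C J n := by
  simp only [lvl, Set.mem_Ico, ← le_div_iff₀ (wd_pos C J), ← div_lt_iff₀ (wd_pos C J)]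
  constructor
  · intro h
    have h0 : 0 ≤ x / wd C J := le_trans (Nat.cast_nonneg _) h.1
    exact ⟨h0, (Nat.floor_eq_iff h0).mpr h⟩
  · rintro ⟨h0, h⟩
    exact (Nat.floor_eq_iff h0).mp h

theorem lvl_subset {J n : ℕ} (hn : n < C.H J) :
    lvl C J n ⊆ Set.Ico 0 ((C.H J : ℝ) * wd C J) := by
  intro x hx
  refine ⟨le_trans (mul_nonneg (Nat.cast_nonneg _) (wd_pos C J).le) hx.1,
    lt_of_lt_of_le hx.2 (mul_le_mul_of_nonneg_right ?_ (wd_pos C J).le)⟩
  exact_mod_cast idx_lt C J n hn

theorem lvl_subset_unit {J n : ℕ} (hn : n < C.H J) : lvl C J n ⊆ Set.Ico 0 1 :=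
  (lvl_subset C hn).trans (Set.Ico_subset_Ico_right (H_mul_wd_lt_one C J).le)

theorem lvl_unique {J m n : ℕ} {x : ℝ} (hm : m < C.H J) (hn : n < C.H J)
    (h₁ : x ∈ lvl C J m) (h₂ : x ∈ lvl C J n) : m = n :=
  idx_inj C J hm hn (((mem_lvl_iff C).mp h₁).2.symm.trans ((mem_lvl_iff C).mp h₂).2)

theorem exists_lvl {J : ℕ} {x : ℝ} (h0 : 0 ≤ x) (h : x < C.H J * wd C J) :
    ∃ n, n < C.H J ∧ x ∈ lvl C J n := by
  have hx : 0 ≤ x / wd C J := div_nonneg h0 (wd_pos C J).le
  have ha : ⌊x / wd C J⌋₊ < C.H J :=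
    (Nat.floor_lt hx).mpr ((div_lt_iff₀ (wd_pos C J)).mpr h)
  obtain ⟨n, hn, e⟩ := idx_surj C J _ ha
  exact ⟨n, hn, (mem_lvl_iff C).mpr ⟨hx, e.symm⟩⟩

theorem volume_lvl (J n : ℕ) : volume (lvl C J n) = ENNReal.ofReal (wd C J) := by
  rw [lvl, Real.volume_Ico]
  ring_nf

theorem t_add_lt {J i k : ℕ} (hi : i < C.p J) (hk : k < C.H J) :
    C.t J i + k + 1 < C.H (J + 1) := by
  have h := C.trail J i
  rw [C.H_succ]
  calc C.t J i + k + 1 < i * C.B J + C.B J := by simp only [Chain.t]; omega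
    _ = (i + 1) * C.B J := by ring
    _ ≤ C.p J * C.B J := Nat.mul_le_mul_right _ hi

theorem lvl_split {J k : ℕ} (hk : k < C.H J) :
    lvl C J k = ⋃ i ∈ range (C.p J), lvl C (J + 1) (C.t J i + k) := by
  have hp : (0 : ℝ) < C.p J := Nat.cast_pos.mpr (C.p_pos J)
  ext x
  simp only [Set.mem_iUnion, Finset.mem_range, exists_prop, mem_lvl_iff C, idx_child C J _ k hk]
  have e : x / wd C J = x / wd C (J + 1) / C.p J := by rw [← wd_succ C J, div_div]
  rw [e, Nat.floor_div_natCast]
  constructor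
  · rintro ⟨h0, h⟩
    refine ⟨⌊x / wd C (J + 1)⌋₊ % C.p J, Nat.mod_lt _ (C.p_pos J), ?_, ?_⟩
    · exact nonneg_of_mul_nonneg_left (div_eq_mul_inv (x / wd C (J + 1)) _ ▸ h0)
        (inv_pos.mpr hp)
    · rw [← h, Nat.div_add_mod]
  · rintro ⟨i, hi, h0, h⟩
    exact ⟨div_nonneg h0 hp.le, by rw [h, Nat.mul_add_div (C.p_pos J), Nat.div_eq_of_lt hi, add_zero]⟩

/-- The translation from level `n` of tower `J` to level `n + 1`. -/
noncomputable def jump (J n : ℕ) : ℝ :=
  ((idx C J (n + 1) : ℝ) - idx C J n) * wd C J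

theorem add_jump_mem {J n : ℕ} {x : ℝ} :
    x + jump C J n ∈ lvl C J (n + 1) ↔ x ∈ lvl C J n := by
  simp only [lvl, jump, Set.mem_Ico]
  constructor <;> rintro ⟨h₁, h₂⟩ <;> constructor <;> nlinarith

theorem jump_lift {J K n : ℕ} {x : ℝ} (hJK : J ≤ K) (hn : n + 1 < C.H J)
    (hx : x ∈ lvl C J n) :
    ∃ m, m + 1 < C.H K ∧ x ∈ lvl C K m ∧ jump C K m = jump C J n := by
  induction K, hJK using Nat.le_induction with
  | base => exact ⟨n, hn, hx, rfl⟩
  | succ K _ ih =>
    obtain ⟨m, hm, hxm, e⟩ := ih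
    rw [lvl_split C (by omega : m < C.H K)] at hxm
    simp only [Set.mem_iUnion, Finset.mem_range, exists_prop] at hxm
    obtain ⟨i, hi, hxi⟩ := hxm
    refine ⟨C.t K i + m, t_add_lt C hi (by omega), hxi, ?_⟩
    rw [← e, jump, jump, add_assoc, idx_child C K i m (by omega),
      idx_child C K i (m + 1) hm, ← wd_succ C K]
    push_cast
    ring

theorem interior {x : ℝ} (hx : x ∈ Set.Ico (0 : ℝ) 1) :
    ∃ J n, n + 2 < C.H J ∧ x ∈ lvl C J (n + 1) := by
  obtain ⟨J, hJ⟩ := exists_tower C hx.2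
  obtain ⟨n, hn, hxn⟩ := exists_lvl C hx.1 hJ
  rw [lvl_split C hn] at hxn
  simp only [Set.mem_iUnion, Finset.mem_range, exists_prop] at hxn
  obtain ⟨i, hi, hxi⟩ := hxn
  have h1 : 1 ≤ C.t J i + n := by
    have := C.lead J i
    simp only [Chain.t]
    omega
  refine ⟨J + 1, C.t J i + n - 1, ?_, ?_⟩
  · have := t_add_lt C hi hn
    omega
  · rwa [Nat.sub_add_cancel h1]

/-! ### The transformation -/

open Classical in
/-- The translation of each level to the next one. -/
noncomputable def fwd (x : ℝ) : ℝ :=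
  if h : ∃ q : ℕ × ℕ, q.2 + 1 < C.H q.1 ∧ x ∈ lvl C q.1 q.2 then
    x + jump C h.choose.1 h.choose.2
  else x

open Classical in
/-- The translation of each level to the previous one. -/
noncomputable def bwd (y : ℝ) : ℝ :=
  if h : ∃ q : ℕ × ℕ, q.2 + 1 < C.H q.1 ∧ y ∈ lvl C q.1 (q.2 + 1) then
    y - jump C h.choose.1 h.choose.2
  else y

theorem jump_unique {J n J' n' : ℕ} {x : ℝ} (hn : n + 1 < C.H J) (hx : x ∈ lvl C J n)
    (hn' : n' + 1 < C.H J') (hx' : x ∈ lvl C J' n') : jump C J n = jump C J' n' := by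
  obtain ⟨m, hm, hxm, e⟩ := jump_lift C (le_max_left J J') hn hx
  obtain ⟨m', hm', hxm', e'⟩ := jump_lift C (le_max_right J J') hn' hx'
  obtain rfl : m = m' := lvl_unique C (by omega) (by omega) hxm hxm'
  exact e.symm.trans e'

theorem fwd_eq {J n : ℕ} {x : ℝ} (hn : n + 1 < C.H J) (hx : x ∈ lvl C J n) :
    fwd C x = x + jump C J n := by
  have h : ∃ q : ℕ × ℕ, q.2 + 1 < C.H q.1 ∧ x ∈ lvl C q.1 q.2 := ⟨(J, n), hn, hx⟩
  rw [fwd, dif_pos h, jump_unique C h.choose_spec.1 h.choose_spec.2 hn hx]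

theorem fwd_out {x : ℝ} (hx : x ∉ Set.Ico (0 : ℝ) 1) : fwd C x = x := by
  rw [fwd, dif_neg]
  rintro ⟨q, hq, hxq⟩
  exact hx (lvl_subset_unit C (by omega : q.2 < C.H q.1) hxq)

theorem bwd_out {x : ℝ} (hx : x ∉ Set.Ico (0 : ℝ) 1) : bwd C x = x := by
  rw [bwd, dif_neg]
  rintro ⟨q, hq, hxq⟩
  exact hx (lvl_subset_unit C (by omega : q.2 + 1 < C.H q.1) hxq)

theorem bwd_eq {J n : ℕ} {y : ℝ} (hn : n + 1 < C.H J) (hy : y ∈ lvl C J (n + 1)) :
    bwd C y = y - jump C J n := by
  have h : ∃ q : ℕ × ℕ, q.2 + 1 < C.H q.1 ∧ y ∈ lvl C q.1 (q.2 + 1) := ⟨(J, n), hn, hy⟩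
  rw [bwd, dif_pos h]
  set q := h.choose with hq
  have hq₁ : q.2 + 1 < C.H q.1 := h.choose_spec.1
  have hq₂ : y ∈ lvl C q.1 (q.2 + 1) := h.choose_spec.2
  have hx₁ : y - jump C J n ∈ lvl C J n :=
    (add_jump_mem C).mp (by rwa [sub_add_cancel])
  have hx₂ : y - jump C q.1 q.2 ∈ lvl C q.1 q.2 :=
    (add_jump_mem C).mp (by rwa [sub_add_cancel])
  obtain ⟨m, hm, hxm, e⟩ := jump_lift C (le_max_left J q.1) hn hx₁
  obtain ⟨m', hm', hxm', e'⟩ := jump_lift C (le_max_right J q.1) hq₁ hx₂
  have hy₁ := (add_jump_mem C).mpr hxm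
  have hy₂ := (add_jump_mem C).mpr hxm'
  rw [e, sub_add_cancel] at hy₁
  rw [e', sub_add_cancel] at hy₂
  have hmm : m + 1 = m' + 1 := lvl_unique C hm hm' hy₁ hy₂
  obtain rfl : m = m' := by omega
  rw [← e, ← e']

theorem bwd_fwd (x : ℝ) : bwd C (fwd C x) = x := by
  by_cases hx : x ∈ Set.Ico (0 : ℝ) 1
  · obtain ⟨J, n, hn, hxn⟩ := interior C hx
    rw [fwd_eq C hn hxn, bwd_eq C hn ((add_jump_mem C).mpr hxn), add_sub_cancel_right]
  · rw [fwd_out C hx, bwd_out C hx]

theorem fwd_bwd (x : ℝ) : fwd C (bwd C x) = x := by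
  by_cases hx : x ∈ Set.Ico (0 : ℝ) 1
  · obtain ⟨J, n, hn, hxn⟩ := interior C hx
    have hn' : n + 1 < C.H J := by omega
    have h : x - jump C J n ∈ lvl C J n := (add_jump_mem C).mp (by rwa [sub_add_cancel])
    rw [bwd_eq C hn' hxn, fwd_eq C hn' h, sub_add_cancel]
  · rw [bwd_out C hx, fwd_out C hx]

/-- The stage `J` approximation of the transformation. -/
noncomputable def stage (δ : ℕ → ℕ → ℝ) (e : ℕ) (J : ℕ) (x : ℝ) : ℝ :=
  x + ∑ n ∈ range (C.H J - 1), (lvl C J (n + e)).indicator (fun _ => δ J n) x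

theorem measurable_stage (δ : ℕ → ℕ → ℝ) (e J : ℕ) : Measurable (stage C δ e J) :=
  measurable_id.add (Finset.measurable_sum _ fun _ _ =>
    measurable_const.indicator measurableSet_Ico)

theorem stage_out (δ : ℕ → ℕ → ℝ) {e : ℕ} (he : e ≤ 1) (J : ℕ) {x : ℝ}
    (hx : x ∉ Set.Ico (0 : ℝ) 1) : stage C δ e J x = x := by
  rw [stage, Finset.sum_eq_zero, add_zero]
  intro n hn
  rw [Finset.mem_range] at hn
  exact Set.indicator_of_notMem
    (fun h => hx (lvl_subset_unit C (by omega : n + e < C.H J) h)) _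

theorem stage_in (δ : ℕ → ℕ → ℝ) {e : ℕ} (he : e ≤ 1) {J n : ℕ} {x : ℝ}
    (hn : n + 1 < C.H J) (hx : x ∈ lvl C J (n + e)) : stage C δ e J x = x + δ J n := by
  rw [stage, Finset.sum_eq_single n, Set.indicator_of_mem hx]
  · intro b hb hne
    rw [Finset.mem_range] at hb
    refine Set.indicator_of_notMem (fun h => hne ?_) _
    have := lvl_unique C (by omega) (by omega) h hx
    omega
  · intro h
    exact absurd (Finset.mem_range.mpr (by omega)) h

theorem lift_from_interior {x : ℝ} (hx : x ∈ Set.Ico (0 : ℝ) 1) :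
    ∀ᶠ K in atTop, ∃ m, m + 2 < C.H K ∧ x ∈ lvl C K (m + 1) := by
  obtain ⟨J, hJ⟩ := exists_tower C hx.2
  filter_upwards [eventually_ge_atTop (J + 1)] with K hK
  obtain ⟨L, rfl⟩ : ∃ L, K = L + 1 := ⟨K - 1, by omega⟩
  obtain ⟨n, hn, hxn⟩ := exists_lvl C hx.1 (hJ.trans_le (H_mul_wd_mono C (by omega : J ≤ L)))
  rw [lvl_split C hn] at hxn
  simp only [Set.mem_iUnion, Finset.mem_range, exists_prop] at hxn
  obtain ⟨i, hi, hxi⟩ := hxn
  have h1 : 1 ≤ C.t L i + n := by
    have := C.lead L i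
    simp only [Chain.t]
    omega
  refine ⟨C.t L i + n - 1, ?_, ?_⟩
  · have := t_add_lt C hi hn
    omega
  · rwa [Nat.sub_add_cancel h1]

theorem measurable_fwd : Measurable (fwd C) := by
  refine measurable_of_tendsto_metrizable
    (fun J => measurable_stage C (jump C) 0 J) (tendsto_pi_nhds.mpr fun x => ?_)
  refine tendsto_const_nhds.congr' ?_
  by_cases hx : x ∈ Set.Ico (0 : ℝ) 1
  · filter_upwards [lift_from_interior C hx] with K hK
    obtain ⟨m, hm, hxm⟩ := hK
    rw [fwd_eq C hm hxm, stage_in C (jump C) zero_le_one hm (by simpa using hxm)]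
  · filter_upwards with K
    rw [fwd_out C hx, stage_out C (jump C) zero_le_one K hx]

theorem measurable_bwd : Measurable (bwd C) := by
  refine measurable_of_tendsto_metrizable
    (fun J => measurable_stage C (fun J n => -jump C J n) 1 J)
    (tendsto_pi_nhds.mpr fun x => ?_)
  refine tendsto_const_nhds.congr' ?_
  by_cases hx : x ∈ Set.Ico (0 : ℝ) 1
  · filter_upwards [lift_from_interior C hx] with K hK
    obtain ⟨m, hm, hxm⟩ := hK
    have hm' : m + 1 < C.H K := by omega
    rw [bwd_eq C hm' hxm, stage_in C (fun J n => -jump C J n) le_rfl hm' hxm, sub_eq_add_neg]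
  · filter_upwards with K
    rw [bwd_out C hx, stage_out C (fun J n => -jump C J n) le_rfl K hx]

/-- The rank one transformation. -/
noncomputable def T : ℝ ≃ᵐ ℝ where
  toEquiv := ⟨fwd C, bwd C, bwd_fwd C, fwd_bwd C⟩
  measurable_toFun := measurable_fwd C
  measurable_invFun := measurable_bwd C

theorem T_apply (x : ℝ) : T C x = fwd C x := rfl

/-- Lebesgue measure on the unit interval. -/
noncomputable def μ₀ : Measure ℝ := volume.restrict (Set.Ico (0 : ℝ) 1)

theorem fwd_mem {x : ℝ} (hx : x ∈ Set.Ico (0 : ℝ) 1) : fwd C x ∈ Set.Ico (0 : ℝ) 1 := by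
  by_contra h
  have := bwd_fwd C x
  rw [bwd_out C h] at this
  exact h (this.symm ▸ hx)

theorem preimage_lvl {J n : ℕ} (hn : n + 1 < C.H J) :
    T C ⁻¹' lvl C J (n + 1) = lvl C J n := by
  ext x
  simp only [Set.mem_preimage, T_apply]
  constructor
  · intro h
    have := bwd_eq C hn h
    rw [bwd_fwd] at this
    rw [this]
    exact (add_jump_mem C).mp (by rwa [sub_add_cancel])
  · intro h
    rw [fwd_eq C hn h]
    exact (add_jump_mem C).mpr h

theorem preimage_unit : T C ⁻¹' Set.Ico (0 : ℝ) 1 = Set.Ico (0 : ℝ) 1 := by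
  ext x
  simp only [Set.mem_preimage, T_apply]
  refine ⟨fun h => ?_, fwd_mem C⟩
  by_contra hx
  rw [fwd_out C hx] at h
  exact hx h

/-- The interior of tower `J`, shifted by `e`. -/
noncomputable def part (e J : ℕ) : Set ℝ := ⋃ n ∈ range (C.H J - 1), lvl C J (n + e)

theorem part_mono {e : ℕ} (he : e ≤ 1) : Monotone (part C e) := by
  refine monotone_nat_of_le_succ fun J => ?_
  intro x hx
  simp only [part, Set.mem_iUnion, Finset.mem_range, exists_prop] at hx ⊢
  obtain ⟨n, hn, hxn⟩ := hx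
  rw [lvl_split C (by omega : n + e < C.H J)] at hxn
  simp only [Set.mem_iUnion, Finset.mem_range, exists_prop] at hxn
  obtain ⟨i, hi, hxi⟩ := hxn
  refine ⟨C.t J i + n, ?_, by rwa [add_assoc]⟩
  have := t_add_lt C hi (by omega : n + e < C.H J)
  omega

theorem part_union {e : ℕ} (he : e ≤ 1) : ⋃ J, part C e J = Set.Ico (0 : ℝ) 1 := by
  refine Set.Subset.antisymm (Set.iUnion_subset fun J => ?_) fun x hx => ?_
  · refine Set.iUnion₂_subset fun n hn => lvl_subset_unit C ?_
    rw [Finset.mem_range] at hn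
    omega
  · obtain ⟨J, n, hn, hxn⟩ := interior C hx
    simp only [part, Set.mem_iUnion, Finset.mem_range, exists_prop]
    refine ⟨J, n + 1 - e, by omega, ?_⟩
    rwa [Nat.sub_add_cancel (by omega)]

theorem volume_inter_part {s : Set ℝ} (hs : MeasurableSet s) {e : ℕ} (he : e ≤ 1) (J : ℕ) :
    volume (s ∩ part C e J) = ∑ n ∈ range (C.H J - 1), volume (s ∩ lvl C J (n + e)) := by
  rw [part, Set.inter_iUnion₂]
  refine measure_biUnion_finset ?_ fun n _ => hs.inter measurableSet_Ico
  intro a ha b hb hab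
  simp only [Finset.coe_range, Set.mem_Iio] at ha hb
  refine Set.disjoint_left.mpr fun x hxa hxb => hab ?_
  have := lvl_unique C (by omega) (by omega) hxa.2 hxb.2
  omega

theorem volume_preimage_unit {s : Set ℝ} (hs : MeasurableSet s) :
    volume (T C ⁻¹' s ∩ Set.Ico (0 : ℝ) 1) = volume (s ∩ Set.Ico (0 : ℝ) 1) := by
  rw [← part_union C (e := 0) (by omega), Set.inter_iUnion,
    Monotone.measure_iUnion (fun a b h => Set.inter_subset_inter_right _
      (part_mono C (e := 0) (by omega) h))]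
  rw [part_union C (e := 0) (by omega), ← part_union C (e := 1) le_rfl, Set.inter_iUnion,
    Monotone.measure_iUnion (fun a b h => Set.inter_subset_inter_right _
      (part_mono C (e := 1) le_rfl h))]
  refine iSup_congr fun J => ?_
  rw [volume_inter_part C ((T C).measurable hs) (by omega), volume_inter_part C hs le_rfl]
  refine Finset.sum_congr rfl fun n hn => ?_
  rw [Finset.mem_range] at hn
  have hn' : n + 1 < C.H J := by omega
  have : T C ⁻¹' s ∩ lvl C J (n + 0) =
      (fun x => x + jump C J n) ⁻¹' (s ∩ lvl C J (n + 1)) := by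
    ext x
    simp only [add_zero, Set.mem_inter_iff, Set.mem_preimage, T_apply, add_jump_mem]
    exact and_congr_left fun h => by rw [fwd_eq C hn' h]
  rw [this, measure_preimage_add_right]

theorem T_mp : MeasurePreserving (T C) μ₀ μ₀ := by
  refine ⟨(T C).measurable, Measure.ext fun s hs => ?_⟩
  rw [Measure.map_apply (T C).measurable hs, μ₀, Measure.restrict_apply ((T C).measurable hs),
    Measure.restrict_apply hs]
  exact volume_preimage_unit C hs

/-! ### Density of step functions -/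

theorem stepFun_lvl (a : ℕ → ℂ) {J n : ℕ} {x : ℝ} (hn : n < C.H J) (hx : x ∈ lvl C J n) :
    stepFun (lvl C J) (C.H J) a x = a n := by
  rw [stepFun, Finset.sum_eq_single n, Set.indicator_of_mem hx]
  · intro b hb hne
    exact Set.indicator_of_notMem
      (fun h => hne (lvl_unique C (Finset.mem_range.mp hb) hn h hx)) _
  · intro h
    exact absurd (Finset.mem_range.mpr hn) h

theorem norm_stepFun_le {a : ℕ → ℂ} {K : ℝ} (hK : 0 ≤ K) (ha : ∀ n, ‖a n‖ ≤ K) (J : ℕ)
    (x : ℝ) : ‖stepFun (lvl C J) (C.H J) a x‖ ≤ K := by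
  by_cases h : ∃ n, n < C.H J ∧ x ∈ lvl C J n
  · obtain ⟨n, hn, hx⟩ := h
    rw [stepFun_lvl C a hn hx]
    exact ha n
  · rw [stepFun, Finset.sum_eq_zero, norm_zero]
    · exact hK
    · intro n hn
      exact Set.indicator_of_notMem (fun h' => h ⟨n, Finset.mem_range.mp hn, h'⟩) _

theorem measurable_stepFun (a : ℕ → ℂ) (J : ℕ) : Measurable (stepFun (lvl C J) (C.H J) a) :=
  Finset.measurable_sum _ fun _ _ => measurable_const.indicator measurableSet_Ico

theorem tendsto_step (g : BoundedContinuousFunction ℝ ℂ) :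
    Tendsto (fun J => ∫ x, ‖g x -
        stepFun (lvl C J) (C.H J) (fun n => g ((idx C J n : ℝ) * wd C J)) x‖ ^ 2 ∂μ₀)
      atTop (𝓝 0) := by
  have : IsFiniteMeasure μ₀ := by
    rw [μ₀]
    exact isFiniteMeasure_restrict.mpr (by simp [Real.volume_Ico])
  rw [← integral_zero ℝ ℝ (μ := μ₀)]
  refine tendsto_integral_of_dominated_convergence (fun _ => (2 * ‖g‖) ^ 2) (fun J => ?_)
    (integrable_const _) (fun J => ?_) ?_
  · exact (((g.continuous.measurable.sub (measurable_stepFun C _ J)).norm).pow_const 2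
      ).aestronglyMeasurable
  · refine Eventually.of_forall fun x => ?_
    rw [norm_pow, norm_norm, two_mul]
    gcongr
    exact (norm_sub_le _ _).trans (add_le_add (g.norm_coe_le_norm x)
      (norm_stepFun_le C (norm_nonneg g) (fun n => g.norm_coe_le_norm _) J x))
  · rw [μ₀]
    filter_upwards [ae_restrict_mem measurableSet_Ico] with x hx
    obtain ⟨J₀, hJ₀⟩ := exists_tower C hx.2
    have hlim : Tendsto (fun J => (⌊x / wd C J⌋₊ : ℝ) * wd C J) atTop (𝓝 x) := by
      refine tendsto_iff_dist_tendsto_zero.mpr (squeeze_zero (fun J => dist_nonneg)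
        (fun J => ?_) (tendsto_wd C))
      rw [Real.dist_eq, abs_le]
      have h₁ := Nat.floor_le (div_nonneg hx.1 (wd_pos C J).le)
      have h₂ := Nat.lt_floor_add_one (x / wd C J)
      rw [le_div_iff₀ (wd_pos C J)] at h₁
      rw [div_lt_iff₀ (wd_pos C J)] at h₂
      constructor <;> nlinarith [wd_pos C J]
    have h := ((g.continuous.tendsto x).comp hlim).const_sub (g x)
    rw [sub_self] at h
    have h' := (h.norm.pow 2)
    rw [norm_zero, zero_pow (by norm_num : (2 : ℕ) ≠ 0)] at h'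
    refine h'.congr' ?_
    filter_upwards [eventually_ge_atTop J₀] with J hJ
    obtain ⟨n, hn, hxn⟩ := exists_lvl C hx.1 (hJ₀.trans_le (H_mul_wd_mono C hJ))
    simp only [Function.comp_apply]
    rw [stepFun_lvl C _ hn hxn, ((mem_lvl_iff C).mp hxn).2]

theorem step_dense (f : ℝ → ℂ) (hf : MemLp f 2 μ₀) (ε : ℝ) (hε : 0 < ε) :
    ∃ J, ∃ a : ℕ → ℂ, ∫ x, ‖f x - stepFun (lvl C J) (C.H J) a x‖ ^ 2 ∂μ₀ < ε := by
  have : IsFiniteMeasure μ₀ := by
    rw [μ₀]
    exact isFiniteMeasure_restrict.mpr (by simp [Real.volume_Ico])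
  obtain ⟨g, hg, -⟩ := MemLp.exists_boundedContinuous_integral_rpow_sub_le
    (μ := μ₀) (p := 2) two_pos (f := f) (by simpa using hf) (by positivity : 0 < ε / 8)
  simp only [Real.rpow_two] at hg
  obtain ⟨J, hJ⟩ := ((tendsto_step C g).eventually_lt_const
    (by positivity : (0 : ℝ) < ε / 8)).exists
  set a : ℕ → ℂ := fun n => g ((idx C J n : ℝ) * wd C J)
  refine ⟨J, a, ?_⟩
  set s := stepFun (lvl C J) (C.H J) a with hs
  have hg2 : MemLp (fun x => g x) 2 μ₀ :=
    MemLp.of_bound g.continuous.aestronglyMeasurable ‖g‖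
      (Eventually.of_forall g.norm_coe_le_norm)
  have hs2 : MemLp s 2 μ₀ :=
    MemLp.of_bound (measurable_stepFun C a J).aestronglyMeasurable ‖g‖
      (Eventually.of_forall (norm_stepFun_le C (norm_nonneg g)
        (fun n => g.norm_coe_le_norm _) J))
  have i₁ : Integrable (fun x => ‖f x - g x‖ ^ 2) μ₀ := (hf.sub hg2).integrable_norm_pow two_ne_zero
  have i₂ : Integrable (fun x => ‖g x - s x‖ ^ 2) μ₀ := (hg2.sub hs2).integrable_norm_pow two_ne_zero
  have i₃ : Integrable (fun x => ‖f x - s x‖ ^ 2) μ₀ := (hf.sub hs2).integrable_norm_pow two_ne_zero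
  have hle : ∫ x, ‖f x - s x‖ ^ 2 ∂μ₀ ≤
      ∫ x, (2 * ‖f x - g x‖ ^ 2 + 2 * ‖g x - s x‖ ^ 2) ∂μ₀ := by
    refine integral_mono i₃ ((i₁.const_mul 2).add (i₂.const_mul 2)) fun x => ?_
    have := norm_sub_le_norm_sub_add_norm_sub (f x) (g x) (s x)
    show ‖f x - s x‖ ^ 2 ≤ 2 * ‖f x - g x‖ ^ 2 + 2 * ‖g x - s x‖ ^ 2
    nlinarith [sq_nonneg (‖f x - g x‖ - ‖g x - s x‖), norm_nonneg (f x - s x)]
  rw [integral_add (i₁.const_mul 2) (i₂.const_mul 2), integral_const_mul,
    integral_const_mul] at hle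
  linarith

/-- Every chain is realised on the unit interval. -/
theorem spaceStmt : SpaceStmt := by
  intro C
  have hp : IsProbabilityMeasure μ₀ := ⟨by simp [μ₀, Real.volume_Ico]⟩
  exact ⟨{
    μ := μ₀
    prob := hp
    noAtoms := (inferInstance : NullSingletonClass (volume.restrict (Set.Ico (0 : ℝ) 1)))
    T := T C
    mp := T_mp C
    lev := lvl C
    w := wd C
    w_pos := wd_pos C
    w_succ := wd_succ C
    meas := fun _ _ => measurableSet_Ico
    mass := fun J n hn => by
      rw [μ₀, measureReal_def, Measure.restrict_apply' measurableSet_Ico,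
        Set.inter_eq_self_of_subset_left (lvl_subset_unit C hn), volume_lvl,
        ENNReal.toReal_ofReal (wd_pos C J).le]
    disj := fun J m n hm hn hmn =>
      Set.disjoint_left.mpr fun x h h' => hmn (lvl_unique C hm hn h h')
    shift := fun J n hn => Eventually.of_forall fun x => by rw [preimage_lvl C hn]
    split := fun J k hk => Eventually.of_forall fun x => by rw [← lvl_split C hk]
    dense := step_dense C }⟩

end Vale.Agent.P130.Simple.Space
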