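import Vale.Agent.P130.Simple.Space

/-!
# P130: every chain is realised by a measure preserving system
-/

namespace Vale.Agent.P130.Simple

/-- Every chain is realised. -/
theorem space_stmt : SpaceStmt := Space.spaceStmt

end Vale.Agent.P130.Simple
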