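import Vale.Agent.P130.Simple.Spectral.Main
import Vale.Agent.P130.Simple.Spectral.Circle

/-!
# P130: every flat chain has simple Lebesgue spectrum
-/

namespace Vale.Agent.P130.Simple

theorem spectral_stmt : SpectralStmt := Spectral.spectralStmt_of Spectral.circleStmt

end Vale.Agent.P130.Simple
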