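import Vale.Agent.P130.Simple.Defs

/-!
# P130: facts on weights of low degree

Polynomials of degree less than `B` translated by different multiples of `B` are orthogonal, and
their squared moduli do not see `B`-periodic oscillation.
-/

open Finset MeasureTheory
open scoped ComplexConjugate

namespace Vale.Agent.P130.Simple

open Vale.Agent.P110.UF (ex)

lemma wt_ex_add (x y : ℝ) : ex (x + y) = ex x * ex y := by
  simp only [ex, ← Complex.exp_add]; congr 1; push_cast; ring

lemma wt_ex_conj (x : ℝ) : conj (ex x) = ex (-x) := by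
  rw [ex, ex, ← Complex.exp_conj]
  simp [Complex.conj_ofReal, map_ofNat]

lemma wt_ex_int (k : ℤ) : ex k = 1 := by
  rw [ex, ← Complex.exp_int_mul_two_pi_mul_I k]
  congr 1; push_cast; ring

lemma wt_norm_ex (x : ℝ) : ‖ex x‖ = 1 := Complex.norm_exp_ofReal_mul_I _

lemma wt_ex_cont : Continuous ex := by unfold ex; fun_prop

lemma wt_ex_ne_one {m : ℤ} {B : ℕ} (hm : m ≠ 0) (hB : m.natAbs < B) :
    ex ((m : ℝ) / B) ≠ 1 := by
  intro h
  rw [ex, Complex.exp_eq_one_iff] at h
  obtain ⟨n, hn⟩ := h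
  have hB0 : (B : ℝ) ≠ 0 := Nat.cast_ne_zero.2 (by omega)
  have h1 : (2 * Real.pi * ((m : ℝ) / B)) = 2 * Real.pi * (n : ℝ) := by
    have := congrArg Complex.im hn
    simp at this
    linarith
  have h2 : (m : ℝ) = (n : ℝ) * B := by
    have := mul_left_cancel₀ (by positivity) h1
    rwa [div_eq_iff hB0] at this
  have h3 : m = n * (B : ℤ) := by exact_mod_cast h2
  rw [h3, Int.natAbs_mul, Int.natAbs_natCast] at hB
  rcases Nat.eq_zero_or_pos n.natAbs with h0 | h0
  · exact hm (by rw [h3, Int.natAbs_eq_zero.1 h0, zero_mul])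
  · exact absurd (Nat.le_mul_of_pos_left B h0) (not_le.2 hB)

lemma integral_ex_int (m : ℤ) :
    ∫ ξ in (0 : ℝ)..1, ex ((m : ℝ) * ξ) = if m = 0 then 1 else 0 := by
  split_ifs with h
  · simp [h, ex]
  have hc : Function.Periodic (fun ξ : ℝ => ex ((m : ℝ) * ξ)) 1 := fun x => by
    show ex _ = ex _
    rw [mul_add, mul_one, wt_ex_add, wt_ex_int, mul_one]
  set B := m.natAbs + 1
  have he : ex ((m : ℝ) / B) ≠ 1 := wt_ex_ne_one h (Nat.lt_succ_self _)
  have key : ∫ ξ in (0 : ℝ)..1, ex ((m : ℝ) * ξ) =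
      (∫ ξ in (0 : ℝ)..1, ex ((m : ℝ) * ξ)) * ex ((m : ℝ) / B) := by
    have h1 := intervalIntegral.integral_comp_add_right (fun ξ => ex ((m : ℝ) * ξ))
      (a := (0 : ℝ)) (b := 1) ((1 : ℝ) / B)
    rw [zero_add, add_comm (1 : ℝ), hc.intervalIntegral_add_eq (1 / B) 0, zero_add] at h1
    rw [← intervalIntegral.integral_mul_const]
    conv_lhs => rw [← h1]
    refine intervalIntegral.integral_congr fun x _ => ?_
    show ex _ = ex _ * ex _
    rw [mul_add, wt_ex_add, mul_one_div]
  by_contra h0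
  exact he ((mul_eq_left₀ h0).1 key.symm)

/-- Oscillation slower than the period is orthogonal to periodic functions. -/
lemma integral_ex_periodic {B : ℕ} {m : ℤ} (hm : m.natAbs < B) {f : ℝ → ℂ}
    (hf : Function.Periodic f 1) (hi : IntervalIntegrable f volume 0 1) :
    ∫ ξ in (0 : ℝ)..1, ex ((m : ℝ) * ξ) * f (B * ξ) =
      if m = 0 then ∫ v in (0 : ℝ)..1, f v else 0 := by
  have hB : (B : ℝ) ≠ 0 := by
    have : 0 < B := lt_of_le_of_lt (Nat.zero_le _) hm
    positivity
  have hall := hf.intervalIntegrable₀ one_ne_zero hi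
  split_ifs with h
  · subst h
    have e : ∀ ξ : ℝ, ex (((0 : ℤ) : ℝ) * ξ) * f (B * ξ) = f (B * ξ) := fun ξ => by simp [ex]
    simp only [e]
    have h1 := hf.intervalIntegral_add_zsmul_eq (B : ℤ) 0 hall
    simp only [zsmul_eq_mul, Int.cast_natCast, mul_one, zero_add] at h1
    rw [intervalIntegral.integral_comp_mul_left f hB, mul_zero, mul_one, h1, Complex.real_smul]
    push_cast
    rw [← mul_assoc, inv_mul_cancel₀ (by exact_mod_cast hB), one_mul]
  have hc : Function.Periodic (fun ξ : ℝ => ex ((m : ℝ) * ξ) * f (B * ξ)) 1 := fun x => by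
    have := hf.int_mul B (B * x)
    simp only [mul_one, Int.cast_natCast] at this
    show ex _ * f _ = ex _ * f _
    rw [mul_add, mul_one, wt_ex_add, wt_ex_int, mul_one, mul_add, mul_one, this]
  have he : ex ((m : ℝ) / B) ≠ 1 := wt_ex_ne_one h hm
  have key : ∫ ξ in (0 : ℝ)..1, ex ((m : ℝ) * ξ) * f (B * ξ) =
      (∫ ξ in (0 : ℝ)..1, ex ((m : ℝ) * ξ) * f (B * ξ)) * ex ((m : ℝ) / B) := by
    have h1 := intervalIntegral.integral_comp_add_right
      (fun ξ => ex ((m : ℝ) * ξ) * f (B * ξ)) (a := (0 : ℝ)) (b := 1) ((1 : ℝ) / B)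
    rw [zero_add, add_comm (1 : ℝ), hc.intervalIntegral_add_eq (1 / B) 0, zero_add] at h1
    rw [← intervalIntegral.integral_mul_const]
    conv_lhs => rw [← h1]
    refine intervalIntegral.integral_congr fun x _ => ?_
    show ex _ * f _ = ex _ * f _ * ex _
    rw [mul_add (B : ℝ), mul_one_div, div_self hB, hf _, mul_add, wt_ex_add, mul_one_div]
    ring
  by_contra h0
  exact he ((mul_eq_left₀ h0).1 key.symm)

lemma tp_cont (g : ℕ → ℂ) (n : ℕ) : Continuous (tp g n) :=
  continuous_finsetSum _ fun _ _ => continuous_const.mul (wt_ex_cont.comp (by fun_prop))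

lemma norm_sq_eq_conj_mul (z : ℂ) : ((‖z‖ ^ 2 : ℝ) : ℂ) = conj z * z := by
  rw [← Complex.normSq_eq_norm_sq, Complex.normSq_eq_conj_mul_self]

lemma conj_tp_mul (g h : ℕ → ℂ) (n : ℕ) (ξ : ℝ) :
    conj (tp g n ξ) * tp h n ξ =
      ∑ k ∈ range n, ∑ l ∈ range n, conj (g k) * h l * ex ((((l : ℤ) - k : ℤ) : ℝ) * ξ) := by
  simp only [tp, map_sum, map_mul, sum_mul, mul_sum]
  rw [Finset.sum_comm]
  refine sum_congr rfl fun k _ => sum_congr rfl fun l _ => ?_
  rw [wt_ex_conj, mul_mul_mul_comm, ← wt_ex_add]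
  congr 2
  push_cast; ring

/-- Low degree weights see the mean of a fast periodic function. -/
lemma weight_mean (B n : ℕ) (g : ℕ → ℂ) (f : ℝ → ℝ) (hn : n ≤ B) (hf : Function.Periodic f 1)
    (hi : IntervalIntegrable f volume 0 1) :
    ∫ ξ in (0 : ℝ)..1, ‖tp g n ξ‖ ^ 2 * f (B * ξ) =
      (∫ v in (0 : ℝ)..1, f v) * ∑ k ∈ range n, ‖g k‖ ^ 2 := by
  rcases Nat.eq_zero_or_pos n with rfl | hn0
  · simp [tp]
  have hB : (B : ℝ) ≠ 0 := by
    have : 0 < B := lt_of_lt_of_le hn0 hn
    positivity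
  set F : ℝ → ℂ := fun v => (f v : ℂ)
  have hF : Function.Periodic F 1 := fun x => by simp only [F, hf x]
  have hFi : IntervalIntegrable F volume 0 1 := ⟨hi.1.ofReal, hi.2.ofReal⟩
  have hFB : IntervalIntegrable (fun ξ => F (B * ξ)) volume 0 1 := by
    have := (hF.intervalIntegrable₀ one_ne_zero hFi 0 B).comp_mul_left (c := (B : ℝ))
    simpa [zero_div, div_self hB] using this
  have hterm : ∀ k l, IntervalIntegrable (fun ξ =>
      conj (g k) * g l * (ex ((((l : ℤ) - k : ℤ) : ℝ) * ξ) * F (B * ξ))) volume 0 1 := fun k l =>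
    (hFB.continuousOn_mul (wt_ex_cont.comp (by fun_prop)).continuousOn).const_mul _
  have e : ∀ ξ : ℝ, ((‖tp g n ξ‖ ^ 2 * f (B * ξ) : ℝ) : ℂ) = ∑ k ∈ range n, ∑ l ∈ range n,
      conj (g k) * g l * (ex ((((l : ℤ) - k : ℤ) : ℝ) * ξ) * F (B * ξ)) := fun ξ => by
    rw [Complex.ofReal_mul, norm_sq_eq_conj_mul, conj_tp_mul, sum_mul]
    refine sum_congr rfl fun k _ => ?_
    rw [sum_mul]
    exact sum_congr rfl fun l _ => mul_assoc _ _ _
  apply Complex.ofReal_injective
  rw [← intervalIntegral.integral_ofReal, Complex.ofReal_mul, ← intervalIntegral.integral_ofReal,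
    Complex.ofReal_sum]
  simp only [e]
  rw [intervalIntegral.integral_finsetSum fun k _ => by
    simpa [Finset.sum_fn] using IntervalIntegrable.sum _ fun l _ => hterm k l, mul_sum]
  refine sum_congr rfl fun k hk => ?_
  rw [intervalIntegral.integral_finsetSum fun l _ => hterm k l, sum_eq_single k]
  · rw [intervalIntegral.integral_const_mul, sub_self,
      integral_ex_periodic (by simp only [Int.natAbs_zero]; omega) hF hFi, if_pos rfl,
      norm_sq_eq_conj_mul]
    ring
  · intro l hl hlk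
    rw [intervalIntegral.integral_const_mul, integral_ex_periodic ?_ hF hFi, if_neg (by omega),
      mul_zero]
    have := mem_range.1 hk
    have := mem_range.1 hl
    omega
  · exact fun h => absurd hk h

/-- Blocks further apart than their degrees do not interfere. -/
lemma weight_blocks (B D n p : ℕ) (g : ℕ → ℂ) (e : ℕ → ℕ → ℂ) (hn : n + D ≤ B) :
    ∫ ξ in (0 : ℝ)..1, ‖tp g n ξ‖ ^ 2 *
        ‖∑ b ∈ range p, tp (e b) (D + 1) ξ * ex (((b * B : ℕ) : ℝ) * ξ)‖ ^ 2 =
      ∫ ξ in (0 : ℝ)..1, ‖tp g n ξ‖ ^ 2 * ∑ b ∈ range p, ‖tp (e b) (D + 1) ξ‖ ^ 2 := by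
  set F : ℕ → ℝ → ℂ := fun b ξ => tp g n ξ * tp (e b) (D + 1) ξ * ex (((b * B : ℕ) : ℝ) * ξ)
  have hF : ∀ b, Continuous (F b) := fun b =>
    ((tp_cont _ _).mul (tp_cont _ _)).mul (wt_ex_cont.comp (by fun_prop))
  have hcross : ∀ b b', b ≠ b' → ∫ ξ in (0 : ℝ)..1, conj (F b ξ) * F b' ξ = 0 := by
    intro b b' hbb
    have hexp : ∀ ξ, conj (F b ξ) * F b' ξ = ∑ k ∈ range n, ∑ l ∈ range n,
        ∑ r ∈ range (D + 1), ∑ s ∈ range (D + 1),
          conj (g k) * g l * (conj (e b r) * e b' s) *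
            ex (((((l : ℤ) - k) + ((s : ℤ) - r) + ((b' : ℤ) - b) * B : ℤ) : ℝ) * ξ) := fun ξ => by
      have hr : ∑ r ∈ range (D + 1), ∑ s ∈ range (D + 1),
          conj (e b r) * e b' s * ex ((((s : ℤ) - r : ℤ) : ℝ) * ξ) =
          conj (tp (e b) (D + 1) ξ) * tp (e b') (D + 1) ξ := (conj_tp_mul _ _ _ _).symm
      have hb : ex ((((b' : ℤ) - b) * B : ℤ) * ξ) =
          conj (ex (((b * B : ℕ) : ℝ) * ξ)) * ex (((b' * B : ℕ) : ℝ) * ξ) := by
        rw [wt_ex_conj, ← wt_ex_add]; congr 1; push_cast; ring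
      calc conj (F b ξ) * F b' ξ = (conj (tp g n ξ) * tp g n ξ) *
            ((conj (tp (e b) (D + 1) ξ) * tp (e b') (D + 1) ξ) *
              ex ((((b' : ℤ) - b) * B : ℤ) * ξ)) := by
            simp only [F, map_mul, hb]; ring
        _ = _ := by
            rw [← hr, conj_tp_mul, sum_mul]
            refine sum_congr rfl fun k _ => ?_
            rw [sum_mul]
            refine sum_congr rfl fun l _ => ?_
            rw [sum_mul, mul_sum]
            refine sum_congr rfl fun r _ => ?_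
            rw [sum_mul, mul_sum]
            refine sum_congr rfl fun s _ => ?_
            simp only [Int.cast_add, add_mul, wt_ex_add]
            ring
    have hterm : ∀ k l r s, IntervalIntegrable (fun ξ => conj (g k) * g l * (conj (e b r) * e b' s) *
        ex (((((l : ℤ) - k) + ((s : ℤ) - r) + ((b' : ℤ) - b) * B : ℤ) : ℝ) * ξ)) volume 0 1 :=
      fun k l r s => (continuous_const.mul (wt_ex_cont.comp (by fun_prop))).intervalIntegrable _ _
    have hs3 : ∀ k l r, IntervalIntegrable (fun ξ => ∑ s ∈ range (D + 1),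
        conj (g k) * g l * (conj (e b r) * e b' s) *
          ex (((((l : ℤ) - k) + ((s : ℤ) - r) + ((b' : ℤ) - b) * B : ℤ) : ℝ) * ξ)) volume 0 1 :=
      fun k l r => by simpa [Finset.sum_fn] using IntervalIntegrable.sum _ fun s _ => hterm k l r s
    have hs2 : ∀ k l, IntervalIntegrable (fun ξ => ∑ r ∈ range (D + 1), ∑ s ∈ range (D + 1),
        conj (g k) * g l * (conj (e b r) * e b' s) *
          ex (((((l : ℤ) - k) + ((s : ℤ) - r) + ((b' : ℤ) - b) * B : ℤ) : ℝ) * ξ)) volume 0 1 :=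
      fun k l => by simpa [Finset.sum_fn] using IntervalIntegrable.sum _ fun r _ => hs3 k l r
    simp only [hexp]
    rw [intervalIntegral.integral_finsetSum fun k _ => by
      simpa [Finset.sum_fn] using IntervalIntegrable.sum _ fun l _ => hs2 k l]
    refine sum_eq_zero fun k hk => ?_
    rw [intervalIntegral.integral_finsetSum fun l _ => hs2 k l]
    refine sum_eq_zero fun l hl => ?_
    rw [intervalIntegral.integral_finsetSum fun r _ => hs3 k l r]
    refine sum_eq_zero fun r hr => ?_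
    rw [intervalIntegral.integral_finsetSum fun s _ => hterm k l r s]
    refine sum_eq_zero fun s hs => ?_
    rw [intervalIntegral.integral_const_mul, integral_ex_int, if_neg, mul_zero]
    intro h0
    have := mem_range.1 hk
    have := mem_range.1 hl
    have := mem_range.1 hr
    have := mem_range.1 hs
    rcases lt_or_gt_of_ne hbb with hlt | hlt
    · have : (1 : ℤ) * B ≤ ((b' : ℤ) - b) * B :=
        mul_le_mul_of_nonneg_right (by omega) (Int.natCast_nonneg _)
      omega
    · have : ((b' : ℤ) - b) * B ≤ -1 * B :=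
        mul_le_mul_of_nonneg_right (by omega) (Int.natCast_nonneg _)
      omega
  apply Complex.ofReal_injective
  rw [← intervalIntegral.integral_ofReal, ← intervalIntegral.integral_ofReal]
  have eL : ∀ ξ : ℝ, ((‖tp g n ξ‖ ^ 2 *
      ‖∑ b ∈ range p, tp (e b) (D + 1) ξ * ex (((b * B : ℕ) : ℝ) * ξ)‖ ^ 2 : ℝ) : ℂ) =
      ∑ b ∈ range p, ∑ b' ∈ range p, conj (F b ξ) * F b' ξ := fun ξ => by
    rw [← mul_pow, ← norm_mul, norm_sq_eq_conj_mul, mul_sum, map_sum, sum_mul]
    refine sum_congr rfl fun b _ => ?_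
    rw [mul_sum]
    refine sum_congr rfl fun b' _ => ?_
    simp only [F, mul_assoc]
  have eR : ∀ ξ : ℝ, ((‖tp g n ξ‖ ^ 2 * ∑ b ∈ range p, ‖tp (e b) (D + 1) ξ‖ ^ 2 : ℝ) : ℂ) =
      ∑ b ∈ range p, conj (F b ξ) * F b ξ := fun ξ => by
    rw [mul_sum, Complex.ofReal_sum]
    refine sum_congr rfl fun b _ => ?_
    rw [← norm_sq_eq_conj_mul]
    simp only [F, norm_mul, wt_norm_ex, mul_one, mul_pow]
  have hc : ∀ b b', Continuous fun ξ => conj (F b ξ) * F b' ξ := fun b b' =>
    (Complex.continuous_conj.comp (hF b)).mul (hF b')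
  simp only [eL, eR]
  rw [intervalIntegral.integral_finsetSum fun b _ =>
      (continuous_finsetSum _ fun b' _ => hc b b').intervalIntegrable _ _,
    intervalIntegral.integral_finsetSum fun b _ => (hc b b).intervalIntegrable _ _]
  refine sum_congr rfl fun b hb => ?_
  rw [intervalIntegral.integral_finsetSum fun b' _ => (hc b b').intervalIntegrable _ _]
  exact sum_eq_single b (fun b' _ hne => hcross b b' (Ne.symm hne)) fun h => absurd hb h

theorem weight_stmt : WeightStmt := ⟨weight_blocks, weight_mean⟩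

end Vale.Agent.P130.Simple
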